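import Vale.Agent.P204.Defs

/-!
Elementary algebra of the wedge pairing.
-/

open scoped Matrix

namespace Vale.Agent.P204

variable (s : ℝ)

lemma qR_comm (u v : F6) : qR s u v = qR s v u := by
  simp only [qR, Fin.sum_univ_succ, Fin.sum_univ_zero]
  norm_num [Fin.succ]
  ring_nf
  left
  simp [show (3 : Fin 6) + 3 = 0 from rfl, show (4 : Fin 6) + 3 = 1 from rfl,
    show (5 : Fin 6) + 3 = 2 from rfl]
  ring

lemma qR_add_left (u v w : F6) : qR s (u + v) w = qR s u w + qR s v w := by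
  simp only [qR, Pi.add_apply, add_mul, Finset.sum_add_distrib, mul_add]

lemma qR_smul_left (a : ℝ) (u v : F6) : qR s (a • u) v = a * qR s u v := by
  simp only [qR, Pi.smul_apply, smul_eq_mul, mul_assoc, ← Finset.mul_sum]
  ring

lemma qR_add_right (u v w : F6) : qR s u (v + w) = qR s u v + qR s u w := by
  rw [qR_comm, qR_add_left, qR_comm s v, qR_comm s w]

lemma qR_smul_right (a : ℝ) (u v : F6) : qR s u (a • v) = a * qR s u v := by
  rw [qR_comm, qR_smul_left, qR_comm]

lemma qR_sub_left (u v w : F6) : qR s (u - v) w = qR s u w - qR s v w := by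
  rw [eq_sub_iff_add_eq, ← qR_add_left, sub_add_cancel]

lemma qR_sub_right (u v w : F6) : qR s u (v - w) = qR s u v - qR s u w := by
  rw [qR_comm, qR_sub_left, qR_comm s v, qR_comm s w]

lemma qR_zero_left (v : F6) : qR s 0 v = 0 := by simp [qR]

lemma qR_zero_right (v : F6) : qR s v 0 = 0 := by simp [qR]

lemma qR_sum_right {ι : Type*} (A : Finset ι) (u : F6) (v : ι → F6) :
    qR s u (∑ i ∈ A, v i) = ∑ i ∈ A, qR s u (v i) := by
  classical
  induction A using Finset.induction_on with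
  | empty => simp [qR_zero_right]
  | insert a A ha ih => rw [Finset.sum_insert ha, Finset.sum_insert ha, qR_add_right, ih]

lemma abs_qR_le {s : ℝ} (hs : s = 1 ∨ s = -1) (u v : F6) : |qR s u v| ≤ 6 * (‖u‖ * ‖v‖) := by
  have h1 : |s| = 1 := by rcases hs with rfl | rfl <;> simp
  rw [qR, abs_mul, h1, one_mul]
  refine (Finset.abs_sum_le_sum_abs _ _).trans ?_
  refine (Finset.sum_le_card_nsmul _ _ (‖u‖ * ‖v‖) fun i _ => ?_).trans (by simp)
  rw [abs_mul]
  exact mul_le_mul (norm_le_pi_norm u i) (norm_le_pi_norm v _) (abs_nonneg _) (norm_nonneg _)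

lemma continuous_qR : Continuous fun p : F6 × F6 => qR s p.1 p.2 := by
  unfold qR; fun_prop

lemma qR_eq_zero_of_upper {u v : F6} (hu : u 3 = 0 ∧ u 4 = 0 ∧ u 5 = 0)
    (hv : v 3 = 0 ∧ v 4 = 0 ∧ v 5 = 0) : qR s u v = 0 := by
  simp [qR, Fin.sum_univ_succ, hu, hv, Fin.succ, show (3 : Fin 6) + 3 = 0 from rfl,
    show (4 : Fin 6) + 3 = 1 from rfl, show (5 : Fin 6) + 3 = 2 from rfl]

end Vale.Agent.P204
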