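import Vale.Agent.P204.Defs

/-!
Smooth functions on the torus are Lipschitz.
-/

open Filter Topology
open scoped ContDiff

namespace Vale.Agent.P204

lemma pt_add_int (x : Fin 3 → ℝ) (n : Idx) : pt (x + fun i => (n i : ℝ)) = pt x := by
  funext i
  simp [pt]

lemma pt_surjective : Function.Surjective pt := by
  intro z
  choose a ha using fun i => QuotientAddGroup.mk_surjective (z i)
  exact ⟨a, funext ha⟩

lemma exists_lift (z : T3) : ∃ a : Fin 3 → ℝ, pt a = z ∧ ‖a‖ = ‖z‖ := by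
  obtain ⟨b, rfl⟩ := pt_surjective z
  refine ⟨fun i => b i - round (b i), ?_, ?_⟩
  · funext i
    simp [pt]
  · simp only [pt, Pi.norm_def]
    congr 1
    refine Finset.sup_congr rfl fun i _ => NNReal.eq ?_
    simp [UnitAddCircle.norm_eq]

lemma pt_sub (a b : Fin 3 → ℝ) : pt (a - b) = pt a - pt b := by
  funext i; simp [pt]

lemma pt_add (a b : Fin 3 → ℝ) : pt (a + b) = pt a + pt b := by
  funext i; simp [pt]

/-- Two points have lifts at their distance. -/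
lemma exists_lift_pair (y z : T3) : ∃ a b : Fin 3 → ℝ, pt a = y ∧ pt b = z ∧ ‖a - b‖ = dist y z := by
  obtain ⟨a, rfl⟩ := pt_surjective y
  obtain ⟨v, hv, hn⟩ := exists_lift (pt a - z)
  refine ⟨a, a - v, rfl, ?_, ?_⟩
  · rw [pt_sub, hv]; abel
  · rw [sub_sub_cancel, hn, dist_eq_norm]

variable {E : Type*} [NormedAddCommGroup E] [NormedSpace ℝ E]

lemma Sm.fderiv_periodic {f : T3 → E} (_hf : Sm f) (x : Fin 3 → ℝ) (n : Idx) :
    fderiv ℝ (f ∘ pt) (x + fun i => (n i : ℝ)) = fderiv ℝ (f ∘ pt) x := by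
  rw [← fderiv_comp_add_right]
  congr 1
  funext y
  simp [pt_add_int]

lemma Sm.fderiv_bdd {f : T3 → E} (hf : Sm f) :
    ∃ L, 0 ≤ L ∧ ∀ x, ‖fderiv ℝ (f ∘ pt) x‖ ≤ L := by
  have hc : Continuous fun x => ‖fderiv ℝ (f ∘ pt) x‖ :=
    (hf.continuous_fderiv (by simp)).norm
  obtain ⟨x0, -, h0⟩ := (isCompact_Icc (a := (0 : Fin 3 → ℝ)) (b := 1)).exists_isMaxOn
    ⟨0, Set.left_mem_Icc.2 zero_le_one⟩ hc.continuousOn
  refine ⟨_, norm_nonneg (fderiv ℝ (f ∘ pt) x0), fun x => ?_⟩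
  have e : x = (fun i => Int.fract (x i)) + fun i => ((⌊x i⌋ : ℤ) : ℝ) := by
    funext i; simp [Int.fract_add_floor]
  rw [e, Sm.fderiv_periodic hf]
  exact h0 ⟨fun i => Int.fract_nonneg _, fun i => (Int.fract_lt_one _).le⟩

lemma Sm.lipschitz {f : T3 → E} (hf : Sm f) :
    ∃ L, 0 ≤ L ∧ ∀ y z, ‖f y - f z‖ ≤ L * dist y z := by
  obtain ⟨L, hL, hb⟩ := Sm.fderiv_bdd hf
  refine ⟨L, hL, fun y z => ?_⟩
  obtain ⟨a, b, rfl, rfl, h⟩ := exists_lift_pair y z
  rw [← h]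
  exact convex_univ.norm_image_sub_le_of_norm_fderiv_le
    (fun x _ => hf.differentiable (by simp) x) (fun x _ => hb x) (Set.mem_univ b) (Set.mem_univ a)

lemma Sm.continuous {f : T3 → E} (hf : Sm f) : Continuous f := by
  obtain ⟨L, hL, h⟩ := Sm.lipschitz hf
  exact (LipschitzWith.of_dist_le_mul (K := ⟨L, hL⟩) fun y z => by
    rw [dist_eq_norm]; exact h y z).continuous

lemma Sm.bdd {f : T3 → E} (hf : Sm f) : ∃ B, 0 ≤ B ∧ ∀ x, ‖f x‖ ≤ B := by
  obtain ⟨x0, -, h0⟩ := isCompact_univ.exists_isMaxOn Set.univ_nonempty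
    (Sm.continuous hf).norm.continuousOn
  exact ⟨_, norm_nonneg (f x0), fun x => h0 (Set.mem_univ x)⟩

end Vale.Agent.P204
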