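import Vale.Agent.P204.Algebra
import Vale.Agent.P204.Torus

/-!
Lorentzian algebra of the cones of (1,1) forms.
-/

open Filter Topology
open scoped Matrix

namespace Vale.Agent.P204

variable (D : Data)

/-- The part orthogonal to the time vector. -/
def spat (x : T3) (u : F6) : F6 := u - qR D.s u (D.e0 x) • D.e0 x

lemma pr_spat (x : T3) {u : F6} (hu : D.pr x *ᵥ u = 0) : D.pr x *ᵥ spat D x u = 0 := by
  simp [spat, Matrix.mulVec_sub, Matrix.mulVec_smul, hu, D.pr_e0]

lemma qR_spat_e0 (x : T3) (u : F6) : qR D.s (spat D x u) (D.e0 x) = 0 := by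
  rw [spat, qR_sub_left, qR_smul_left, D.unit, mul_one, sub_self]

lemma qR_split (x : T3) (u v : F6) : qR D.s u v =
    qR D.s u (D.e0 x) * qR D.s v (D.e0 x) + qR D.s (spat D x u) (spat D x v) := by
  simp only [spat, qR_sub_left, qR_sub_right, qR_smul_left, qR_smul_right, D.unit,
    qR_comm D.s (D.e0 x) v]
  ring

lemma spat_self_nonpos (x : T3) {u : F6} (hu : D.pr x *ᵥ u = 0) :
    qR D.s (spat D x u) (spat D x u) ≤ 0 := by
  obtain ⟨c, hc, h⟩ := D.neg
  exact (h x _ (pr_spat D x hu) (qR_spat_e0 D x u)).trans (by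
    have : 0 ≤ c * ‖spat D x u‖ ^ 2 := by positivity
    linarith)

lemma cone_bdd : ∃ C : ℝ, ∀ x, ∀ u ∈ D.cone x, ‖u‖ ≤ C * qR D.s u (D.e0 x) := by
  obtain ⟨c, hc, h⟩ := D.neg
  obtain ⟨B, hB, hb⟩ := Sm.bdd D.sm_e0
  refine ⟨B + 1 / Real.sqrt c, fun x u ⟨hu, hq, ha⟩ => ?_⟩
  have h1 := h x _ (pr_spat D x hu) (qR_spat_e0 D x u)
  rw [qR_split D x u u] at hq
  set a := qR D.s u (D.e0 x)
  have hw : ‖spat D x u‖ ≤ 1 / Real.sqrt c * a := by
    have h2 : (Real.sqrt c * ‖spat D x u‖) ^ 2 ≤ a ^ 2 := by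
      rw [mul_pow, Real.sq_sqrt hc.le]; nlinarith
    have h3 := (abs_le_of_sq_le_sq' h2 ha).2
    rw [div_mul_eq_mul_div, one_mul, le_div_iff₀ (Real.sqrt_pos.2 hc)]
    linarith
  have e : u = a • D.e0 x + spat D x u := by simp [spat, a]
  calc ‖u‖ ≤ ‖a • D.e0 x‖ + ‖spat D x u‖ :=
        le_of_eq_of_le (congrArg (‖·‖) e) (norm_add_le _ _)
    _ ≤ a * B + 1 / Real.sqrt c * a := by
        rw [norm_smul, Real.norm_of_nonneg ha]
        exact add_le_add (mul_le_mul_of_nonneg_left (hb x) ha) hw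
    _ = _ := by ring

variable {D}

lemma cone_eq_zero {x : T3} {u : F6} (hu : u ∈ D.cone x) (h : qR D.s u (D.e0 x) = 0) : u = 0 := by
  obtain ⟨C, hC⟩ := cone_bdd D
  have := hC x u hu
  rw [h, mul_zero] at this
  exact norm_le_zero_iff.1 this

lemma cone_pair_nonneg (D : Data) {x : T3} {u v : F6} (hu : u ∈ D.cone x) (hv : v ∈ D.cone x) :
    0 ≤ qR D.s u v := by
  rcases eq_or_lt_of_le hu.2.2 with ha | ha
  · rw [cone_eq_zero hu ha.symm, qR_zero_left]
  rcases eq_or_lt_of_le hv.2.2 with hb | hb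
  · rw [cone_eq_zero hv hb.symm, qR_zero_right]
  set a := qR D.s u (D.e0 x) with ha'
  set b := qR D.s v (D.e0 x) with hb'
  have hu2 := hu.2.1
  have hv2 := hv.2.1
  rw [qR_split D x u u] at hu2
  rw [qR_split D x v v] at hv2
  have hz : D.pr x *ᵥ (b • u - a • v) = 0 := by
    simp [Matrix.mulVec_sub, Matrix.mulVec_smul, hu.1, hv.1]
  have hs : spat D x (b • u - a • v) = b • spat D x u - a • spat D x v := by
    simp only [spat, qR_sub_left, qR_smul_left, sub_smul, smul_sub, mul_smul]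
    abel
  have h0 := spat_self_nonpos D x hz
  rw [hs] at h0
  simp only [qR_sub_left, qR_sub_right, qR_smul_left, qR_smul_right,
    qR_comm D.s (spat D x v) (spat D x u)] at h0
  rw [qR_split D x u v, ← ha', ← hb']
  nlinarith [mul_pos ha hb, mul_nonneg (sq_nonneg b) hu2, mul_nonneg (sq_nonneg a) hv2]

/-- The forward cone condition. -/
lemma mem_cone {x : T3} {u : F6} (h1 : D.pr x *ᵥ u = 0) (h2 : 0 ≤ qR D.s u u)
    (h3 : 0 ≤ qR D.s u (D.e0 x)) : u ∈ D.cone x := ⟨h1, h2, h3⟩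

lemma e0_mem_cone (D : Data) (x : T3) : D.e0 x ∈ D.cone x :=
  mem_cone (D.pr_e0 x) (by rw [D.unit]; exact zero_le_one) (by rw [D.unit]; exact zero_le_one)

lemma pr_lipschitz (D : Data) :
    ∃ L, 0 ≤ L ∧ ∀ x y (v : F6), ‖(D.pr x - D.pr y) *ᵥ v‖ ≤ L * dist x y * ‖v‖ := by
  choose L hL hl using fun i j => Sm.lipschitz (D.sm_pr i j)
  refine ⟨∑ i, ∑ j, L i j, Finset.sum_nonneg fun i _ => Finset.sum_nonneg fun j _ => hL i j,
    fun x y v => (pi_norm_le_iff_of_nonneg (by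
      have : 0 ≤ ∑ i, ∑ j, L i j := Finset.sum_nonneg fun i _ => Finset.sum_nonneg fun j _ => hL i j
      positivity)).2 fun i => ?_⟩
  rw [Matrix.mulVec, dotProduct, Finset.sum_mul, Finset.sum_mul, Real.norm_eq_abs]
  refine (Finset.abs_sum_le_sum_abs _ _).trans ?_
  refine le_trans (Finset.sum_le_sum fun j _ => ?_) (Finset.single_le_sum (s := Finset.univ)
    (f := fun i => (∑ j, L i j) * dist x y * ‖v‖) (fun i _ => by
      have : 0 ≤ ∑ j, L i j := Finset.sum_nonneg fun j _ => hL i j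
      positivity) (Finset.mem_univ i) |>.trans' (by rw [Finset.sum_mul, Finset.sum_mul]))
  rw [Matrix.sub_apply, abs_mul]
  exact mul_le_mul (hl i j x y) (norm_le_pi_norm v j) (abs_nonneg _)
    (mul_nonneg (hL i j) dist_nonneg)

/-- Second-order almost positivity between different points. -/
lemma cone_pair_lower (D : Data) : ∃ C : ℝ, ∀ x y, ∀ u ∈ D.cone x, ∀ v ∈ D.cone y,
    -(C * dist x y ^ 2 * (qR D.s u (D.e0 x) * qR D.s v (D.e0 y))) ≤ qR D.s u v := by
  obtain ⟨Lp, hLp, hp⟩ := pr_lipschitz D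
  obtain ⟨Le, hLe, he⟩ := Sm.lipschitz D.sm_e0
  obtain ⟨B0, hB0⟩ := cone_bdd D
  set B := max B0 0
  have hB : 0 ≤ B := le_max_right _ _
  have hb : ∀ x, ∀ u ∈ D.cone x, ‖u‖ ≤ B * qR D.s u (D.e0 x) := fun x u hu =>
    (hB0 x u hu).trans (mul_le_mul_of_nonneg_right (le_max_left _ _) hu.2.2)
  set K := 6 * (Lp * B) ^ 2
  set d0 := (1 : ℝ) / (2 * (6 * (B * Le)) + 1)
  have hd0 : 0 < d0 := by positivity
  refine ⟨max K (6 * B ^ 2 / d0 ^ 2), fun x y u hu v hv => ?_⟩
  set a := qR D.s u (D.e0 x)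
  set b := qR D.s v (D.e0 y)
  set d := dist x y
  have ha : 0 ≤ a := hu.2.2
  have hb0 : 0 ≤ b := hv.2.2
  have hd : 0 ≤ d := dist_nonneg
  have hab : 0 ≤ d ^ 2 * (a * b) := by positivity
  rcases le_or_gt d d0 with hsmall | hbig
  · set w := D.p11 x v
    have hprw : D.pr x *ᵥ w = 0 := by
      simp [w, Data.p11, Matrix.mulVec_sub, Matrix.mulVec_mulVec, D.idem]
    have hprn : ‖D.pr x *ᵥ v‖ ≤ Lp * d * (B * b) := by
      have h := hp x y v
      rw [Matrix.sub_mulVec, hv.1, sub_zero] at h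
      exact h.trans (mul_le_mul_of_nonneg_left (hb y v hv) (by positivity))
    have hww : -(K * d ^ 2 * b ^ 2) ≤ qR D.s w w := by
      have e : qR D.s w w = qR D.s v v - qR D.s (D.pr x *ᵥ v) (D.pr x *ᵥ v) := by
        simp only [w, Data.p11, qR_sub_left, qR_sub_right]
        have h1 : qR D.s (D.pr x *ᵥ v) v = qR D.s (D.pr x *ᵥ v) (D.pr x *ᵥ v) := by
          rw [D.selfAdj x v (D.pr x *ᵥ v), Matrix.mulVec_mulVec, D.idem,
            qR_comm D.s v (D.pr x *ᵥ v)]
        rw [qR_comm D.s v (D.pr x *ᵥ v), h1]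
        ring
      rw [e]
      have h2 := (abs_le.1 (abs_qR_le D.hs (D.pr x *ᵥ v) (D.pr x *ᵥ v))).2
      have h3 : ‖D.pr x *ᵥ v‖ * ‖D.pr x *ᵥ v‖ ≤ (Lp * d * (B * b)) * (Lp * d * (B * b)) :=
        mul_le_mul hprn hprn (norm_nonneg _) (by positivity)
      have h4 := hv.2.1
      simp only [K]
      nlinarith
    have hwe : b / 2 ≤ qR D.s w (D.e0 x) := by
      have e : qR D.s w (D.e0 x) = qR D.s v (D.e0 x) := by
        simp only [w, Data.p11, qR_sub_left, D.selfAdj x v (D.e0 x), D.pr_e0, qR_zero_right,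
          sub_zero]
      rw [e]
      have h1 := (abs_le.1 (abs_qR_le D.hs v (D.e0 x - D.e0 y))).1
      rw [qR_sub_right] at h1
      have h2 : ‖v‖ * ‖D.e0 x - D.e0 y‖ ≤ B * b * (Le * d) :=
        mul_le_mul (hb y v hv) (he x y) (norm_nonneg _) (by positivity)
      have h3 : 6 * (B * Le) * d ≤ 1 / 2 := by
        have : 6 * (B * Le) * d ≤ 6 * (B * Le) * d0 :=
          mul_le_mul_of_nonneg_left hsmall (by positivity)
        refine this.trans ?_
        simp only [d0]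
        rw [mul_one_div, div_le_iff₀ (by positivity)]
        nlinarith
      nlinarith
    set ε := K * d ^ 2
    have hε : 0 ≤ ε := by positivity
    have hv' : w + (ε * b) • D.e0 x ∈ D.cone x := by
      refine mem_cone ?_ ?_ ?_
      · simp [Matrix.mulVec_add, Matrix.mulVec_smul, hprw, D.pr_e0]
      · simp only [qR_add_left, qR_add_right, qR_smul_left, qR_smul_right, D.unit,
          qR_comm D.s (D.e0 x) w]
        have : 0 ≤ (qR D.s w (D.e0 x) - b / 2) * (ε * b) :=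
          mul_nonneg (by linarith) (by positivity)
        simp only [ε] at this ⊢
        nlinarith [sq_nonneg (K * d ^ 2 * b)]
      · simp only [qR_add_left, qR_smul_left, D.unit]
        nlinarith [mul_nonneg hε hb0]
    have h := cone_pair_nonneg D hu hv'
    rw [qR_add_right, qR_smul_right] at h
    have e : qR D.s u w = qR D.s u v := by
      simp only [w, Data.p11, qR_sub_right, ← D.selfAdj x u v, hu.1, qR_zero_left, sub_zero]
    rw [e] at h
    have : K * (d ^ 2 * (a * b)) ≤ max K (6 * B ^ 2 / d0 ^ 2) * (d ^ 2 * (a * b)) :=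
      mul_le_mul_of_nonneg_right (le_max_left _ _) hab
    simp only [ε] at h
    nlinarith
  · have h1 := (abs_le.1 (abs_qR_le D.hs u v)).1
    have h2 : ‖u‖ * ‖v‖ ≤ B * a * (B * b) :=
      mul_le_mul (hb x u hu) (hb y v hv) (norm_nonneg _) (by positivity)
    have h3 : 6 * B ^ 2 ≤ 6 * B ^ 2 / d0 ^ 2 * d ^ 2 := by
      rw [div_mul_eq_mul_div, le_div_iff₀ (by positivity)]
      exact mul_le_mul_of_nonneg_left (pow_le_pow_left₀ hd0.le hbig.le 2) (by positivity)
    have h4 : 6 * B ^ 2 / d0 ^ 2 * (d ^ 2 * (a * b)) ≤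
        max K (6 * B ^ 2 / d0 ^ 2) * (d ^ 2 * (a * b)) :=
      mul_le_mul_of_nonneg_right (le_max_right _ _) hab
    nlinarith [mul_le_mul_of_nonneg_right h3 (mul_nonneg ha hb0)]

lemma polar_levi (D : Data) (x : T3) (ξ : Fin 3 → ℝ) :
    qR D.s (wedge3 ξ (D.lam x *ᵥ ξ)) (wedge3 ξ (D.lam x *ᵥ ξ)) = 0 := by
  simp [qR, wedge3, Fin.sum_univ_succ, Fin.succ, show (3 : Fin 6) + 3 = 0 from rfl,
    show (4 : Fin 6) + 3 = 1 from rfl, show (5 : Fin 6) + 3 = 2 from rfl]
  right
  ring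

lemma levi_mem_cone (D : Data) (x : T3) (ξ : Fin 3 → ℝ) :
    wedge3 ξ (D.lam x *ᵥ ξ) ∈ D.cone x :=
  mem_cone (D.pr_levi x ξ) (polar_levi D x ξ).ge (D.levi_nonneg x ξ)

lemma Sm.continuous_wedge3 (D : Data) (ξ : Fin 3 → ℝ) :
    Continuous fun x => wedge3 ξ (D.lam x *ᵥ ξ) := by
  have h : ∀ i, Continuous fun x => (D.lam x *ᵥ ξ) i := fun i => by
    simp only [Matrix.mulVec, dotProduct]
    exact continuous_finsetSum _ fun j _ => (Sm.continuous (D.sm_lam i j)).mul continuous_const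
  have hw : Continuous fun θ : Fin 4 → ℝ => wedge3 ξ θ := by unfold wedge3; fun_prop
  exact hw.comp (continuous_pi h)

/-- The sum of the elementary Levi forms. -/
def leviSum (D : Data) (x : T3) : F6 := ∑ i, wedge3 (Pi.single i 1) (D.lam x *ᵥ Pi.single i 1)

/-- The sum of the elementary Levi forms is uniformly inside the cone. -/
lemma cone_levi_lower (D : Data) : ∃ c > 0, ∀ x, ∀ u ∈ D.cone x, c * qR D.s u (D.e0 x) ≤
    qR D.s u (∑ i, wedge3 (Pi.single i 1) (D.lam x *ᵥ Pi.single i 1)) := by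
  have hc : Continuous (leviSum D) :=
    continuous_finsetSum _ fun i _ => Sm.continuous_wedge3 D _
  have hc2 : Continuous fun x => qR D.s (leviSum D x) (leviSum D x) :=
    (continuous_qR D.s).comp (hc.prodMk hc)
  obtain ⟨x0, -, h0⟩ := isCompact_univ.exists_isMinOn Set.univ_nonempty hc2.continuousOn
  have hc3 : Continuous fun x => qR D.s (leviSum D x) (D.e0 x) :=
    (continuous_qR D.s).comp (hc.prodMk (Sm.continuous D.sm_e0))
  obtain ⟨x1, -, h1⟩ := isCompact_univ.exists_isMaxOn Set.univ_nonempty hc3.continuousOn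
  set m := qR D.s (leviSum D x0) (leviSum D x0)
  set M := qR D.s (leviSum D x1) (D.e0 x1)
  have hm : 0 < m := D.levi_pos x0
  have hsum : ∀ x, leviSum D x ∈ D.cone x ∧ 0 < qR D.s (leviSum D x) (leviSum D x) := fun x => by
    refine ⟨mem_cone ?_ (D.levi_pos x).le ?_, D.levi_pos x⟩
    · rw [leviSum, Matrix.mulVec_sum]
      exact Finset.sum_eq_zero fun i _ => D.pr_levi x _
    · rw [qR_comm, leviSum, qR_sum_right]
      exact Finset.sum_nonneg fun i _ => by rw [qR_comm]; exact D.levi_nonneg x _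
  set c := m / (2 * max M 1)
  have hc0 : 0 < c := by positivity
  refine ⟨c, hc0, fun x u hu => ?_⟩
  obtain ⟨hS, -⟩ := hsum x
  have hM : qR D.s (leviSum D x) (D.e0 x) ≤ max M 1 := (h1 (Set.mem_univ x)).trans (le_max_left _ _)
  have hm' : m ≤ qR D.s (leviSum D x) (leviSum D x) := h0 (Set.mem_univ x)
  have hmem : leviSum D x - c • D.e0 x ∈ D.cone x := by
    set p := qR D.s (leviSum D x) (D.e0 x)
    have hp2 : qR D.s (leviSum D x) (leviSum D x) ≤ p ^ 2 := by
      have := qR_split D x (leviSum D x) (leviSum D x)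
      have := spat_self_nonpos D x hS.1
      nlinarith
    have hcM : c * (2 * max M 1) = m := by simp only [c]; field_simp
    have hp : 0 ≤ p := hS.2.2
    have hpm : p * (2 * max M 1) ≥ 2 * p ^ 2 := by nlinarith
    refine mem_cone ?_ ?_ ?_
    · simp [Matrix.mulVec_sub, Matrix.mulVec_smul, hS.1, D.pr_e0]
    · simp only [qR_sub_left, qR_sub_right, qR_smul_left, qR_smul_right, D.unit,
        qR_comm D.s (D.e0 x) (leviSum D x)]
      nlinarith
    · simp only [qR_sub_left, qR_smul_left, D.unit, mul_one]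
      nlinarith
  have h := cone_pair_nonneg D hu hmem
  rw [qR_sub_right, qR_smul_right] at h
  change c * _ ≤ qR D.s u (leviSum D x)
  linarith

end Vale.Agent.P204
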