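import Vale.Agent.P204.Four
import Vale.Agent.P204.Cone
import Vale.Agent.P204.Bridge.Build

/-!
From an almost complex structure on the four-torus which does not depend on the last coordinate
to the abstract data on the three-torus.
-/

open MeasureTheory Filter Topology
open scoped ContDiff Matrix

namespace Vale.Agent.P204

theorem bridge (core : ∀ D : Data, D.Tamed → D.Compatible)
    (J : (Fin 4 → ℝ) → Matrix (Fin 4) (Fin 4) ℝ)
    (hJs : ∀ i j, ContDiff ℝ ∞ fun x => J x i j)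
    (hJp : ∀ x (m : Fin 4 → ℤ), J (fun i => x i + m i) = J x)
    (hJ2 : ∀ x, J x * J x = -1)
    (hJt : ∀ x (c : ℝ), J (x + Pi.single 3 c) = J x)
    (Ω : (Fin 4 → ℝ) → Matrix (Fin 4) (Fin 4) ℝ)
    (hωs : ∀ i j, ContDiff ℝ ∞ fun x => Ω x i j)
    (hωp : ∀ x (m : Fin 4 → ℤ), Ω (fun i => x i + m i) = Ω x)
    (hωa : ∀ x, (Ω x)ᵀ = -Ω x)
    (hωd : ∀ x i j k, fderiv ℝ (fun y => Ω y j k) x (Pi.single i 1) +
      fderiv ℝ (fun y => Ω y k i) x (Pi.single j 1) +
      fderiv ℝ (fun y => Ω y i j) x (Pi.single k 1) = 0)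
    (hωt : ∀ x v, v ≠ 0 → 0 < v ⬝ᵥ Ω x *ᵥ J x *ᵥ v) :
    ∃ η : (Fin 4 → ℝ) → Matrix (Fin 4) (Fin 4) ℝ,
      (∀ i j, ContDiff ℝ ∞ fun x => η x i j) ∧
      (∀ x (m : Fin 4 → ℤ), η (fun i => x i + m i) = η x) ∧
      (∀ x, (η x)ᵀ = -η x) ∧
      (∀ x i j k, fderiv ℝ (fun y => η y j k) x (Pi.single i 1) +
        fderiv ℝ (fun y => η y k i) x (Pi.single j 1) +
        fderiv ℝ (fun y => η y i j) x (Pi.single k 1) = 0) ∧
      (∀ x, (J x)ᵀ * η x * J x = η x) ∧
      ∀ x v, v ≠ 0 → 0 < v ⬝ᵥ η x *ᵥ J x *ᵥ v := by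
  classical
  set Kb : (Fin 3 → ℝ) → Matrix (Fin 4) (Fin 4) ℝ := fun y => J (Bridge.emb y) with hKb
  have hKp : ∀ y (n : Idx), Kb (y + fun i => (n i : ℝ)) = Kb y := fun y n => by
    simp only [hKb, Bridge.emb_add_int]; exact hJp _ _
  set K : T3 → Matrix (Fin 4) (Fin 4) ℝ := Bridge.desc Kb with hK
  have hKpt : ∀ y, K (pt y) = J (Bridge.emb y) := Bridge.desc_pt hKp
  have hKs : ∀ a b, Sm fun z => K z a b := fun a b => by
    change ContDiff ℝ ∞ fun y => K (pt y) a b
    simp only [hKpt]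
    exact (hJs a b).comp Bridge.emb.contDiff
  have hK2 : ∀ z, K z * K z = -1 := fun z => hJ2 _
  set Wb : (Fin 3 → ℝ) → Matrix (Fin 4) (Fin 4) ℝ :=
    fun y => Matrix.of fun a b => Bridge.avg (fun x => Ω x a b) y with hWb
  have hΩs : ∀ x a b, Ω x b a = -Ω x a b := fun x a b => congr_fun (congr_fun (hωa x) a) b
  have hΩp : ∀ a b x (m : Fin 4 → ℤ), Ω (fun i => x i + m i) a b = Ω x a b := fun a b x m => by
    rw [hωp]
  have hWa : ∀ y, (Wb y)ᵀ = -Wb y := fun y => by
    ext a b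
    simp only [hWb, Matrix.transpose_apply, Matrix.neg_apply, Matrix.of_apply, Bridge.avg]
    rw [← intervalIntegral.integral_neg]
    simp only [hΩs _ a b]
  set ub : (Fin 3 → ℝ) → F6 := fun y => Bridge.t6 (Wb y) with hub
  have hup : ∀ y (n : Idx), ub (y + fun i => (n i : ℝ)) = ub y := fun y n => by
    simp only [hub, hWb]
    congr 1
    ext a b
    exact Bridge.avg_periodic (f := fun x => Ω x a b) (hΩp a b) y n
  set U : T3 → F6 := Bridge.desc ub with hU
  have hUpt : U ∘ pt = ub := funext (Bridge.desc_pt hup)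
  have hUs : Sm U := by
    rw [Sm, hUpt]
    refine contDiff_pi.2 fun j => ?_
    fin_cases j <;> exact Bridge.avg_smooth (hωs _ _)
  set A : Fin 4 → Fin 4 → Fin 4 → (Fin 3 → ℝ) → ℝ := fun i a b =>
    Bridge.avg fun x => fderiv ℝ (fun y => Ω y a b) x (Pi.single i 1) with hA
  have hA3 : ∀ a b y, A 3 a b y = 0 := fun a b y =>
    Bridge.avg_deriv_three (hωs a b) (hΩp a b) y
  have hAs : ∀ i a b y, A i b a y = -A i a b y := fun i a b y => by
    simp only [hA, Bridge.avg]
    rw [← intervalIntegral.integral_neg]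
    simp only [hΩs _ a b, fderiv_fun_neg, FunLike.coe_neg, Pi.neg_apply]
  have hAd : ∀ (i : Fin 3) a b y,
      fderiv ℝ (Bridge.avg fun x => Ω x a b) y (Pi.single i 1) = A i.castSucc a b y :=
    fun i a b y => Bridge.avg_deriv (hωs a b) y i
  have hAc : ∀ i a b y, A i a b y + A a b i y + A b i a y = 0 := fun i a b y => by
    have hc : ∀ i a b, IntervalIntegrable
        (fun t : ℝ => fderiv ℝ (fun z => Ω z a b) (Bridge.emb y + t • Pi.single 3 1)
          (Pi.single i 1)) volume 0 1 := fun i a b =>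
      ((((hωs a b).continuous_fderiv (by simp)).comp (by fun_prop)).clm_apply
        continuous_const).intervalIntegrable _ _
    simp only [hA, Bridge.avg]
    rw [← intervalIntegral.integral_add (hc i a b) (hc a b i),
      ← intervalIntegral.integral_add ((hc i a b).add (hc a b i)) (hc b i a)]
    simp only [hωd, intervalIntegral.integral_zero]
  have hUc : ClosedForm U := by
    refine ⟨hUs, (Bridge.closed_iff hUs).2 ?_⟩
    rw [hUpt]
    intro y
    have c1 := hAc 0 1 2 y
    have c2 := hAc 1 2 3 y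
    have c3 := hAc 0 2 3 y
    have c4 := hAc 0 1 3 y
    have p00 : Bridge.pd ub 0 0 y = A 0 1 2 y := hAd 0 1 2 y
    have p11 : Bridge.pd ub 1 1 y = A 1 2 0 y := hAd 1 2 0 y
    have p22 : Bridge.pd ub 2 2 y = A 2 0 1 y := hAd 2 0 1 y
    have p15 : Bridge.pd ub 1 5 y = A 1 2 3 y := hAd 1 2 3 y
    have p24 : Bridge.pd ub 2 4 y = A 2 1 3 y := hAd 2 1 3 y
    have p23 : Bridge.pd ub 2 3 y = A 2 0 3 y := hAd 2 0 3 y
    have p05 : Bridge.pd ub 0 5 y = A 0 2 3 y := hAd 0 2 3 y
    have p04 : Bridge.pd ub 0 4 y = A 0 1 3 y := hAd 0 1 3 y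
    have p13 : Bridge.pd ub 1 3 y = A 1 0 3 y := hAd 1 0 3 y
    rw [p00, p11, p22, p15, p24, p23, p05, p04, p13]
    refine ⟨c1, ?_, ?_, ?_⟩
    · linarith [hA3 1 2 y, hAs 2 1 3 y]
    · linarith [hA3 0 2 y, hAs 2 0 3 y]
    · linarith [hA3 0 1 y, hAs 1 0 3 y]
  have hUp : ∀ z, Bridge.Posi (K z) (U z) := fun z => by
    obtain ⟨y, rfl⟩ := pt_surjective z
    rw [hKpt, show U (pt y) = ub y from congr_fun hUpt y]
    intro v hv
    set p : ℝ → (Fin 4 → ℝ) := fun t => Bridge.emb y + t • Pi.single 3 1 with hp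
    set x := J (Bridge.emb y) *ᵥ v with hx
    have hJp' : ∀ t, J (p t) = J (Bridge.emb y) := fun t => by
      rw [hp, ← hJt (Bridge.emb y) t]
      congr 1
      funext i; simp [Pi.single_apply]
    have hc : ∀ a b, Continuous fun t : ℝ => v a * (Ω (p t) a b * x b) := fun a b =>
      continuous_const.mul (((hωs a b).continuous.comp (by fun_prop)).mul continuous_const)
    have e : Bridge.B (ub y) v x = ∫ t in (0 : ℝ)..1, v ⬝ᵥ Ω (p t) *ᵥ x := by
      simp only [Bridge.B, hub, Bridge.mk_t6 (hWa y), dotProduct, Matrix.mulVec, Finset.mul_sum]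
      rw [intervalIntegral.integral_finsetSum fun a _ =>
        (continuous_finsetSum _ fun b _ => hc a b).intervalIntegrable _ _]
      refine Finset.sum_congr rfl fun a _ => ?_
      rw [intervalIntegral.integral_finsetSum fun b _ => (hc a b).intervalIntegrable _ _]
      refine Finset.sum_congr rfl fun b _ => ?_
      rw [intervalIntegral.integral_const_mul, intervalIntegral.integral_mul_const]
      rfl
    rw [e]
    refine intervalIntegral.intervalIntegral_pos_of_pos ?_ (fun t => ?_) one_pos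
    · simp only [dotProduct, Matrix.mulVec, Finset.mul_sum]
      exact (continuous_finsetSum _ fun a _ =>
        continuous_finsetSum _ fun b _ => hc a b).intervalIntegrable _ _
    · rw [hx, ← hJp' t]; exact hωt (p t) v hv
  obtain ⟨D, hT, hD⟩ := Bridge.exists_data K hKs hK2 U hUc hUp
  obtain ⟨w, ⟨hws, hwc⟩, hw⟩ := core D hT
  set g : (Fin 3 → ℝ) → F6 := w ∘ pt with hg
  have hgc := (Bridge.closed_iff hws).1 hwc
  have hJb : ∀ x, J x = K (pt (Bridge.base x)) := fun x => by
    rw [hKpt, ← hJt (Bridge.emb (Bridge.base x)) (x 3), Bridge.emb_base]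
  have hwD : ∀ x, Bridge.T (J x) (g (Bridge.base x)) = g (Bridge.base x) ∧
      Bridge.Posi (J x) (g (Bridge.base x)) := fun x => by
    rw [hJb]
    exact hD _ _ (hw _).1 (hw _).2.1 (hw _).2.2
  refine ⟨fun x => Bridge.mk (g (Bridge.base x)), fun a b => ?_, fun x m => ?_, fun x => ?_,
    fun x i j k => ?_, fun x => ?_, fun x => ?_⟩
  · exact (Bridge.entry a b).toContinuousLinearMap.contDiff.comp
      (hws.comp Bridge.base.contDiff)
  · change Bridge.mk (w (pt (Bridge.base fun i => x i + m i))) =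
      Bridge.mk (w (pt (Bridge.base x)))
    rw [show Bridge.base (fun i => x i + m i) =
      Bridge.base x + fun i => ((m i.castSucc : ℤ) : ℝ) from funext fun i => by simp [Bridge.base],
      pt_add_int]
  · exact Bridge.mk_transpose _
  · simp only [Bridge.deriv_mk (g := g) hws]
    set d : Fin 4 → F6 := fun i =>
      fderiv ℝ g (Bridge.base x) (Bridge.base (Pi.single i 1)) with hd
    have hd' : ∀ (i : Fin 3) j, d i.castSucc j = Bridge.pd g i j (Bridge.base x) := fun i j => by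
      simp only [hd, Bridge.base_single]
      exact Bridge.fderiv_component hws _ _ j
    obtain ⟨e1, e2, e3, e4⟩ := hgc (Bridge.base x)
    rw [← hd' 0 0, ← hd' 1 1, ← hd' 2 2] at e1
    rw [← hd' 1 5, ← hd' 2 4] at e2
    rw [← hd' 2 3, ← hd' 0 5] at e3
    rw [← hd' 0 4, ← hd' 1 3] at e4
    exact Bridge.closed_mk d (by simp [hd, Bridge.base_single_three]) e1 e2 e3 e4 i j k
  · rw [← Bridge.mk_T, (hwD x).1]
  · exact fun v hv => (hwD x).2 v hv

end Vale.Agent.P204
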