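import Mathlib

/-!
Definitions for tamed-to-compatible on four-tori with an almost complex structure that is
independent of one coordinate: forms are six functions on the three-torus, exterior calculus is
done on Fourier coefficients, and the algebra of the almost complex structure is abstracted.
-/

open MeasureTheory Filter Topology
open scoped ContDiff ComplexConjugate Matrix

namespace Vale.Agent.P204

abbrev T3 := UnitAddTorus (Fin 3)
abbrev Idx := Fin 3 → ℤ
/-- Components `(ω₂₃, ω₃₁, ω₁₂, ω₁₄, ω₂₄, ω₃₄)` of a two-form at a point. -/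
abbrev F6 := Fin 6 → ℝ
abbrev C6 := EuclideanSpace ℂ (Fin 6)

/-- The product probability measure on the three-torus. -/
noncomputable def vol : Measure T3 := Measure.pi fun _ => AddCircle.haarAddCircle

/-- The quotient map from space to the torus. -/
def pt (x : Fin 3 → ℝ) : T3 := fun i => (x i : UnitAddCircle)

/-- A smooth function on the torus. -/
def Sm {E : Type*} [NormedAddCommGroup E] [NormedSpace ℝ E] (f : T3 → E) : Prop :=
  ContDiff ℝ ∞ (f ∘ pt)

/-- The wedge pairing of two-forms, with an orientation sign. -/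
def qR (s : ℝ) (u v : F6) : ℝ := s * ∑ i : Fin 6, u i * v (i + 3)

/-- The sesquilinear extension of the wedge pairing. -/
noncomputable def qC (s : ℝ) (u v : C6) : ℂ := (s : ℂ) * ∑ i : Fin 6, u i * conj (v (i + 3))

/-- The Fourier weight `1 + |k|²`. -/
def wt (k : Idx) : ℝ := 1 + ∑ i, (k i : ℝ) ^ 2

/-- Faster than polynomial decay. -/
def Rapid {E : Type*} [Norm E] (a : Idx → E) : Prop :=
  ∀ m : ℕ, Summable fun k => wt k ^ m * ‖a k‖

/-- The Fourier coefficient of a real function. -/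
noncomputable def coef (μ : Measure T3) (f : T3 → ℝ) (k : Idx) : ℂ :=
  ∫ x, UnitAddTorus.mFourier (-k) x * (f x : ℂ) ∂μ

/-- The coefficients of a form-valued density against a measure. -/
noncomputable def cf (μ : Measure T3) (t : T3 → F6) (k : Idx) : C6 :=
  WithLp.toLp 2 fun i => coef μ (fun x => t x i) k

/-- The coefficients of a field of matrices. -/
noncomputable def cM (M : T3 → Matrix (Fin 6) (Fin 6) ℝ) (k : Idx) : C6 →L[ℂ] C6 :=
  Matrix.toEuclideanCLM (𝕜 := ℂ) fun i j => coef vol (fun x => M x i j) k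

/-- Multiplication by a field, on coefficients. -/
noncomputable def conv (M : Idx → C6 →L[ℂ] C6) (u : Idx → C6) (k : Idx) : C6 :=
  ∑' l, M (k - l) (u l)

/-- Reality of a coefficient sequence. -/
def RealSeq (a : Idx → C6) : Prop := ∀ k i, a (-k) i = conj (a k i)

/-- A form which does not depend on the fourth coordinate is closed at frequency `k`: the
divergence of the first three components and the curl of the last three vanish. -/
def ClosedAt (k : Idx) (u : C6) : Prop :=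
  (k 0 : ℂ) * u 0 + (k 1 : ℂ) * u 1 + (k 2 : ℂ) * u 2 = 0 ∧
  (k 1 : ℂ) * u 5 - (k 2 : ℂ) * u 4 = 0 ∧
  (k 2 : ℂ) * u 3 - (k 0 : ℂ) * u 5 = 0 ∧
  (k 0 : ℂ) * u 4 - (k 1 : ℂ) * u 3 = 0

/-- Exactness at frequency `k`. -/
def ExactAt (k : Idx) (u : C6) : Prop := ClosedAt k u ∧ (k = 0 → u = 0)

/-- A smooth closed form which does not depend on the fourth coordinate. -/
def ClosedForm (w : T3 → F6) : Prop := Sm w ∧ ∀ k, ClosedAt k (cf vol w k)

/-- The exterior product of a covector on the base with a covector. -/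
def wedge3 (ξ : Fin 3 → ℝ) (θ : Fin 4 → ℝ) : F6 :=
  ![ξ 1 * θ 2 - ξ 2 * θ 1, ξ 2 * θ 0 - ξ 0 * θ 2, ξ 0 * θ 1 - ξ 1 * θ 0,
    ξ 0 * θ 3, ξ 1 * θ 3, ξ 2 * θ 3]

/-- What the proof uses of an almost complex structure: the projection `pr` on the forms of type
(2,0) + (0,2), a timelike form `e0` of type (1,1), and the map `lam` of covectors. -/
structure Data where
  s : ℝ
  hs : s = 1 ∨ s = -1
  pr : T3 → Matrix (Fin 6) (Fin 6) ℝ
  e0 : T3 → F6
  lam : T3 → Matrix (Fin 4) (Fin 3) ℝ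
  sm_pr : ∀ i j, Sm fun x => pr x i j
  sm_e0 : Sm e0
  sm_lam : ∀ i j, Sm fun x => lam x i j
  idem : ∀ x, pr x * pr x = pr x
  selfAdj : ∀ x u v, qR s (pr x *ᵥ u) v = qR s u (pr x *ᵥ v)
  pos : ∃ c > 0, ∀ x (u : F6), c * ‖pr x *ᵥ u‖ ^ 2 ≤ qR s (pr x *ᵥ u) (pr x *ᵥ u)
  pr_e0 : ∀ x, pr x *ᵥ e0 x = 0
  unit : ∀ x, qR s (e0 x) (e0 x) = 1
  neg : ∃ c > 0, ∀ x (u : F6), pr x *ᵥ u = 0 → qR s u (e0 x) = 0 → qR s u u ≤ -(c * ‖u‖ ^ 2)
  pr_levi : ∀ x ξ, pr x *ᵥ wedge3 ξ (lam x *ᵥ ξ) = 0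
  levi_nonneg : ∀ x ξ, 0 ≤ qR s (wedge3 ξ (lam x *ᵥ ξ)) (e0 x)
  levi_pos : ∀ x, 0 < qR s (∑ i, wedge3 (Pi.single i 1) (lam x *ᵥ Pi.single i 1))
    (∑ i, wedge3 (Pi.single i 1) (lam x *ᵥ Pi.single i 1))

/-- The (1,1) part. -/
def Data.p11 (D : Data) (x : T3) (u : F6) : F6 := u - D.pr x *ᵥ u

/-- The closed forward cone of forms of type (1,1). -/
def Data.cone (D : Data) (x : T3) : Set F6 :=
  {u | D.pr x *ᵥ u = 0 ∧ 0 ≤ qR D.s u u ∧ 0 ≤ qR D.s u (D.e0 x)}

/-- Some closed form tames. -/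
def Data.Tamed (D : Data) : Prop :=
  ∃ w, ClosedForm w ∧ ∀ x, 0 < qR D.s (D.p11 x (w x)) (D.p11 x (w x)) ∧
    0 < qR D.s (w x) (D.e0 x)

/-- Some closed form is compatible. -/
def Data.Compatible (D : Data) : Prop :=
  ∃ w, ClosedForm w ∧ ∀ x, D.pr x *ᵥ w x = 0 ∧ 0 < qR D.s (w x) (w x) ∧
    0 < qR D.s (w x) (D.e0 x)

/-- An obstruction: a positive (1,1) current `t lam` which annihilates the closed (1,1) forms. -/
structure Obstruction (D : Data) (μ : Measure T3) (t : T3 → F6) : Prop where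
  fin : IsFiniteMeasure μ
  ne : μ ≠ 0
  meas : Measurable t
  bdd : ∃ R, ∀ x, ‖t x‖ ≤ R
  cone : ∀ x, t x ∈ D.cone x
  norm : ∀ x, qR D.s (t x) (D.e0 x) = 1
  annihil : ∀ w, ClosedForm w → (∀ x, D.pr x *ᵥ w x = 0) → ∫ x, qR D.s (t x) (w x) ∂μ = 0

end Vale.Agent.P204
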