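import Vale.Agent.P204.LeviBase

/-!
Maximal and Lebesgue-point estimates for measures of linear growth on the torus.
-/

open MeasureTheory Filter Topology
open scoped ContDiff ENNReal

namespace Vale.Agent.P204.Dens

open Levi

lemma dist_le_half (x y : T3) : dist x y ≤ 1 / 2 := by
  rw [dist_eq_norm]
  refine (pi_norm_le_iff_of_nonneg (by norm_num)).2 fun i => ?_
  simpa using AddCircle.norm_le_half_period (p := (1 : ℝ)) (x := (x - y) i) one_ne_zero

/-- The concentrated weight. -/
noncomputable def ker (x : T3) (r : ℝ) (y : T3) : ℝ := r ^ 2 / phi x r y ^ 2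

lemma ker_nonneg (x : T3) (r : ℝ) (y : T3) : 0 ≤ ker x r y := by unfold ker; positivity

lemma continuous_ker (x : T3) {r : ℝ} (hr : 0 < r) : Continuous (ker x r) :=
  continuous_const.div ((Four.sm_continuous (sm_phi x hr)).pow 2)
    fun y => (pow_pos (phi_pos x hr y) 2).ne'

lemma ker_le_one (x : T3) {r : ℝ} (hr : 0 < r) (y : T3) : ker x r y ≤ 1 := by
  rw [ker, div_le_one (pow_pos (phi_pos x hr y) 2), phi_sq]
  linarith [sum_nonneg' x y]

lemma dist_sq_le_sum (x y : T3) : dist y x ^ 2 ≤ 4 * ∑ i, sq1 x y i := by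
  have h : ∀ i, ‖(y - x) i‖ ^ 2 ≤ 4 * sq1 x y i := by
    intro i
    have h1 := le_one_sub_cs (y i - x i)
    rw [sq1, mul_div_assoc', le_div_iff₀ (by positivity)]
    have h2 : 2 * Real.pi ^ 2 ≤ 32 := by nlinarith [Real.pi_lt_d2, Real.pi_pos]
    have h3 := mul_le_mul_of_nonneg_left h2 (sq_nonneg ‖(y - x) i‖)
    simp only [Pi.sub_apply] at h3 ⊢
    linarith
  have hs := sum_nonneg' x y
  rw [dist_eq_norm]
  have h2 : ‖y - x‖ ≤ Real.sqrt (4 * ∑ i, sq1 x y i) :=
    (pi_norm_le_iff_of_nonneg (Real.sqrt_nonneg _)).2 fun i => by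
      refine Real.le_sqrt_of_sq_le ((h i).trans ?_)
      gcongr
      exact Finset.single_le_sum (fun j _ => sq1_nonneg x y j) (Finset.mem_univ i)
  exact (pow_le_pow_left₀ (norm_nonneg _) h2 2).trans (le_of_eq (Real.sq_sqrt (by positivity)))

lemma ker_le (x : T3) {r : ℝ} (hr : 0 < r) (y : T3) :
    ker x r y ≤ 4 * r ^ 2 / (r ^ 2 + dist y x ^ 2) := by
  rw [ker, div_le_div_iff₀ (pow_pos (phi_pos x hr y) 2) (by positivity), phi_sq,
    show 4 * r ^ 2 * (r ^ 2 + ∑ i, sq1 x y i) = r ^ 2 * (4 * (r ^ 2 + ∑ i, sq1 x y i)) by ring]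
  refine mul_le_mul_of_nonneg_left ?_ (sq_nonneg r)
  nlinarith [dist_sq_le_sum x y]

variable (μ : Measure T3) [IsFiniteMeasure μ]

omit [IsFiniteMeasure μ] in
lemma integrable_mul_cont {f g : T3 → ℝ} (hf : Integrable f μ) (hg : Continuous g) :
    Integrable (fun y => f y * g y) μ := by
  obtain ⟨C, -, hC⟩ := Four.exists_bound hg
  exact hf.mul_bdd hg.aestronglyMeasurable (c := C) (Eventually.of_forall hC)

omit [IsFiniteMeasure μ] in
/-- Small averages on all small balls give small integrals against the weight. -/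
lemma integral_ker_le {f : T3 → ℝ} (hf : Integrable f μ) (hf0 : ∀ y, 0 ≤ f y) {l : ℝ} (hl : 0 ≤ l)
    {x : T3} (hx : ∀ ρ ∈ Set.Ioc (0 : ℝ) 1, ∫ y in Metric.closedBall x ρ, f y ∂μ ≤ l * ρ)
    {r : ℝ} (hr : 0 < r) : ∫ y, f y * ker x r y ∂μ ≤ 32 * l * r := by
  obtain ⟨J, hJ⟩ : ∃ J : ℕ, 1 / r ≤ (2 : ℝ) ^ J := pow_unbounded_of_one_lt (1 / r) one_lt_two |>.imp
    fun _ h => h.le
  rw [div_le_iff₀ hr] at hJ
  set B : ℕ → Set T3 := fun j => Metric.closedBall x (2 ^ j * r)
  have hB : ∀ j, MeasurableSet (B j) := fun j => measurableSet_closedBall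
  have hpt : ∀ y, ker x r y ≤ ∑ j ∈ Finset.range (J + 1), 16 / (4 : ℝ) ^ j * (B j).indicator 1 y := by
    intro y
    classical
    have hnn : ∀ j ∈ Finset.range (J + 1), 0 ≤ 16 / (4 : ℝ) ^ j * (B j).indicator 1 y := fun j _ =>
      mul_nonneg (by positivity) (Set.indicator_nonneg (fun _ _ => zero_le_one) y)
    set d := dist y x
    have hex : ∃ j, d ≤ (2 : ℝ) ^ j * r :=
      ⟨J, (dist_le_half y x).trans (by linarith)⟩
    set j := Nat.find hex
    have hjJ : j ≤ J := Nat.find_le ((dist_le_half y x).trans (by linarith))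
    refine le_trans ?_ (Finset.single_le_sum hnn (Finset.mem_range_succ_iff.2 hjJ))
    rw [Set.indicator_of_mem (show y ∈ B j from Nat.find_spec hex), Pi.one_apply, mul_one]
    rcases Nat.eq_zero_or_pos j with h0 | h0
    · rw [h0, pow_zero]
      linarith [ker_le_one x hr y]
    · have hlt : (2 : ℝ) ^ (j - 1) * r < d := not_le.1 (Nat.find_min hex (by omega))
      refine (ker_le x hr y).trans ?_
      rw [div_le_div_iff₀ (by positivity) (by positivity)]
      have h4 : ((2 : ℝ) ^ (j - 1) * r) ^ 2 = 4 ^ (j - 1) * r ^ 2 := by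
        rw [mul_pow, ← pow_mul, mul_comm (j - 1), pow_mul]; norm_num
      have he : (4 : ℝ) ^ j = 4 ^ (j - 1) * 4 := by rw [← pow_succ]; congr 1; omega
      have hd := h4 ▸ pow_le_pow_left₀ (by positivity) hlt.le 2
      rw [he]
      nlinarith
  have hterm : ∀ j, ∫ y, f y * (16 / (4 : ℝ) ^ j * (B j).indicator 1 y) ∂μ ≤
      16 * l * r * (1 / 2 : ℝ) ^ j := by
    intro j
    have e : ∀ y, f y * (16 / (4 : ℝ) ^ j * (B j).indicator 1 y) =
        16 / (4 : ℝ) ^ j * (B j).indicator f y := by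
      intro y
      by_cases hy : y ∈ B j <;> simp [hy]
      ring
    simp only [e]
    rw [integral_const_mul, integral_indicator (hB j)]
    have hb : ∫ y in B j, f y ∂μ ≤ l * (2 ^ j * r) := by
      rcases le_total ((2 : ℝ) ^ j * r) 1 with h | h
      · exact hx _ ⟨by positivity, h⟩
      · have h1 : B j ⊆ Metric.closedBall x 1 := fun y _ => by
          rw [Metric.mem_closedBall]; linarith [dist_le_half y x]
        refine (setIntegral_mono_set hf.integrableOn (Eventually.of_forall hf0)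
          h1.eventuallyLE).trans ((hx 1 ⟨one_pos, le_rfl⟩).trans ?_)
        exact mul_le_mul_of_nonneg_left h hl
    refine (mul_le_mul_of_nonneg_left hb (by positivity)).trans (le_of_eq ?_)
    rw [show (4 : ℝ) ^ j = 2 ^ j * 2 ^ j by rw [← mul_pow]; norm_num, div_pow, one_pow]
    field_simp
  have hi : ∀ j, Integrable (fun y => f y * (16 / (4 : ℝ) ^ j * (B j).indicator 1 y)) μ := fun j =>
    hf.mul_bdd (((measurable_one.indicator (hB j)).const_mul _).aestronglyMeasurable)
      (c := 16 / (4 : ℝ) ^ j) (Eventually.of_forall fun y => by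
        by_cases hy : y ∈ B j <;> simp [hy]; positivity)
  refine (integral_mono (g := fun y => ∑ j ∈ Finset.range (J + 1),
      f y * (16 / (4 : ℝ) ^ j * (B j).indicator 1 y)) (integrable_mul_cont μ hf (continuous_ker x hr))
    (integrable_finsetSum _ fun j _ => hi j) fun y => ?_).trans ?_
  · simp only [← Finset.mul_sum]
    exact mul_le_mul_of_nonneg_left (hpt y) (hf0 y)
  · rw [integral_finsetSum _ fun j _ => hi j]
    refine (Finset.sum_le_sum fun j _ => hterm j).trans ?_
    rw [← Finset.mul_sum]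
    have hgeo : ∑ j ∈ Finset.range (J + 1), (1 / 2 : ℝ) ^ j ≤ 2 := sum_geometric_two_le _
    refine (mul_le_mul_of_nonneg_left hgeo (by positivity)).trans (le_of_eq (by ring))

/-- The weak maximal inequality. -/
lemma maximal_bound {G : ℝ} (hg : ∀ y r, 0 < r → μ.real (Metric.ball y r) ≤ G * r) {f : T3 → ℝ}
    (hf : Integrable f μ) (hf0 : ∀ y, 0 ≤ f y) {l : ℝ} (hl : 0 < l) :
    μ {x | ∃ ρ ∈ Set.Ioc (0 : ℝ) 1, l * ρ < ∫ y in Metric.closedBall x ρ, f y ∂μ} ≤
      ENNReal.ofReal (6 * max G 0 / l * ∫ y, f y ∂μ) := by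
  set E := {x | ∃ ρ ∈ Set.Ioc (0 : ℝ) 1, l * ρ < ∫ y in Metric.closedBall x ρ, f y ∂μ}
  set t : Set (T3 × ℝ) :=
    {p | p.2 ∈ Set.Ioc (0 : ℝ) 1 ∧ l * p.2 < ∫ y in Metric.closedBall p.1 p.2, f y ∂μ}
  obtain ⟨u, hut, hdisj, hcov⟩ := Vitali.exists_disjoint_subfamily_covering_enlargement_closedBall t
    Prod.fst Prod.snd 1 (fun p hp => hp.1.2) 4 (by norm_num)
  have hcount : u.Countable := hdisj.countable_of_nonempty_interior fun p hp =>
    ⟨p.1, Metric.ball_subset_interior_closedBall (Metric.mem_ball_self (hut hp).1.1)⟩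
  have hsub : E ⊆ ⋃ p ∈ u, Metric.ball p.1 (5 * p.2) := by
    rintro x ⟨ρ, hρ, hx⟩
    obtain ⟨b, hb, hb'⟩ := hcov (x, ρ) ⟨hρ, hx⟩
    refine Set.mem_biUnion hb (Metric.closedBall_subset_ball ?_
      (hb' (Metric.mem_closedBall_self hρ.1.le)))
    linarith [(hut hb).1.1]
  set c := 5 * max G 0 / l
  have hc : 0 ≤ c := by positivity
  have hball : ∀ p : u, μ (Metric.ball p.1.1 (5 * p.1.2)) ≤
      ENNReal.ofReal c * ∫⁻ y in Metric.closedBall p.1.1 p.1.2, ENNReal.ofReal (f y) ∂μ := by
    intro p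
    obtain ⟨h1, h2⟩ := hut p.2
    rw [← ofReal_integral_eq_lintegral_ofReal hf.integrableOn (Eventually.of_forall hf0),
      ← ENNReal.ofReal_mul hc]
    refine (ENNReal.le_ofReal_iff_toReal_le (measure_ne_top μ _) ?_).2 ?_
    · exact mul_nonneg hc (setIntegral_nonneg measurableSet_closedBall fun y _ => hf0 y)
    · refine (hg _ _ (by linarith [h1.1])).trans ?_
      have e : c * (l * p.1.2) = max G 0 * (5 * p.1.2) := by simp only [c]; field_simp
      refine le_trans ?_ (mul_le_mul_of_nonneg_left h2.le hc)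
      rw [e]
      exact mul_le_mul_of_nonneg_right (le_max_left _ _) (by linarith [h1.1])
  calc μ E ≤ μ (⋃ p ∈ u, Metric.ball p.1 (5 * p.2)) := measure_mono hsub
    _ ≤ ∑' p : u, μ (Metric.ball p.1.1 (5 * p.1.2)) := measure_biUnion_le μ hcount _
    _ ≤ ∑' p : u, ENNReal.ofReal c *
        ∫⁻ y in Metric.closedBall p.1.1 p.1.2, ENNReal.ofReal (f y) ∂μ := ENNReal.tsum_le_tsum hball
    _ = ENNReal.ofReal c *
        ∫⁻ y in ⋃ p ∈ u, Metric.closedBall p.1 p.2, ENNReal.ofReal (f y) ∂μ := by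
      rw [ENNReal.tsum_mul_left, lintegral_biUnion hcount (fun p _ => measurableSet_closedBall) hdisj]
    _ ≤ ENNReal.ofReal c * ∫⁻ y, ENNReal.ofReal (f y) ∂μ :=
      mul_le_mul_right (setLIntegral_le_lintegral _ _) _
    _ ≤ ENNReal.ofReal (6 * max G 0 / l * ∫ y, f y ∂μ) := by
      rw [← ofReal_integral_eq_lintegral_ofReal hf (Eventually.of_forall hf0),
        ← ENNReal.ofReal_mul hc]
      refine ENNReal.ofReal_le_ofReal (mul_le_mul_of_nonneg_right ?_ (integral_nonneg hf0))
      simp only [c]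
      gcongr
      norm_num

lemma growth_closedBall {G : ℝ} (hg : ∀ y r, 0 < r → μ.real (Metric.ball y r) ≤ G * r) (x : T3)
    {ρ : ℝ} (hρ : 0 < ρ) : ∫ _ in Metric.closedBall x ρ, (1 : ℝ) ∂μ ≤ 2 * max G 0 * ρ := by
  rw [setIntegral_const, smul_eq_mul, mul_one]
  refine (measureReal_mono (Metric.closedBall_subset_ball (by linarith : ρ < 2 * ρ))).trans
    ((hg x _ (by positivity)).trans ?_)
  nlinarith [le_max_left G 0]

variable {E : Type*} [NormedAddCommGroup E] [NormedSpace ℝ E]

/-- Lebesgue points in the weighted sense. -/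
lemma lebesgue_ker {G : ℝ} (hg : ∀ y r, 0 < r → μ.real (Metric.ball y r) ≤ G * r) {a : T3 → E}
    (ha : Integrable a μ) :
    ∀ᵐ x ∂μ, ∀ η > 0, ∀ᶠ r in 𝓝[>] (0 : ℝ), ∫ y, ‖a y - a x‖ * ker x r y ∂μ ≤ η * r := by
  set G' := max G 0
  have hG' : 0 ≤ G' := le_max_right _ _
  have key : ∀ n : ℕ, μ {x | ¬ ∀ᶠ r in 𝓝[>] (0 : ℝ),
      ∫ y, ‖a y - a x‖ * ker x r y ∂μ ≤ 1 / (n + 1) * r} = 0 := by
    intro n
    set η : ℝ := 1 / (n + 1)
    have hη : 0 < η := by positivity
    set l := η / 128 with hl'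
    have hl : 0 < l := by positivity
    set C := 6 * G' / l + 256 * G' / η
    refine le_antisymm (ENNReal.le_of_forall_pos_le_add fun ε hε _ => ?_) zero_le
    rw [zero_add]
    obtain ⟨b, hb, hbi⟩ := ha.exists_boundedContinuous_integral_sub_le
      (ε := ε / (C + 1)) (by positivity)
    set f := fun y => ‖a y - b y‖
    have hf : Integrable f μ := (ha.sub hbi).norm
    have hf0 : ∀ y, 0 ≤ f y := fun y => norm_nonneg _
    set E1 := {x | ∃ ρ ∈ Set.Ioc (0 : ℝ) 1, l * ρ < ∫ y in Metric.closedBall x ρ, f y ∂μ}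
    set E2 := {x | η ≤ 256 * G' * f x}
    have hgood : ∀ x, x ∉ E1 → x ∉ E2 → ∀ᶠ r in 𝓝[>] (0 : ℝ),
        ∫ y, ‖a y - a x‖ * ker x r y ∂μ ≤ η * r := by
      intro x h1 h2
      simp only [E1, Set.mem_ofPred_eq, not_exists, not_and, not_lt] at h1
      simp only [E2, Set.mem_ofPred_eq, not_le] at h2
      set e := η / (256 * G' + 1)
      have he : 0 < e := by positivity
      have he' : 64 * G' * e ≤ η / 4 := by
        simp only [e]
        rw [mul_div_assoc', div_le_iff₀ (by positivity)]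
        nlinarith
      obtain ⟨δ, hδ, hδb⟩ := Metric.continuousAt_iff.1 (b.continuous.continuousAt (x := x)) e he
      set B := 2 * ‖b‖
      set T := μ.real Set.univ
      have hev : ∀ᶠ r in 𝓝[>] (0 : ℝ), B * (4 / δ ^ 2) * T * r ≤ η / 4 := by
        have : Tendsto (fun r => B * (4 / δ ^ 2) * T * r) (𝓝 0) (𝓝 0) := by
          simpa using (show Continuous fun r => B * (4 / δ ^ 2) * T * r by fun_prop).tendsto 0
        exact (this.mono_left nhdsWithin_le_nhds).eventually_le_const (by positivity)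
      filter_upwards [hev, self_mem_nhdsWithin] with r hr hr0
      have hr0' : 0 < r := hr0
      have hker : ∫ y, ker x r y ∂μ ≤ 64 * G' * r := by
        have h := integral_ker_le μ (f := fun _ => (1 : ℝ)) (integrable_const 1)
          (fun _ => zero_le_one) (l := 2 * G') (by positivity)
          (fun ρ hρ => growth_closedBall μ hg x hρ.1) hr0'
        simp only [one_mul] at h
        linarith
      have hpt : ∀ y, ‖a y - a x‖ * ker x r y ≤
          f y * ker x r y + (f x + e) * ker x r y + B * (4 / δ ^ 2) * r ^ 2 := by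
        intro y
        have hk := ker_nonneg x r y
        have hB : 0 ≤ B * (4 / δ ^ 2) * r ^ 2 := by positivity
        have htri : ‖a y - a x‖ ≤ f y + ‖b y - b x‖ + f x := by
          simp only [f]
          rw [norm_sub_rev (a x) (b x)]
          exact (norm_sub_le_norm_sub_add_norm_sub _ (b y) _).trans (by
            rw [add_assoc]; gcongr; exact norm_sub_le_norm_sub_add_norm_sub _ (b x) _)
        refine (mul_le_mul_of_nonneg_right htri hk).trans ?_
        rcases lt_or_ge (dist y x) δ with hd | hd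
        · have hb' : ‖b y - b x‖ ≤ e := by rw [← dist_eq_norm]; exact (hδb hd).le
          have := mul_le_mul_of_nonneg_right hb' hk
          linarith
        · have hb' : ‖b y - b x‖ ≤ B := (norm_sub_le _ _).trans (by
            simp only [B]; linarith [b.norm_coe_le_norm y, b.norm_coe_le_norm x])
          have hk' : ker x r y ≤ 4 / δ ^ 2 * r ^ 2 := by
            refine (ker_le x hr0' y).trans ?_
            rw [div_mul_eq_mul_div, div_le_div_iff₀ (by positivity) (by positivity)]
            nlinarith [pow_le_pow_left₀ hδ.le hd 2, sq_nonneg r]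
          have := mul_le_mul hb' hk' hk (by positivity)
          nlinarith [mul_nonneg he.le hk]
      have i1 : Integrable (fun y => ‖a y - a x‖ * ker x r y) μ :=
        integrable_mul_cont μ (ha.sub (integrable_const (a x))).norm (continuous_ker x hr0')
      have i2 := integrable_mul_cont μ hf (continuous_ker x hr0')
      have i3 : Integrable (fun y => (f x + e) * ker x r y) μ :=
        (integrable_mul_cont μ (integrable_const (f x + e)) (continuous_ker x hr0'))
      refine (integral_mono i1 ((i2.fun_add i3).fun_add (integrable_const _)) hpt).trans ?_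
      rw [integral_add (i2.fun_add i3) (integrable_const _), integral_add i2 i3,
        integral_const_mul, integral_const, smul_eq_mul]
      have h4 := integral_ker_le μ hf hf0 hl.le h1 hr0'
      have h5 : (f x + e) * ∫ y, ker x r y ∂μ ≤ (f x + e) * (64 * G' * r) :=
        mul_le_mul_of_nonneg_left hker (add_nonneg (hf0 x) he.le)
      have h6 : 64 * G' * f x * r ≤ η / 4 * r := mul_le_mul_of_nonneg_right (by linarith) hr0'.le
      have h7 := mul_le_mul_of_nonneg_right he' hr0'.le
      have h8 := mul_le_mul_of_nonneg_right hr hr0'.le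
      have h9 : 32 * l * r = η / 4 * r := by simp only [hl']; ring
      linarith
    refine (measure_mono (t := E1 ∪ E2) fun x hx => ?_).trans
      ((measure_union_le _ _).trans ((add_le_add (maximal_bound μ hg hf hf0 hl)
        (show μ E2 ≤ ENNReal.ofReal (256 * G' / η * ∫ y, f y ∂μ) from ?_)).trans ?_))
    · by_contra hh
      simp only [Set.mem_union, not_or] at hh
      exact hx (hgood x hh.1 hh.2)
    · refine (ENNReal.le_ofReal_iff_toReal_le (measure_ne_top μ _)
        (mul_nonneg (by positivity) (integral_nonneg hf0))).2 ?_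
      have h := mul_meas_ge_le_integral_of_nonneg (μ := μ) (f := fun y => 256 * G' * f y)
        (Eventually.of_forall fun y => mul_nonneg (by positivity) (hf0 y)) (hf.const_mul _) η
      rw [integral_const_mul] at h
      rw [div_mul_eq_mul_div, le_div_iff₀ hη, mul_comm]
      exact h
    · rw [← ENNReal.ofReal_add (mul_nonneg (by positivity) (integral_nonneg hf0))
        (mul_nonneg (by positivity) (integral_nonneg hf0)), ← ENNReal.ofReal_coe_nnreal]
      refine ENNReal.ofReal_le_ofReal ?_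
      rw [← add_mul]
      refine (mul_le_mul_of_nonneg_left hb (by positivity)).trans ?_
      change C * _ ≤ _
      rw [mul_div_assoc', div_le_iff₀ (by positivity)]
      have : (0 : ℝ) ≤ ε := ε.2
      nlinarith
  have hall : ∀ᵐ x ∂μ, ∀ n : ℕ, ∀ᶠ r in 𝓝[>] (0 : ℝ),
      ∫ y, ‖a y - a x‖ * ker x r y ∂μ ≤ 1 / (n + 1) * r := ae_all_iff.2 fun n => ae_iff.2 (key n)
  filter_upwards [hall] with x hx η hη
  obtain ⟨n, hn⟩ := exists_nat_one_div_lt hη
  filter_upwards [hx n, self_mem_nhdsWithin] with r hr hr0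
  exact hr.trans (mul_le_mul_of_nonneg_right hn.le (le_of_lt hr0))

end Vale.Agent.P204.Dens
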