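import Vale.Agent.P204.Defs
import Vale.Agent.P204.DensityMax

/-!
A curl-free measure has no one-dimensional density.
-/

open MeasureTheory Filter Topology
open scoped ContDiff

namespace Vale.Agent.P204

/-- The curl of a vector field on the torus, computed on the lift. -/
noncomputable def curl (Φ : T3 → Fin 3 → ℝ) (x : Fin 3 → ℝ) : Fin 3 → ℝ :=
  fun i => fderiv ℝ (Φ ∘ pt) x (Pi.single (i + 1) 1) (i + 2) -
    fderiv ℝ (Φ ∘ pt) x (Pi.single (i + 2) 1) (i + 1)

namespace Dens

open Levi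

/-- The test field. -/
noncomputable def testPhi (x : T3) (r : ℝ) (v : Fin 3 → ℝ) (z : T3) : Fin 3 → ℝ :=
  fun k => ker x r z * (v (k + 1) * pp x z (k + 2) - v (k + 2) * pp x z (k + 1))

/-- Its curl. -/
noncomputable def testW (x : T3) (r : ℝ) (v : Fin 3 → ℝ) (z : T3) : Fin 3 → ℝ := fun i =>
  ker x r z * (v i * (cs (z (i + 1) - x (i + 1)) + cs (z (i + 2) - x (i + 2)))) -
    2 * r ^ 2 / phi x r z ^ 4 *
      (v i * ∑ j, pp x z j ^ 2 - pp x z i * ∑ j, v j * pp x z j)

lemma sm_testPhi (x : T3) {r : ℝ} (hr : 0 < r) (v : Fin 3 → ℝ) : Sm (testPhi x r v) :=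
  contDiff_pi.2 fun k => by
    refine ContDiff.mul (f := fun y => ker x r (pt y)) ?_ ((contDiff_const.mul (sm_pp x _)).sub
      (contDiff_const.mul (sm_pp x _)))
    exact contDiff_const.div (ContDiff.pow (sm_phi x hr) 2)
      fun y => (pow_pos (phi_pos x hr _) 2).ne'

lemma hasDerivAt_pp (x : T3) (q : Fin 3 → ℝ) (l m : Fin 3) :
    HasDerivAt (fun t : ℝ => pp x (pt (q + t • Pi.single l 1)) m)
      (if l = m then cs (pt q m - x m) else 0) 0 := by
  obtain ⟨a, rfl⟩ := pt_surjective x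
  simp only [pp, show ∀ t : ℝ, pt (q + t • Pi.single l 1) m - pt a m =
    (((q + t • Pi.single l 1 : Fin 3 → ℝ) m - a m : ℝ) : UnitAddCircle) from fun t => rfl,
    sn_coe, show pt q m - pt a m = ((q m - a m : ℝ) : UnitAddCircle) from rfl, cs_coe]
  refine (((((hasDerivAt_coord q l m).sub_const (a m)).const_mul (2 * Real.pi)).sin).div_const
    (2 * Real.pi)).congr_deriv ?_
  split_ifs <;> simp

lemma curl_testPhi (x : T3) {r : ℝ} (hr : 0 < r) (v : Fin 3 → ℝ) (q : Fin 3 → ℝ) :
    testW x r v (pt q) = curl (testPhi x r v) q := by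
  have hd : ∀ l k : Fin 3, fderiv ℝ (testPhi x r v ∘ pt) q (Pi.single l 1) k =
      -(2 * r ^ 2 / phi x r (pt q) ^ 4 * pp x (pt q) l) *
          (v (k + 1) * pp x (pt q) (k + 2) - v (k + 2) * pp x (pt q) (k + 1)) +
        ker x r (pt q) * (v (k + 1) * (if l = k + 2 then cs (pt q (k + 2) - x (k + 2)) else 0) -
          v (k + 2) * (if l = k + 1 then cs (pt q (k + 1) - x (k + 1)) else 0)) := by
    intro l k
    have e : fderiv ℝ (testPhi x r v ∘ pt) q (Pi.single l 1) k =
        fderiv ℝ ((fun z => testPhi x r v z k) ∘ pt) q (Pi.single l 1) := by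
      rw [show (fun z => testPhi x r v z k) ∘ pt = fun y => (testPhi x r v ∘ pt) y k from rfl,
        fderiv_apply ((sm_testPhi x hr v).differentiable (by simp) q) k]
      rfl
    rw [e]
    refine fderiv_eq_of_line (contDiff_pi.1 (sm_testPhi x hr v) k) ?_
    have hk := (((hasDerivAt_phi x hr q l).pow 2).inv
      (pow_ne_zero 2 (by simpa using (phi_pos x hr (pt q)).ne'))).const_mul (r ^ 2)
    have h := hk.mul (((hasDerivAt_pp x q l (k + 2)).const_mul (v (k + 1))).sub
      ((hasDerivAt_pp x q l (k + 1)).const_mul (v (k + 2))))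
    refine h.congr_deriv ?_
    simp only [zero_smul, add_zero, ker, dphi, Pi.pow_apply, Pi.sub_apply, Pi.inv_apply]
    have := phi_pos x hr (pt q)
    field_simp
    ring
  funext i
  rw [curl, hd, hd, testW]
  fin_cases i <;> simp [Fin.sum_univ_three] <;> ring

lemma continuous_testW (x : T3) {r : ℝ} (hr : 0 < r) (v : Fin 3 → ℝ) :
    Continuous (testW x r v) := by
  refine continuous_pi fun i => Continuous.sub ((continuous_ker x hr).mul (continuous_const.mul ?_))
    (Continuous.mul (continuous_const.div ((Four.sm_continuous (sm_phi x hr)).pow 4)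
      fun z => (pow_pos (phi_pos x hr z) 4).ne') ?_)
  · have hc : ∀ j, Continuous fun z : T3 => cs (z j - x j) := fun j =>
      continuous_cs.comp (((continuous_apply j : Continuous fun z : T3 => z j)).sub continuous_const)
    exact (hc _).add (hc _)
  · have hp : ∀ j, Continuous fun z => pp x z j := fun j => Four.sm_continuous (sm_pp x j)
    exact (continuous_const.mul (continuous_finsetSum _ fun j _ => (hp j).pow 2)).sub
      ((hp i).mul (continuous_finsetSum _ fun j _ => continuous_const.mul (hp j)))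

/-- The test is nearly positive along `v`. -/
lemma testW_lower (x : T3) {r : ℝ} (hr : 0 < r) (v : Fin 3 → ℝ) (z : T3) :
    -(21 * r ^ 2 * ∑ i, v i ^ 2) ≤ ∑ i, v i * testW x r v z i ∧
      (dist z x < r → (∑ i, v i ^ 2) / 8 - 21 * r ^ 2 * ∑ i, v i ^ 2 ≤
        ∑ i, v i * testW x r v z i) := by
  set V := ∑ i, v i ^ 2
  set S := ∑ i, sq1 x z i
  set φ := phi x r z
  have hφ : 0 < φ := phi_pos x hr z
  have hφ2 : φ ^ 2 = r ^ 2 + S := phi_sq x r z
  have hS : 0 ≤ S := sum_nonneg' x z
  have hV : 0 ≤ V := Finset.sum_nonneg fun i _ => sq_nonneg _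
  set P2 := ∑ j, pp x z j ^ 2
  set vp := ∑ j, v j * pp x z j
  have hP2 : P2 ≤ S := Finset.sum_le_sum fun i _ => pp_sq_le x z i
  have e : ∑ i, v i * testW x r v z i =
      ker x r z * (∑ i, v i ^ 2 * (cs (z (i + 1) - x (i + 1)) + cs (z (i + 2) - x (i + 2)))) -
        2 * r ^ 2 / φ ^ 4 * (V * P2 - vp ^ 2) := by
    simp only [testW, V, vp, P2, Fin.sum_univ_three, φ]
    ring
  have hc : ∀ i, 2 - 21 * S ≤ cs (z (i + 1) - x (i + 1)) + cs (z (i + 2) - x (i + 2)) := by
    have hπ : 2 * Real.pi ^ 2 ≤ 21 := by nlinarith [Real.pi_lt_d2, Real.pi_pos]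
    have h1 : ∀ j, 1 - cs (z j - x j) ≤ 21 * sq1 x z j := fun j => by
      have : 1 - cs (z j - x j) = 2 * Real.pi ^ 2 * sq1 x z j := by rw [sq1]; field_simp
      rw [this]
      exact mul_le_mul_of_nonneg_right hπ (sq1_nonneg x z j)
    intro i
    have h2 : sq1 x z (i + 1) + sq1 x z (i + 2) ≤ S := by
      have := sq1_nonneg x z 0
      have := sq1_nonneg x z 1
      have := sq1_nonneg x z 2
      fin_cases i <;> simp [S, Fin.sum_univ_three] <;> linarith
    linarith [h1 (i + 1), h1 (i + 2)]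
  have hA : V * (2 - 21 * S) ≤
      ∑ i, v i ^ 2 * (cs (z (i + 1) - x (i + 1)) + cs (z (i + 2) - x (i + 2))) := by
    rw [Finset.sum_mul]
    exact Finset.sum_le_sum fun i _ => mul_le_mul_of_nonneg_left (hc i) (sq_nonneg _)
  have hB : V * P2 - vp ^ 2 ≤ V * S := by
    nlinarith [sq_nonneg vp, mul_le_mul_of_nonneg_left hP2 hV]
  have hk : ker x r z * S ≤ r ^ 2 := by
    rw [ker, div_mul_eq_mul_div, div_le_iff₀ (pow_pos hφ 2)]
    exact mul_le_mul_of_nonneg_left (by rw [hφ2]; nlinarith) (sq_nonneg r)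
  have hid : ker x r z * 2 - 2 * r ^ 2 / φ ^ 4 * S = 2 * r ^ 4 / φ ^ 4 := by
    rw [show ker x r z = r ^ 2 / φ ^ 2 from rfl]
    field_simp
    linear_combination hφ2
  have h1 := mul_le_mul_of_nonneg_left hA (ker_nonneg x r z)
  have h2 := mul_le_mul_of_nonneg_left hB (show 0 ≤ 2 * r ^ 2 / φ ^ 4 by positivity)
  have h3 := mul_le_mul_of_nonneg_left hk (by positivity : 0 ≤ 21 * V)
  have hmain : V * (2 * r ^ 4 / φ ^ 4) - 21 * r ^ 2 * V ≤ ∑ i, v i * testW x r v z i := by
    rw [e, ← hid]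
    nlinarith
  refine ⟨?_, fun hd => ?_⟩
  · have : 0 ≤ V * (2 * r ^ 4 / φ ^ 4) := by positivity
    linarith
  · have h4 : (1 / 8 : ℝ) ≤ 2 * r ^ 4 / φ ^ 4 := by
      rw [le_div_iff₀ (pow_pos hφ 4)]
      nlinarith [pow_le_pow_left₀ hφ.le (phi_le_near x hr hd) 4]
    have h5 := mul_le_mul_of_nonneg_left h4 hV
    linarith

lemma testW_abs (x : T3) {r : ℝ} (hr : 0 < r) (v : Fin 3 → ℝ) (z : T3) (i : Fin 3) :
    |testW x r v z i| ≤ 14 * ‖v‖ * ker x r z := by
  set φ := phi x r z
  have hφ : 0 < φ := phi_pos x hr z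
  have hk := ker_nonneg x r z
  have hv : ∀ j, |v j| ≤ ‖v‖ := fun j => norm_le_pi_norm v j
  have hp : ∀ j, |pp x z j| ≤ φ := pp_abs_le x hr z
  refine (abs_sub _ _).trans ?_
  have h1 : |ker x r z * (v i * (cs (z (i + 1) - x (i + 1)) + cs (z (i + 2) - x (i + 2))))| ≤
      2 * ‖v‖ * ker x r z := by
    rw [abs_mul, abs_mul, abs_of_nonneg hk, mul_comm]
    refine mul_le_mul_of_nonneg_right ?_ hk
    rw [mul_comm 2]
    exact mul_le_mul (hv i) ((abs_add_le _ _).trans
      (by linarith [cs_abs (z (i + 1) - x (i + 1)), cs_abs (z (i + 2) - x (i + 2))]))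
      (abs_nonneg _) (norm_nonneg v)
  have h2 : |v i * ∑ j, pp x z j ^ 2 - pp x z i * ∑ j, v j * pp x z j| ≤ 6 * ‖v‖ * φ ^ 2 := by
    refine (abs_sub _ _).trans ?_
    have a1 : |∑ j, pp x z j ^ 2| ≤ 3 * φ ^ 2 := by
      refine (Finset.abs_sum_le_sum_abs _ _).trans ((Finset.sum_le_card_nsmul _ _ (φ ^ 2)
        fun j _ => ?_).trans (by simp))
      rw [abs_pow]
      exact pow_le_pow_left₀ (abs_nonneg _) (hp j) 2
    have a2 : |∑ j, v j * pp x z j| ≤ 3 * (‖v‖ * φ) := by
      refine (Finset.abs_sum_le_sum_abs _ _).trans ((Finset.sum_le_card_nsmul _ _ (‖v‖ * φ)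
        fun j _ => ?_).trans (by simp))
      rw [abs_mul]
      exact mul_le_mul (hv j) (hp j) (abs_nonneg _) (norm_nonneg v)
    rw [abs_mul, abs_mul]
    have b1 := mul_le_mul (hv i) a1 (abs_nonneg _) (norm_nonneg v)
    have b2 := mul_le_mul (hp i) a2 (abs_nonneg _) hφ.le
    nlinarith
  have h3 : |2 * r ^ 2 / φ ^ 4 * (v i * ∑ j, pp x z j ^ 2 - pp x z i * ∑ j, v j * pp x z j)| ≤
      12 * ‖v‖ * ker x r z := by
    rw [abs_mul, abs_of_nonneg (by positivity : 0 ≤ 2 * r ^ 2 / φ ^ 4)]
    refine (mul_le_mul_of_nonneg_left h2 (by positivity)).trans (le_of_eq ?_)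
    rw [show ker x r z = r ^ 2 / φ ^ 2 from rfl]
    field_simp
    ring
  linarith

lemma abs_dot_testW (x : T3) {r : ℝ} (hr : 0 < r) (v w : Fin 3 → ℝ) (z : T3) :
    |∑ i, w i * testW x r v z i| ≤ 42 * ‖v‖ * (‖w‖ * ker x r z) := by
  refine (Finset.abs_sum_le_sum_abs _ _).trans ((Finset.sum_le_card_nsmul _ _
    (‖w‖ * (14 * ‖v‖ * ker x r z)) fun i _ => ?_).trans (le_of_eq (by simp; ring)))
  rw [abs_mul]
  exact mul_le_mul (norm_le_pi_norm w i) (testW_abs x hr v z i) (abs_nonneg _) (norm_nonneg w)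

/-- The square-integrable part is negligible at scale `r`. -/
lemma l2_small {σ : T3 → Fin 3 → ℝ} (hσ : MemLp σ 2 vol) {η : ℝ} (hη : 0 < η) :
    ∀ᶠ r in 𝓝[>] (0 : ℝ), ∀ x, ∫ z, ‖σ z‖ * ker x r z ∂vol ≤ η * r := by
  have : IsProbabilityMeasure vol := by unfold vol; infer_instance
  set N := fun z => ‖σ z‖
  have hN : MemLp N 2 vol := hσ.norm
  have hN2 : Integrable (fun z => N z ^ 2) vol := hN.integrable_sq
  have hlim : Tendsto (fun M : ℕ => ∫ z, max (N z - M) 0 ^ 2 ∂vol) atTop (𝓝 0) := by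
    have h := tendsto_integral_of_dominated_convergence (μ := vol) (fun z => N z ^ 2)
      (F := fun (M : ℕ) z => max (N z - M) 0 ^ 2) (f := fun _ => (0 : ℝ)) (fun M => ?_) hN2
      (fun M => Eventually.of_forall fun z => ?_) (Eventually.of_forall fun z => ?_)
    · simpa using h
    · exact (((hN.aestronglyMeasurable.aemeasurable.sub_const _).max aemeasurable_const).pow_const
        2).aestronglyMeasurable
    · rw [Real.norm_eq_abs, abs_of_nonneg (sq_nonneg _)]
      refine pow_le_pow_left₀ (le_max_right _ _) (max_le ?_ (norm_nonneg _)) 2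
      linarith [(Nat.cast_nonneg M : (0 : ℝ) ≤ M)]
    · refine tendsto_const_nhds.congr' ?_
      filter_upwards [eventually_ge_atTop ⌈N z⌉₊] with M hM
      have : N z ≤ M := (Nat.le_ceil _).trans (by exact_mod_cast hM)
      simp [max_eq_right (by linarith : N z - M ≤ 0)]
  -- the constant by which the inequality `a b ≤ t a² + b²/t` is used
  set t := η / (2 * 27000) with ht
  have ht0 : 0 < t := by positivity
  obtain ⟨M, hM⟩ := (hlim.eventually_le_const (show (0 : ℝ) < t * η / 4 by positivity)).exists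
  have hev : ∀ᶠ r in 𝓝[>] (0 : ℝ), (M : ℝ) * 27000 * r ≤ η / 4 := by
    have : Tendsto (fun r : ℝ => (M : ℝ) * 27000 * r) (𝓝 0) (𝓝 0) := by
      simpa using (show Continuous fun r : ℝ => (M : ℝ) * 27000 * r by fun_prop).tendsto 0
    exact (this.mono_left nhdsWithin_le_nhds).eventually_le_const (by positivity)
  filter_upwards [hev, self_mem_nhdsWithin] with r hr hr0 x
  have hr0' : 0 < r := hr0
  have hk := continuous_ker x hr0'
  have hphi : Continuous fun z => (phi x r z ^ 2)⁻¹ :=
    (((Four.sm_continuous (sm_phi x hr0')).pow 2)).inv₀ fun z => (pow_pos (phi_pos x hr0' z) 2).ne'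
  set R := fun z => max (N z - M) 0
  have hR : MemLp R 2 vol := by
    refine hN.mono ((hN.aestronglyMeasurable.aemeasurable.sub_const _).max
      aemeasurable_const).aestronglyMeasurable (Eventually.of_forall fun z => ?_)
    rw [Real.norm_eq_abs, Real.norm_eq_abs, abs_of_nonneg (le_max_right _ _),
      abs_of_nonneg (norm_nonneg _)]
    exact max_le (by linarith [(Nat.cast_nonneg M : (0 : ℝ) ≤ M)]) (norm_nonneg _)
  have hpt : ∀ z, N z * ker x r z ≤
      (M * r ^ 2) * (phi x r z ^ 2)⁻¹ + (r / t * R z ^ 2 + t / r * (r ^ 2 * (phi x r z ^ 2)⁻¹)) := by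
    intro z
    have hk0 := ker_nonneg x r z
    have hk1 := ker_le_one x hr0' z
    have e : ker x r z = r ^ 2 * (phi x r z ^ 2)⁻¹ := by rw [ker, div_eq_mul_inv]
    have hN' : N z ≤ M + R z := by linarith [le_max_left (N z - M) 0]
    refine (mul_le_mul_of_nonneg_right hN' hk0).trans ?_
    rw [add_mul, ← e]
    refine add_le_add (le_of_eq (by rw [e]; ring)) ?_
    have hR0 : 0 ≤ R z := le_max_right _ _
    have hk2 : ker x r z ^ 2 ≤ ker x r z := by nlinarith
    have hamgm : R z * ker x r z ≤ r / t * R z ^ 2 + t / r * ker x r z ^ 2 := by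
      rw [div_mul_eq_mul_div, div_mul_eq_mul_div, div_add_div _ _ ht0.ne' hr0'.ne',
        le_div_iff₀ (by positivity)]
      nlinarith [sq_nonneg (r * R z - t * ker x r z), mul_nonneg (mul_nonneg hR0 hk0)
        (mul_pos ht0 hr0').le]
    have := mul_le_mul_of_nonneg_left hk2 (show 0 ≤ t / r by positivity)
    linarith
  have i1 : Integrable (fun z => N z * ker x r z) vol := by
    obtain ⟨C, -, hC⟩ := Four.exists_bound hk
    exact (hN.integrable (by norm_num)).mul_bdd hk.aestronglyMeasurable (c := C)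
      (Eventually.of_forall hC)
  have i2 : Integrable (fun z => (M * r ^ 2) * (phi x r z ^ 2)⁻¹) vol :=
    (continuous_const.mul hphi).integrable_of_hasCompactSupport (HasCompactSupport.of_compactSpace _)
  have i3 := hR.integrable_sq.const_mul (r / t)
  have i4 : Integrable (fun z => t / r * (r ^ 2 * (phi x r z ^ 2)⁻¹)) vol :=
    (continuous_const.mul (continuous_const.mul hphi)).integrable_of_hasCompactSupport
      (HasCompactSupport.of_compactSpace _)
  refine (integral_mono i1 (i2.fun_add (i3.fun_add i4)) hpt).trans ?_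
  rw [integral_add i2 (i3.fun_add i4), integral_add i3 i4, integral_const_mul, integral_const_mul,
    integral_const_mul, integral_const_mul]
  have hI := integral_inv_phi_sq x hr0'
  have e1 := mul_le_mul_of_nonneg_left hI (show (0 : ℝ) ≤ M * r ^ 2 by positivity)
  have e2 : r / t * ∫ z, R z ^ 2 ∂vol ≤ η / 4 * r := by
    refine (mul_le_mul_of_nonneg_left hM (by positivity)).trans (le_of_eq ?_)
    field_simp
  have e3 : t / r * (r ^ 2 * ∫ z, (phi x r z ^ 2)⁻¹ ∂vol) ≤ η / 2 * r := by
    refine (mul_le_mul_of_nonneg_left (mul_le_mul_of_nonneg_left hI (sq_nonneg r))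
      (by positivity)).trans (le_of_eq ?_)
    rw [ht]
    field_simp
  have e4 := mul_le_mul_of_nonneg_right hr hr0'.le
  nlinarith

end Dens

open Levi Dens in
theorem density_zero (μ : Measure T3) [IsFiniteMeasure μ] {a : T3 → Fin 3 → ℝ}
    (ha : Measurable a) {R : ℝ} (hR : ∀ x, ‖a x‖ ≤ R) {G : ℝ}
    (hg : ∀ y r, 0 < r → μ.real (Metric.ball y r) ≤ G * r)
    {σ : T3 → Fin 3 → ℝ} (hσ : MemLp σ 2 vol)
    (h : ∀ (Φ : T3 → Fin 3 → ℝ) (W : T3 → Fin 3 → ℝ), Sm Φ → (∀ x, W (pt x) = curl Φ x) →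
      ∫ x, (∑ i, a x i * W x i) ∂μ + ∫ x, (∑ i, σ x i * W x i) ∂vol = 0) :
    ∀ᵐ x ∂μ, a x ≠ 0 → Tendsto (fun r => μ.real (Metric.ball x r) / r) (𝓝[>] 0) (𝓝 0) := by
  have : IsProbabilityMeasure vol := by unfold vol; infer_instance
  have hai : Integrable a μ :=
    Integrable.of_bound ha.aestronglyMeasurable R (Eventually.of_forall hR)
  filter_upwards [lebesgue_ker μ hg hai] with x hx hne
  set v := a x
  set V := ∑ i, v i ^ 2
  have hV : 0 < V := by
    obtain ⟨i, hi⟩ := Function.ne_iff.1 hne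
    exact Finset.sum_pos' (fun j _ => sq_nonneg _) ⟨i, Finset.mem_univ i, sq_pos_of_ne_zero hi⟩
  have hvn : 0 ≤ ‖v‖ := norm_nonneg v
  set T := μ.real Set.univ
  rw [Metric.tendsto_nhds]
  intro ε hε
  set η := ε * V / (8 * 4 * 42 * (‖v‖ + 1)) with hη'
  have hη : 0 < η := by positivity
  have hev : ∀ᶠ r in 𝓝[>] (0 : ℝ), 21 * V * T * r ≤ ε * V / 32 := by
    have : Tendsto (fun r : ℝ => 21 * V * T * r) (𝓝 0) (𝓝 0) := by
      simpa using (show Continuous fun r : ℝ => 21 * V * T * r by fun_prop).tendsto 0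
    exact (this.mono_left nhdsWithin_le_nhds).eventually_le_const (by positivity)
  filter_upwards [hx η hη, l2_small hσ hη, hev, self_mem_nhdsWithin] with r hA hS hr hr0
  have hr0' : 0 < r := hr0
  set W := testW x r v
  have hWc : Continuous W := continuous_testW x hr0' v
  have hWi : ∀ i, Continuous fun z => W z i := fun i => (continuous_apply i).comp hWc
  have h0 := h (testPhi x r v) W (sm_testPhi x hr0' v) fun q => curl_testPhi x hr0' v q
  have hvW : Continuous fun z => ∑ i, v i * W z i :=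
    continuous_finsetSum _ fun i _ => continuous_const.mul (hWi i)
  have iv : Integrable (fun z => ∑ i, v i * W z i) μ :=
    hvW.integrable_of_hasCompactSupport (HasCompactSupport.of_compactSpace _)
  have iaW : Integrable (fun z => ∑ i, a z i * W z i) μ :=
    integrable_finsetSum _ fun i _ => integrable_mul_cont μ (hai.eval i) (hWi i)
  have ik : Integrable (fun z => ‖a z - v‖ * ker x r z) μ :=
    integrable_mul_cont μ (hai.sub (integrable_const v)).norm (continuous_ker x hr0')
  set B := Metric.ball x r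
  have hB : MeasurableSet B := measurableSet_ball
  have hlow : V / 8 * μ.real B - 21 * r ^ 2 * V * T ≤ ∫ z, ∑ i, v i * W z i ∂μ := by
    have e : V / 8 * μ.real B - 21 * r ^ 2 * V * T =
        ∫ z, B.indicator (fun _ => V / 8) z - 21 * r ^ 2 * V ∂μ := by
      rw [integral_sub ((integrable_const _).indicator hB) (integrable_const _),
        integral_indicator hB, setIntegral_const, integral_const, smul_eq_mul, smul_eq_mul]
      ring
    rw [e]
    refine integral_mono (((integrable_const _).indicator hB).sub (integrable_const _)) iv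
      fun z => ?_
    obtain ⟨l1, l2⟩ := testW_lower x hr0' v z
    by_cases hz : z ∈ B
    · rw [Set.indicator_of_mem hz]; exact l2 (Metric.mem_ball.1 hz)
    · rw [Set.indicator_of_notMem hz, zero_sub]; exact l1
  have hdiff : |∫ z, ∑ i, a z i * W z i ∂μ - ∫ z, ∑ i, v i * W z i ∂μ| ≤
      42 * ‖v‖ * (η * r) := by
    rw [← integral_sub iaW iv, ← Real.norm_eq_abs]
    refine (norm_integral_le_of_norm_le (ik.const_mul (42 * ‖v‖))
      (Eventually.of_forall fun z => ?_)).trans ?_
    · rw [Real.norm_eq_abs, ← Finset.sum_sub_distrib]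
      simp only [← sub_mul]
      exact abs_dot_testW x hr0' v (a z - v) z
    · rw [integral_const_mul]
      exact mul_le_mul_of_nonneg_left hA (by positivity)
  have hsig : |∫ z, ∑ i, σ z i * W z i ∂vol| ≤ 42 * ‖v‖ * (η * r) := by
    have is : Integrable (fun z => ‖σ z‖ * ker x r z) vol :=
      integrable_mul_cont vol (hσ.norm.integrable (by norm_num)) (continuous_ker x hr0')
    rw [← Real.norm_eq_abs]
    refine (norm_integral_le_of_norm_le (is.const_mul (42 * ‖v‖))
      (Eventually.of_forall fun z => ?_)).trans ?_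
    · rw [Real.norm_eq_abs]; exact abs_dot_testW x hr0' v (σ z) z
    · rw [integral_const_mul]
      exact mul_le_mul_of_nonneg_left (hS x) (by positivity)
  rw [abs_le] at hdiff hsig
  have hsmall : 84 * ‖v‖ * η ≤ ε * V / 16 := by
    rw [hη', mul_div_assoc', div_le_iff₀ (by positivity)]
    nlinarith [mul_nonneg (mul_nonneg hε.le hV.le) hvn, mul_pos hε hV]
  have h1 := mul_le_mul_of_nonneg_right hsmall hr0'.le
  have h2 := mul_le_mul_of_nonneg_right hr hr0'.le
  rw [Real.dist_eq, sub_zero, abs_of_nonneg (div_nonneg measureReal_nonneg hr0'.le), div_lt_iff₀ hr0']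
  have hm : 0 < ε * V * r := by positivity
  nlinarith

end Vale.Agent.P204
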