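import Vale.Agent.P204.Defs

/-!
Convolution of coefficient sequences in weighted square-summable spaces.
-/

open Filter Topology
open scoped ComplexConjugate

namespace Vale.Agent.P204

/-- Polynomial growth. -/
def PolyB (u : Idx → C6) : Prop := ∃ A : ℝ, ∃ n : ℕ, ∀ l, ‖u l‖ ≤ A * wt l ^ n

lemma one_le_wt (k : Idx) : 1 ≤ wt k := by
  exact le_add_of_nonneg_right (Finset.sum_nonneg fun i _ => sq_nonneg _)

lemma wt_peetre (k l : Idx) : wt k ≤ 2 * wt (k - l) * wt l := by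
  simp only [wt, Fin.sum_univ_three, Pi.sub_apply, Int.cast_sub]
  nlinarith [sq_nonneg ((k 0 : ℝ) - 2 * l 0), sq_nonneg ((k 1 : ℝ) - 2 * l 1),
    sq_nonneg ((k 2 : ℝ) - 2 * l 2),
    mul_nonneg (add_nonneg (add_nonneg (sq_nonneg ((k 0 : ℝ) - l 0)) (sq_nonneg ((k 1 : ℝ) - l 1)))
      (sq_nonneg ((k 2 : ℝ) - l 2)))
      (add_nonneg (add_nonneg (sq_nonneg (l 0 : ℝ)) (sq_nonneg (l 1 : ℝ))) (sq_nonneg (l 2 : ℝ)))]

lemma summable_wt_inv : Summable fun k : Idx => ((wt k) ^ 2)⁻¹ := by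
  set f : ℤ → ℝ := fun n => ((1 + (n : ℝ) ^ 2) ^ (2 / 3 : ℝ))⁻¹ with hf
  have f0 : ∀ n, 0 ≤ f n := fun n => by positivity
  have h1 : Summable f := by
    refine Summable.of_norm_bounded_eventually (Real.summable_abs_int_rpow (b := 4 / 3) (by norm_num)) ?_
    filter_upwards [(Set.finite_singleton (0 : ℤ)).compl_mem_cofinite] with n hn
    have hn0 : 0 < |(n : ℝ)| := abs_pos.2 (Int.cast_ne_zero.2 (by simpa using hn))
    rw [Real.norm_of_nonneg (f0 n), hf, Real.rpow_neg (abs_nonneg _)]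
    refine inv_anti₀ (by positivity) ?_
    rw [show (4 / 3 : ℝ) = 2 * (2 / 3) by norm_num, Real.rpow_mul (abs_nonneg _), Real.rpow_two, sq_abs]
    exact Real.rpow_le_rpow (sq_nonneg _) (by linarith) (by norm_num)
  have h2 : Summable fun q : ℤ × ℤ × ℤ => f q.1 * (f q.2.1 * f q.2.2) := by
    refine Summable.mul_of_nonneg (f := f) (g := fun q : ℤ × ℤ => f q.1 * f q.2) h1 ?_ f0
      fun q => mul_nonneg (f0 _) (f0 _)
    exact Summable.mul_of_nonneg (f := f) (g := f) h1 h1 f0 f0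
  have hinj : Function.Injective fun k : Idx => (k 0, k 1, k 2) := fun a b h => by
    simp only [Prod.mk.injEq] at h
    funext i; fin_cases i
    · exact h.1
    · exact h.2.1
    · exact h.2.2
  refine Summable.of_nonneg_of_le (fun k => by positivity) (fun k => ?_) (h2.comp_injective hinj)
  have hw : 0 ≤ wt k := zero_le_one.trans (one_le_wt k)
  have hb : ∀ i, (1 + (k i : ℝ) ^ 2) ^ (2 / 3 : ℝ) ≤ wt k ^ (2 / 3 : ℝ) := fun i =>
    Real.rpow_le_rpow (by positivity) (add_le_add le_rfl (Finset.single_le_sum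
      (f := fun i => (k i : ℝ) ^ 2) (fun _ _ => sq_nonneg _) (Finset.mem_univ i))) (by norm_num)
  simp only [Function.comp_apply, hf]
  rw [← mul_inv, ← mul_inv]
  refine inv_anti₀ (by positivity) ?_
  have e : wt k ^ (2 / 3 : ℝ) * (wt k ^ (2 / 3 : ℝ) * wt k ^ (2 / 3 : ℝ)) = wt k ^ 2 := by
    rw [← Real.rpow_add' hw (by norm_num), ← Real.rpow_add' hw (by norm_num),
      ← Real.rpow_natCast (wt k) 2]
    norm_num
  rw [← e]
  exact mul_le_mul (hb 0) (mul_le_mul (hb 1) (hb 2) (by positivity) (by positivity))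
    (by positivity) (by positivity)

lemma wt_pos (k : Idx) : 0 < wt k := zero_lt_one.trans_le (one_le_wt k)

lemma wt_neg (k : Idx) : wt (-k) = wt k := by simp [wt]

lemma wt_le_of_diff (k l : Idx) : wt l ≤ 2 * wt (k - l) * wt k := by
  have h := wt_peetre l k
  rwa [show l - k = -(k - l) by abel, wt_neg] at h

lemma polyB_term {M : Idx → C6 →L[ℂ] C6} {u : Idx → C6} {A : ℝ} {n : ℕ}
    (hu : ∀ l, ‖u l‖ ≤ A * wt l ^ n) (k l : Idx) :
    ‖M (k - l) (u l)‖ ≤ A * (2 * wt k) ^ n * (wt (k - l) ^ n * ‖M (k - l)‖) := by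
  have A0 : 0 ≤ A :=
    nonneg_of_mul_nonneg_left ((norm_nonneg (u 0)).trans (hu 0)) (pow_pos (wt_pos 0) n)
  calc ‖M (k - l) (u l)‖ ≤ ‖M (k - l)‖ * ‖u l‖ := (M (k - l)).le_opNorm _
    _ ≤ ‖M (k - l)‖ * (A * wt l ^ n) := mul_le_mul_of_nonneg_left (hu l) (norm_nonneg _)
    _ ≤ ‖M (k - l)‖ * (A * (2 * wt (k - l) * wt k) ^ n) := by
        have := wt_pos l
        exact mul_le_mul_of_nonneg_left (mul_le_mul_of_nonneg_left
          (pow_le_pow_left₀ this.le (wt_le_of_diff k l) n) A0) (norm_nonneg _)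
    _ = _ := by rw [show 2 * wt (k - l) * wt k = 2 * wt k * wt (k - l) by ring, mul_pow]; ring

lemma conv_term_summable {M : Idx → C6 →L[ℂ] C6} (hM : Rapid M) {u : Idx → C6} (hu : PolyB u)
    (k : Idx) : Summable fun l => M (k - l) (u l) := by
  obtain ⟨A, n, hA⟩ := hu
  refine Summable.of_norm (Summable.of_nonneg_of_le (fun l => norm_nonneg _)
    (fun l => polyB_term hA k l) ?_)
  exact ((Equiv.subLeft k).summable_iff.2 (hM n)).mul_left _

lemma conv_polyB {M : Idx → C6 →L[ℂ] C6} (hM : Rapid M) {u : Idx → C6} (hu : PolyB u) :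
    PolyB (conv M u) := by
  obtain ⟨A, n, hA⟩ := hu
  refine ⟨A * 2 ^ n * ∑' j, wt j ^ n * ‖M j‖, n, fun k => ?_⟩
  have hs : Summable fun l => wt (k - l) ^ n * ‖M (k - l)‖ := (Equiv.subLeft k).summable_iff.2 (hM n)
  have e : ∑' l, wt (k - l) ^ n * ‖M (k - l)‖ = ∑' j, wt j ^ n * ‖M j‖ :=
    (Equiv.subLeft k).tsum_eq (fun j => wt j ^ n * ‖M j‖)
  refine (tsum_of_norm_bounded (hs.hasSum.mul_left (A * (2 * wt k) ^ n))
    fun l => polyB_term hA k l).trans_eq ?_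
  rw [e, mul_pow]; ring

/-- The shear `(k, l) ↦ (k - l, l)`. -/
def shear : Idx × Idx ≃ Idx × Idx where
  toFun q := (q.1 - q.2, q.2)
  invFun q := (q.1 + q.2, q.2)
  left_inv q := by simp
  right_inv q := by simp

lemma summable_shear {a b : Idx → ℝ} (ha : Summable a) (hb : Summable b) (ha0 : ∀ j, 0 ≤ a j)
    (hb0 : ∀ j, 0 ≤ b j) : Summable fun q : Idx × Idx => a (q.1 - q.2) * b q.2 :=
  shear.summable_iff.2 (Summable.mul_of_nonneg (f := a) (g := b) ha hb ha0 hb0)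

lemma tsum_shear {a b : Idx → ℝ} (ha : Summable a) (hb : Summable b) (ha0 : ∀ j, 0 ≤ a j)
    (hb0 : ∀ j, 0 ≤ b j) : ∑' k, ∑' l, a (k - l) * b l = (∑' j, a j) * ∑' l, b l := by
  rw [← (summable_shear ha hb ha0 hb0).tsum_prod,
    ha.tsum_mul_tsum hb (Summable.mul_of_nonneg (f := a) (g := b) ha hb ha0 hb0)]
  exact shear.tsum_eq (fun q => a q.1 * b q.2)

lemma conv_rapid {M : Idx → C6 →L[ℂ] C6} (hM : Rapid M) {u : Idx → C6} (hu : Rapid u) :
    Rapid (conv M u) := by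
  intro m
  set a : Idx → ℝ := fun j => wt j ^ m * ‖M j‖ with ha
  set b : Idx → ℝ := fun l => wt l ^ m * ‖u l‖ with hb
  have ha0 : ∀ j, 0 ≤ a j := fun j => by have := wt_pos j; positivity
  have hb0 : ∀ j, 0 ≤ b j := fun j => by have := wt_pos j; positivity
  have hP := summable_shear (hM m) (hu m) ha0 hb0
  have hk : ∀ k, Summable fun l => a (k - l) * b l := fun k => hP.prod_factor k
  have hS : Summable fun k => 2 ^ m * ∑' l, a (k - l) * b l := hP.prod.mul_left _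
  refine Summable.of_nonneg_of_le (fun k => by have := wt_pos k; positivity) (fun k => ?_) hS
  have h0 : 0 < wt k ^ m := pow_pos (wt_pos k) m
  rw [← le_div_iff₀' h0]
  refine (tsum_of_norm_bounded
    (((hk k).hasSum.mul_left (2 ^ m)).div_const (wt k ^ m)) fun l => ?_).trans_eq ?_
  · rw [le_div_iff₀' h0]
    calc wt k ^ m * ‖M (k - l) (u l)‖
        ≤ (2 * wt (k - l) * wt l) ^ m * (‖M (k - l)‖ * ‖u l‖) :=
          mul_le_mul (pow_le_pow_left₀ (wt_pos k).le (wt_peetre k l) m) ((M (k - l)).le_opNorm _)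
            (norm_nonneg _) (by have := wt_pos l; have := wt_pos (k - l); positivity)
      _ = 2 ^ m * (a (k - l) * b l) := by rw [ha, hb, mul_pow, mul_pow]; ring
  · rfl

/-- Schur's test. It covers convolutions and commutators with multipliers. -/
lemma schur_bound {M : Idx → C6 →L[ℂ] C6} (hM : Rapid M) (p : ℕ) {C : ℝ} (hC : 0 ≤ C)
    {κ : Idx → Idx → ℝ} {b : Idx → ℝ} (h : ∀ k l, |κ k l| ≤ C * wt (k - l) ^ p * |b l|)
    {u : Idx → C6} (hs : Summable fun l => b l ^ 2 * ‖u l‖ ^ 2) :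
    (∀ k, Summable fun l => (κ k l : ℂ) • M (k - l) (u l)) ∧
      Summable (fun k => ‖∑' l, (κ k l : ℂ) • M (k - l) (u l)‖ ^ 2) ∧
      ∑' k, ‖∑' l, (κ k l : ℂ) • M (k - l) (u l)‖ ^ 2 ≤
        (C * ∑' k, wt k ^ p * ‖M k‖) ^ 2 * ∑' l, b l ^ 2 * ‖u l‖ ^ 2 := by
  set a : Idx → ℝ := fun j => C * (wt j ^ p * ‖M j‖) with ha
  set v : Idx → ℝ := fun l => |b l| * ‖u l‖ with hv
  have ha0 : ∀ j, 0 ≤ a j := fun j => by have := wt_pos j; positivity
  have hv0 : ∀ l, 0 ≤ v l := fun l => by positivity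
  have haS : Summable a := (hM p).mul_left C
  have hv2 : Summable fun l => v l ^ 2 := hs.congr fun l => by rw [hv, mul_pow, sq_abs]
  have hpt : ∀ k l, ‖(κ k l : ℂ) • M (k - l) (u l)‖ ≤ a (k - l) * v l := fun k l => by
    rw [norm_smul, Complex.norm_real, Real.norm_eq_abs]
    calc |κ k l| * ‖M (k - l) (u l)‖ ≤ C * wt (k - l) ^ p * |b l| * (‖M (k - l)‖ * ‖u l‖) :=
          mul_le_mul (h k l) ((M (k - l)).le_opNorm _) (norm_nonneg _) ((abs_nonneg _).trans (h k l))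
      _ = _ := by rw [ha, hv]; ring
  have hP := summable_shear haS hv2 ha0 fun l => sq_nonneg _
  have hak : ∀ k, Summable fun l => a (k - l) := fun k => (Equiv.subLeft k).summable_iff.2 haS
  have hav : ∀ k, Summable fun l => a (k - l) * v l := fun k =>
    Summable.of_nonneg_of_le (fun l => mul_nonneg (ha0 _) (hv0 _))
      (fun l => by
        nlinarith [mul_nonneg (ha0 (k - l)) (sq_nonneg (v l - 1)),
          mul_nonneg (ha0 (k - l)) (hv0 l)])
      ((hak k).add (hP.prod_factor k))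
  have hterm : ∀ k, Summable fun l => (κ k l : ℂ) • M (k - l) (u l) := fun k =>
    Summable.of_norm (Summable.of_nonneg_of_le (fun l => norm_nonneg _) (hpt k) (hav k))
  have hsq : ∀ k, ‖∑' l, (κ k l : ℂ) • M (k - l) (u l)‖ ^ 2 ≤
      (∑' j, a j) * ∑' l, a (k - l) * v l ^ 2 := fun k => by
    have h1 := tsum_of_norm_bounded (hav k).hasSum (hpt k)
    have h2 : ∑' l, a (k - l) * v l ≤ √((∑' j, a j) * ∑' l, a (k - l) * v l ^ 2) := by
      refine (hav k).tsum_le_of_sum_le fun t => Real.le_sqrt_of_sq_le ?_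
      refine (Finset.sum_sq_le_sum_mul_sum_of_sq_eq_mul t (f := fun l => a (k - l))
        (g := fun l => a (k - l) * v l ^ 2) (fun l _ => ha0 _)
        (fun l _ => mul_nonneg (ha0 _) (sq_nonneg _)) (fun l _ => by ring)).trans ?_
      refine mul_le_mul ?_ ((hP.prod_factor k).sum_le_tsum _ fun l _ => mul_nonneg (ha0 _) (sq_nonneg _))
        (Finset.sum_nonneg fun l _ => mul_nonneg (ha0 _) (sq_nonneg _)) (tsum_nonneg ha0)
      rw [← (Equiv.subLeft k).tsum_eq a]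
      exact (hak k).sum_le_tsum _ fun l _ => ha0 _
    refine (pow_le_pow_left₀ (norm_nonneg _) (h1.trans h2) 2).trans_eq (Real.sq_sqrt ?_)
    exact mul_nonneg (tsum_nonneg ha0) (tsum_nonneg fun l => mul_nonneg (ha0 _) (sq_nonneg _))
  have hR : Summable fun k => (∑' j, a j) * ∑' l, a (k - l) * v l ^ 2 := hP.prod.mul_left _
  have hL : Summable fun k => ‖∑' l, (κ k l : ℂ) • M (k - l) (u l)‖ ^ 2 :=
    Summable.of_nonneg_of_le (fun k => sq_nonneg _) hsq hR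
  refine ⟨hterm, hL, (hL.tsum_le_tsum hsq hR).trans_eq ?_⟩
  rw [tsum_mul_left, tsum_shear haS hv2 ha0 (fun l => sq_nonneg _), ← mul_assoc, ← pow_two, ha,
    tsum_mul_left]
  congr 1
  exact tsum_congr fun l => by rw [hv, mul_pow, sq_abs]

/-- The multiplier of the first smoothing step, squared. -/
noncomputable def N1 (δ : ℝ) (k : Idx) : ℝ := ((wt k) * (1 + δ * (wt k - 1)))⁻¹

/-- The multiplier of the second smoothing step. -/
noncomputable def N3 (h : ℝ) (k : Idx) : ℝ := ((1 + h * (wt k - 1)) ^ 3)⁻¹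

lemma abs_wt_sub_le (k l : Idx) : |wt k - wt l| ≤ 3 * wt (k - l) * √(wt l) := by
  set r := wt (k - l) with hr
  set e := ∑ i, |(k i : ℝ) - l i| * |(l i : ℝ)| with he
  have hd : ∑ i, ((k i : ℝ) - l i) ^ 2 = r - 1 := by simp [hr, wt]
  have r1 : 1 ≤ r := one_le_wt _
  have b1 : 1 ≤ √(wt l) := Real.one_le_sqrt.2 (one_le_wt l)
  have he2 : e ≤ r * √(wt l) := by
    have h := Real.sum_mul_le_sqrt_mul_sqrt Finset.univ (fun i => |(k i : ℝ) - l i|)
      (fun i => |(l i : ℝ)|)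
    simp only [sq_abs] at h
    refine h.trans (mul_le_mul ?_ (Real.sqrt_le_sqrt (by simp [wt])) (Real.sqrt_nonneg _) (by linarith))
    rw [hd]
    exact Real.sqrt_le_iff.2 ⟨by linarith, by nlinarith⟩
  have hw : |wt k - wt l| ≤ (r - 1) + 2 * e := by
    rw [← hd, he, Finset.mul_sum, ← Finset.sum_add_distrib]
    simp only [wt, add_sub_add_left_eq_sub, ← Finset.sum_sub_distrib]
    refine (Finset.abs_sum_le_sum_abs _ _).trans (Finset.sum_le_sum fun i _ => ?_)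
    rw [show (k i : ℝ) ^ 2 - (l i : ℝ) ^ 2 =
      ((k i : ℝ) - l i) ^ 2 + 2 * (((k i : ℝ) - l i) * l i) by ring, ← abs_mul]
    exact (abs_add_le _ _).trans_eq (by simp [abs_mul])
  nlinarith [mul_le_mul_of_nonneg_left b1 (zero_le_one.trans r1)]

/-- The base of both multipliers. -/
lemma q_le {d a b r : ℝ} (hd : d ∈ Set.Ioc (0 : ℝ) 1) (hr : 1 ≤ r) (h : a ≤ 2 * r * b) :
    1 + d * (a - 1) ≤ 2 * r * (1 + d * (b - 1)) := by
  nlinarith [mul_nonneg (sub_nonneg.2 hd.2) (show 0 ≤ 2 * r - 1 by linarith),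
    mul_le_mul_of_nonneg_left h hd.1.le]

lemma le_two_mul_of_sq_le {x y r : ℝ} (hy : 0 ≤ y) (hr : 1 ≤ r) (h : x ^ 2 ≤ 2 * r * y ^ 2) :
    x ≤ 2 * r * y :=
  le_of_pow_le_pow_left₀ two_ne_zero (by positivity) (h.trans (by
    rw [mul_pow (2 * r) y 2]
    exact mul_le_mul_of_nonneg_right (le_self_pow₀ (by linarith) two_ne_zero) (sq_nonneg y)))

lemma sqrt_N1_sub_le : ∃ C : ℝ, ∃ p : ℕ, 0 ≤ C ∧ ∀ δ ∈ Set.Ioc (0 : ℝ) 1, ∀ k l : Idx,
    |√(N1 δ k) - √(N1 δ l)| ≤ C * wt (k - l) ^ p * (wt l)⁻¹ ∧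
    |N1 δ k - N1 δ l| ≤ C * wt (k - l) ^ p * (√(N1 δ k) * (wt l)⁻¹) := by
  refine ⟨54, 4, by norm_num, fun δ hδ k l => ?_⟩
  set r := wt (k - l) with hr
  set a := wt k with hadef
  set b := wt l with hbdef
  have r1 : 1 ≤ r := one_le_wt _
  have a1 : 1 ≤ a := one_le_wt _
  have b1 : 1 ≤ b := one_le_wt _
  have hab : a ≤ 2 * r * b := wt_peetre k l
  have hba : b ≤ 2 * r * a := wt_le_of_diff k l
  set qa := 1 + δ * (a - 1) with hqa
  set qb := 1 + δ * (b - 1) with hqb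
  have qa1 : 1 ≤ qa := by nlinarith [hδ.1]
  have qb1 : 1 ≤ qb := by nlinarith [hδ.1]
  have hq : qa ≤ 2 * r * qb := q_le hδ r1 hab
  set x := √(a * qa) with hx
  set y := √(b * qb) with hy
  have hx2 : x ^ 2 = a * qa := Real.sq_sqrt (by positivity)
  have hy2 : y ^ 2 = b * qb := Real.sq_sqrt (by positivity)
  have x0 : 0 < x := Real.sqrt_pos.2 (by positivity)
  have y0 : 0 < y := Real.sqrt_pos.2 (by positivity)
  set s := √b with hs
  have s0 : 0 < s := Real.sqrt_pos.2 (by linarith)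
  have hs2 : s ^ 2 = b := Real.sq_sqrt (by linarith)
  have hsx : s ≤ 2 * r * x := le_two_mul_of_sq_le x0.le r1 (by
    rw [hs2, hx2]; nlinarith [mul_le_mul_of_nonneg_left qa1 (show 0 ≤ 2 * r * a by positivity)])
  have hnum : |a * qa - b * qb| ≤ 3 * r * s * (3 * r * qb) := by
    rw [show a * qa - b * qb = (a - b) * (1 + δ * (a + b - 1)) by rw [hqa, hqb]; ring, abs_mul]
    refine mul_le_mul (abs_wt_sub_le k l) ?_ (abs_nonneg _) (by positivity)
    rw [abs_of_nonneg (by nlinarith [hδ.1])]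
    nlinarith [hδ.2, mul_le_mul_of_nonneg_right r1 (zero_le_one.trans qb1)]
  have key : |x⁻¹ - y⁻¹| ≤ 18 * r ^ 3 * b⁻¹ := by
    have e : |x⁻¹ - y⁻¹| = |a * qa - b * qb| / (x * y * (x + y)) := by
      rw [inv_sub_inv x0.ne' y0.ne', abs_div, abs_of_pos (mul_pos x0 y0), ← hx2, ← hy2,
        show x ^ 2 - y ^ 2 = (x - y) * (x + y) by ring, abs_mul, abs_of_pos (add_pos x0 y0),
        abs_sub_comm y x]
      field_simp
    rw [e, div_le_iff₀ (by positivity)]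
    calc |a * qa - b * qb| ≤ 3 * r * s * (3 * r * qb) := hnum
      _ ≤ 3 * r * (2 * r * x) * (3 * r * qb) := by
          have : 0 ≤ r := by linarith
          gcongr
      _ = 18 * r ^ 3 * b⁻¹ * (x * y ^ 2) := by rw [hy2]; field_simp; ring
      _ ≤ 18 * r ^ 3 * b⁻¹ * (x * y * (x + y)) :=
          mul_le_mul_of_nonneg_left (by nlinarith [mul_pos (mul_pos x0 y0) x0]) (by positivity)
  have hxy : x ≤ 2 * r * y := le_of_pow_le_pow_left₀ two_ne_zero (by positivity) (by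
    rw [mul_pow, hx2, hy2]
    calc a * qa ≤ 2 * r * b * (2 * r * qb) := mul_le_mul hab hq (by linarith) (by positivity)
      _ = _ := by ring)
  have eN : ∀ j, N1 δ j = (√(wt j * (1 + δ * (wt j - 1))))⁻¹ ^ 2 := fun j => by
    rw [inv_pow, Real.sq_sqrt (mul_nonneg (wt_pos j).le (by nlinarith [one_le_wt j, hδ.1])), N1]
  have ekl : |N1 δ k - N1 δ l| = |x⁻¹ ^ 2 - y⁻¹ ^ 2| := by rw [eN k, eN l]
  have ek : √(N1 δ k) = x⁻¹ := by rw [N1, Real.sqrt_inv]
  have el : √(N1 δ l) = y⁻¹ := by rw [N1, Real.sqrt_inv]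
  constructor
  · rw [ek, el]
    refine key.trans (mul_le_mul_of_nonneg_right ?_ (by positivity))
    nlinarith [pow_le_pow_right₀ r1 (show 3 ≤ 4 by norm_num), pow_pos (zero_lt_one.trans_le r1) 4]
  · rw [ekl, ek, sq_sub_sq, abs_mul, abs_of_pos (by positivity : 0 < x⁻¹ + y⁻¹)]
    have hsum : x⁻¹ + y⁻¹ ≤ 3 * r * x⁻¹ := by
      have : y⁻¹ ≤ 2 * r * x⁻¹ := by
        rw [← div_eq_mul_inv, le_div_iff₀ x0, inv_mul_le_iff₀ y0]; linarith
      nlinarith [mul_le_mul_of_nonneg_right r1 (inv_nonneg.2 x0.le)]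
    calc (x⁻¹ + y⁻¹) * |x⁻¹ - y⁻¹| ≤ 3 * r * x⁻¹ * (18 * r ^ 3 * b⁻¹) :=
          mul_le_mul hsum key (abs_nonneg _) (by positivity)
      _ = _ := by ring

lemma sqrt_N3_sub_le : ∃ C : ℝ, ∃ p : ℕ, 0 ≤ C ∧ ∀ h ∈ Set.Ioc (0 : ℝ) 1, ∀ k l : Idx,
    |√(N3 h k) - √(N3 h l)| ≤ C * wt (k - l) ^ p * √(h * N3 h l) ∧
    |N3 h k - N3 h l| ≤ C * wt (k - l) ^ p * (√(N3 h k) * √(h * N3 h l)) := by
  refine ⟨189, 6, by norm_num, fun h hh k l => ?_⟩
  set r := wt (k - l) with hr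
  set a := wt k with hadef
  set b := wt l with hbdef
  have r1 : 1 ≤ r := one_le_wt _
  have a1 : 1 ≤ a := one_le_wt _
  have b1 : 1 ≤ b := one_le_wt _
  have h0 : 0 < h := hh.1
  set x := √(1 + h * (a - 1)) with hx
  set y := √(1 + h * (b - 1)) with hy
  have hx2 : x ^ 2 = 1 + h * (a - 1) := Real.sq_sqrt (by nlinarith)
  have hy2 : y ^ 2 = 1 + h * (b - 1) := Real.sq_sqrt (by nlinarith)
  have x1 : 1 ≤ x := Real.one_le_sqrt.2 (by nlinarith)
  have y1 : 1 ≤ y := Real.one_le_sqrt.2 (by nlinarith)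
  have x0 : 0 < x := by linarith
  have y0 : 0 < y := by linarith
  have hyx : y ≤ 2 * r * x := le_two_mul_of_sq_le x0.le r1 (by
    rw [hx2, hy2]; exact q_le hh r1 (wt_le_of_diff k l))
  set g := √h with hg
  have g0 : 0 ≤ g := Real.sqrt_nonneg _
  have hg2 : g ^ 2 = h := Real.sq_sqrt h0.le
  have hgs : g * √b ≤ y := by
    rw [hg, ← Real.sqrt_mul h0.le]
    exact Real.sqrt_le_sqrt (by nlinarith [hh.2])
  have hdiff : |x - y| ≤ 3 * r * g := by
    have e : |x - y| * (x + y) = h * |a - b| := by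
      rw [← abs_of_pos (add_pos x0 y0), ← abs_mul, ← abs_of_pos h0, ← abs_mul]
      congr 1; linear_combination hx2 - hy2
    refine le_of_mul_le_mul_right (e.trans_le ?_) (add_pos x0 y0)
    calc h * |a - b| ≤ h * (3 * r * √b) := mul_le_mul_of_nonneg_left (abs_wt_sub_le k l) h0.le
      _ = 3 * r * g * (g * √b) := by rw [← hg2]; ring
      _ ≤ 3 * r * g * (x + y) := mul_le_mul_of_nonneg_left (by linarith) (by positivity)
  have key : |(x ^ 3)⁻¹ - (y ^ 3)⁻¹| ≤ 21 * r ^ 3 * (g / y ^ 3) := by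
    rw [inv_sub_inv (by positivity) (by positivity), abs_div, abs_of_pos (by positivity : 0 < x ^ 3 * y ^ 3),
      show y ^ 3 - x ^ 3 = (y - x) * (x ^ 2 + x * y + y ^ 2) by ring, abs_mul, abs_sub_comm,
      abs_of_pos (by positivity : 0 < x ^ 2 + x * y + y ^ 2), div_le_iff₀ (by positivity)]
    have hp : x ^ 2 + x * y + y ^ 2 ≤ 7 * r ^ 2 * x ^ 3 := by
      have h3 : x ^ 2 ≤ x ^ 3 := pow_le_pow_right₀ x1 (by norm_num)
      have hr2 : r ≤ r ^ 2 := le_self_pow₀ r1 two_ne_zero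
      calc x ^ 2 + x * y + y ^ 2 ≤ x ^ 2 + x * (2 * r * x) + (2 * r * x) ^ 2 := by gcongr
        _ = (1 + 2 * r + 4 * r ^ 2) * x ^ 2 := by ring
        _ ≤ 7 * r ^ 2 * x ^ 3 := mul_le_mul (by linarith) h3 (sq_nonneg x) (by positivity)
    calc |x - y| * (x ^ 2 + x * y + y ^ 2) ≤ 3 * r * g * (7 * r ^ 2 * x ^ 3) :=
          mul_le_mul hdiff hp (by positivity) (by positivity)
      _ = _ := by field_simp; ring
  have sq3 : ∀ z : ℝ, 0 ≤ z → √(z ^ 3)⁻¹ = (√z ^ 3)⁻¹ := fun z hz => by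
    rw [Real.sqrt_inv]; congr 1
    rw [Real.sqrt_eq_iff_eq_sq (by positivity) (by positivity), ← pow_mul, show 3 * 2 = 2 * 3 by norm_num,
      pow_mul, Real.sq_sqrt hz]
  have ek : √(N3 h k) = (x ^ 3)⁻¹ := sq3 _ (by nlinarith)
  have el : √(N3 h l) = (y ^ 3)⁻¹ := sq3 _ (by nlinarith)
  have eh : √(h * N3 h l) = g / y ^ 3 := by rw [Real.sqrt_mul h0.le, el, div_eq_mul_inv]
  constructor
  · rw [ek, el, eh]
    refine key.trans (mul_le_mul_of_nonneg_right ?_ (by positivity))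
    nlinarith [pow_le_pow_right₀ r1 (show 3 ≤ 6 by norm_num)]
  · have nk : N3 h k = (x ^ 3)⁻¹ ^ 2 := by
      rw [← ek, Real.sq_sqrt]; unfold N3; exact inv_nonneg.2 (pow_nonneg (by nlinarith) 3)
    have nl : N3 h l = (y ^ 3)⁻¹ ^ 2 := by
      rw [← el, Real.sq_sqrt]; unfold N3; exact inv_nonneg.2 (pow_nonneg (by nlinarith) 3)
    rw [ek, eh, nk, nl, sq_sub_sq, abs_mul, abs_of_pos (by positivity : 0 < (x ^ 3)⁻¹ + (y ^ 3)⁻¹)]
    have hxy : x ≤ 2 * r * y := le_two_mul_of_sq_le y0.le r1 (by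
      rw [hx2, hy2]; exact q_le hh r1 (wt_peetre k l))
    have hsum : (x ^ 3)⁻¹ + (y ^ 3)⁻¹ ≤ 9 * r ^ 3 * (x ^ 3)⁻¹ := by
      have h8 : (y ^ 3)⁻¹ ≤ 8 * r ^ 3 * (x ^ 3)⁻¹ := by
        rw [← div_eq_mul_inv, le_div_iff₀ (by positivity), inv_mul_le_iff₀ (by positivity)]
        calc x ^ 3 ≤ (2 * r * y) ^ 3 := pow_le_pow_left₀ x0.le hxy 3
          _ = y ^ 3 * (8 * r ^ 3) := by ring
      nlinarith [mul_le_mul_of_nonneg_right (one_le_pow₀ r1 (n := 3)) (inv_nonneg.2 (pow_nonneg x0.le 3))]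
    calc ((x ^ 3)⁻¹ + (y ^ 3)⁻¹) * |(x ^ 3)⁻¹ - (y ^ 3)⁻¹|
        ≤ 9 * r ^ 3 * (x ^ 3)⁻¹ * (21 * r ^ 3 * (g / y ^ 3)) :=
          mul_le_mul hsum key (abs_nonneg _) (by positivity)
      _ = _ := by ring

end Vale.Agent.P204
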