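import Vale.Agent.P204.Defs
import Vale.Agent.P204.Seq

/-!
Fourier series of smooth functions and of measures on the torus.
-/

open MeasureTheory Filter Topology
open scoped ContDiff ComplexConjugate Matrix

namespace Vale.Agent.P204

noncomputable local instance : MeasureSpace UnitAddCircle := ⟨AddCircle.haarAddCircle⟩

local instance : IsProbabilityMeasure (volume : Measure UnitAddCircle) :=
  inferInstanceAs (IsProbabilityMeasure AddCircle.haarAddCircle)

local instance : Measure.IsAddHaarMeasure (volume : Measure UnitAddCircle) :=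
  inferInstanceAs (Measure.IsAddHaarMeasure AddCircle.haarAddCircle)

namespace Four

open UnitAddTorus

lemma vol_eq : vol = (volume : Measure T3) := rfl

instance : IsProbabilityMeasure vol := by unfold vol; infer_instance

lemma pt_add (x y : Fin 3 → ℝ) : pt (x + y) = pt x + pt y := by
  funext i; simp [pt]

lemma pt_zero : pt 0 = 0 := by
  funext i; simp [pt]

lemma pt_quotient : IsOpenQuotientMap pt :=
  IsOpenQuotientMap.piMap (f := fun _ => ((↑) : ℝ → UnitAddCircle))
    fun _ => QuotientAddGroup.isOpenQuotientMap_mk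

lemma pt_surj : Function.Surjective pt := pt_quotient.surjective

lemma sm_continuous {E : Type*} [NormedAddCommGroup E] [NormedSpace ℝ E] {f : T3 → E}
    (hf : Sm f) : Continuous f :=
  pt_quotient.continuous_comp_iff.1 hf.continuous

lemma exists_bound {E : Type*} [NormedAddCommGroup E] {f : T3 → E} (hf : Continuous f) :
    ∃ C, 0 ≤ C ∧ ∀ x, ‖f x‖ ≤ C := by
  obtain ⟨C, hC⟩ := isCompact_univ.exists_bound_of_continuousOn hf.continuousOn
  exact ⟨max C 0, le_max_right _ _, fun x => (hC x trivial).trans (le_max_left _ _)⟩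

/-- The partial derivative, on the torus. -/
lemma exists_deriv {f : T3 → ℝ} (hf : Sm f) (i : Fin 3) :
    ∃ g : T3 → ℝ, Sm g ∧ ∀ x, fderiv ℝ (f ∘ pt) x (Pi.single i 1) = g (pt x) := by
  set F : (Fin 3 → ℝ) → ℝ := fun x => fderiv ℝ (f ∘ pt) x (Pi.single i 1) with hF
  have hinv : ∀ a b, pt a = pt b → F a = F b := fun a b h => by
    have h0 : pt (b - a) = 0 := by
      have := pt_add (b - a) a
      rw [sub_add_cancel, h] at this
      exact (add_eq_right.1 this.symm)
    have hc : (fun x => (f ∘ pt) (x + (b - a))) = f ∘ pt := by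
      funext x; simp [Function.comp, pt_add, h0]
    have := fderiv_comp_add_right (𝕜 := ℝ) (f := f ∘ pt) (x := a) (b - a)
    rw [hc, add_sub_cancel] at this
    simp only [hF]; rw [this]
  refine ⟨fun y => F (Function.surjInv pt_surj y), ?_, fun x => ?_⟩
  · have he : (fun y => F (Function.surjInv pt_surj y)) ∘ pt = F := by
      funext x; exact hinv _ _ (Function.surjInv_eq pt_surj _)
    unfold Sm
    rw [he]
    exact (hf.fderiv_right (m := ∞) (by norm_num)).clm_apply contDiff_const
  · exact hinv _ _ (Function.surjInv_eq pt_surj _).symm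

lemma norm_e (k : Idx) (x : T3) : ‖mFourier k x‖ = 1 := by
  simp [mFourier, fourier_apply, norm_prod, Circle.norm_coe]

lemma mFourier_shift (k : Idx) (x y : T3) :
    mFourier k (x + y) = mFourier k x * mFourier k y := by
  simp [mFourier, fourier_apply, ← Finset.prod_mul_distrib, smul_add, AddCircle.toCircle_add]

/-- The phase of a monomial. -/
noncomputable def phase (k : Idx) : (Fin 3 → ℝ) →L[ℝ] ℂ :=
  ∑ i, (2 * Real.pi * Complex.I * (k i)) • (Complex.ofRealCLM.comp (ContinuousLinearMap.proj i))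

lemma phase_apply (k : Idx) (y : Fin 3 → ℝ) :
    phase k y = ∑ i, 2 * Real.pi * Complex.I * (k i) * (y i) := by
  simp [phase]

lemma mFourier_pt (k : Idx) (y : Fin 3 → ℝ) : mFourier k (pt y) = Complex.exp (phase k y) := by
  rw [phase_apply, Complex.exp_sum]
  simp only [mFourier, ContinuousMap.coe_mk]
  refine Finset.prod_congr rfl fun i _ => ?_
  rw [pt, fourier_coe_apply, Complex.ofReal_one, div_one]

lemma abs_coord_le_wt (k : Idx) (i : Fin 3) : |(k i : ℝ)| ≤ wt k := by
  have h : (k i : ℝ) ^ 2 ≤ ∑ j, (k j : ℝ) ^ 2 :=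
    Finset.single_le_sum (f := fun j => (k j : ℝ) ^ 2) (fun j _ => sq_nonneg _)
      (Finset.mem_univ i)
  unfold wt
  nlinarith [sq_abs (k i : ℝ), sq_nonneg (|(k i : ℝ)| - 1)]

lemma wt_pos (k : Idx) : 0 < wt k := lt_of_lt_of_le one_pos (one_le_wt k)

lemma wt_neg (k : Idx) : wt (-k) = wt k := by simp [wt]

lemma integrable_e_mul {μ : Measure T3} [IsFiniteMeasure μ] (k : Idx) {h : T3 → ℂ}
    (hm : AEStronglyMeasurable h μ) {R : ℝ} (hR : ∀ x, ‖h x‖ ≤ R) :
    Integrable (fun x => mFourier k x * h x) μ :=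
  Integrable.mono' (integrable_const R)
    ((mFourier k).continuous.aestronglyMeasurable.mul hm)
    (.of_forall fun x => by simpa [norm_e] using hR x)

lemma norm_coef_le {μ : Measure T3} [IsFiniteMeasure μ] {f : T3 → ℝ} {R : ℝ}
    (hR : ∀ x, |f x| ≤ R) (k : Idx) : ‖coef μ f k‖ ≤ R * μ.real Set.univ :=
  norm_integral_le_of_norm_le_const (.of_forall fun x => by simp [norm_e, hR x])

lemma coef_neg (μ : Measure T3) (f : T3 → ℝ) (k : Idx) : coef μ f (-k) = conj (coef μ f k) := by
  rw [coef, coef, ← integral_conj]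
  congr 1; funext x
  rw [map_mul, Complex.conj_ofReal, neg_neg, mFourier_neg, Complex.conj_conj]

lemma coef_vol (f : T3 → ℝ) (k : Idx) :
    coef vol f k = mFourierCoeff (fun x => (f x : ℂ)) k := rfl

lemma integral_shift (h : T3 → ℂ) (y : T3) : ∫ x, h (x + y) ∂vol = ∫ x, h x ∂vol :=
  integral_add_right_eq_self (μ := (volume : Measure T3)) h y

end Four

open Four UnitAddTorus

lemma coef_deriv {f g : T3 → ℝ} (hf : Sm f) (i : Fin 3)
    (h : ∀ x, fderiv ℝ (f ∘ pt) x (Pi.single i 1) = g (pt x)) (k : Idx) :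
    coef vol g k = 2 * Real.pi * Complex.I * (k i) * coef vol f k := by
  obtain ⟨g', hg', hgd⟩ := exists_deriv hf i
  have hgg : g = g' := funext fun y => by
    obtain ⟨x, rfl⟩ := pt_surj y
    rw [← h x, hgd x]
  subst hgg
  obtain ⟨Cg, -, hCg⟩ := exists_bound (sm_continuous hg')
  obtain ⟨Cf, -, hCf⟩ := exists_bound (sm_continuous hf)
  set c : ℂ := 2 * Real.pi * Complex.I * (k i) with hc
  set w : ℝ → T3 := fun t => pt (t • Pi.single i 1) with hw
  have hcont : ∀ (u : T3 → ℝ), Continuous u → ∀ t, Continuous fun x : T3 =>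
      mFourier (-k) x * (u (x + w t) : ℂ) := fun u hu t =>
    (mFourier (-k)).continuous.mul
      (Complex.continuous_ofReal.comp (hu.comp (continuous_id.add continuous_const)))
  have hd := (hasDerivAt_integral_of_dominated_loc_of_deriv_le (μ := vol) (x₀ := (0 : ℝ))
    (F := fun t x => mFourier (-k) x * (f (x + w t) : ℂ))
    (F' := fun t x => mFourier (-k) x * (g (x + w t) : ℂ)) (bound := fun _ => Cg)
    Filter.univ_mem (.of_forall fun t => (hcont f (sm_continuous hf) t).aestronglyMeasurable)
    (Integrable.mono' (integrable_const Cf) (hcont f (sm_continuous hf) 0).aestronglyMeasurable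
      (.of_forall fun x => by simpa [norm_e] using hCf _))
    (hcont g (sm_continuous hg') 0).aestronglyMeasurable
    (.of_forall fun x t _ => by simpa [norm_e] using hCg _)
    (integrable_const _) (.of_forall fun x t _ => by
      obtain ⟨y, rfl⟩ := pt_surj x
      refine HasDerivAt.const_mul _ (HasDerivAt.ofReal_comp ?_)
      simp only [hw, ← pt_add]
      rw [← h]
      have hl : HasDerivAt (fun s : ℝ => y + s • (Pi.single i 1 : Fin 3 → ℝ)) (Pi.single i 1) t :=
        by simpa using ((hasDerivAt_id t).smul_const (Pi.single i 1 : Fin 3 → ℝ)).const_add y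
      exact ((hf.differentiable (by simp)).differentiableAt.hasFDerivAt).comp_hasDerivAt t hl)).2
  have hshift : ∀ t : ℝ, ∫ x, mFourier (-k) x * (f (x + w t) : ℂ) ∂vol
      = Complex.exp (c * t) * coef vol f k := fun t => by
    have hph : mFourier (-k) (w t) * Complex.exp (c * t) = 1 := by
      rw [hw, mFourier_pt, phase_apply, ← Complex.exp_add, Finset.sum_eq_single i
        (fun j _ hj => by simp [Pi.single_eq_of_ne hj]) (fun h => absurd (Finset.mem_univ i) h)]
      simp [hc]
    rw [coef, ← integral_const_mul]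
    conv_rhs => rw [← integral_shift _ (w t)]
    congr 1; funext x
    rw [mFourier_shift]
    linear_combination (-(mFourier (-k) x) * (f (x + w t) : ℂ)) * hph
  have h2 : HasDerivAt (fun t : ℝ => Complex.exp (c * t) * coef vol f k) (c * coef vol f k) 0 := by
    simpa using ((((hasDerivAt_id (0 : ℂ)).const_mul c).cexp).comp_ofReal (z := 0)).mul_const _
  simp only [hshift] at hd
  have := hd.unique h2
  simpa [coef, hw, pt_zero] using this

lemma coef_rapid {f : T3 → ℝ} (hf : Sm f) : Rapid (coef vol f) := by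
  have key : ∀ n : ℕ, ∀ f : T3 → ℝ, Sm f → ∃ C, ∀ k, wt k ^ n * ‖coef vol f k‖ ≤ C := by
    intro n
    induction n with
    | zero =>
      intro f hf
      obtain ⟨C, -, hC⟩ := exists_bound (sm_continuous hf)
      exact ⟨C, fun k => by simpa using norm_coef_le (μ := vol) hC k⟩
    | succ n ih =>
      intro f hf
      choose g hg hgd using fun i : Fin 3 => exists_deriv hf i
      choose g2 hg2 hgd2 using fun i : Fin 3 => exists_deriv (hg i) i
      obtain ⟨C0, hC0⟩ := ih f hf
      choose C hC using fun i => ih (g2 i) (hg2 i)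
      refine ⟨C0 + ∑ i, C i, fun k => ?_⟩
      have hi : ∀ i, (k i : ℝ) ^ 2 * ‖coef vol f k‖ ≤ ‖coef vol (g2 i) k‖ := fun i => by
        rw [coef_deriv (hg i) i (hgd2 i) k, coef_deriv hf i (hgd i) k, ← mul_assoc, norm_mul]
        refine mul_le_mul_of_nonneg_right ?_ (norm_nonneg _)
        simp only [norm_mul, Complex.norm_two, Complex.norm_real, Complex.norm_I, mul_one,
          Complex.norm_intCast, Real.norm_eq_abs, abs_of_pos Real.pi_pos]
        rw [← sq_abs (k i : ℝ)]
        have : (1 : ℝ) ≤ 2 * Real.pi := by linarith [Real.pi_gt_three]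
        nlinarith [sq_nonneg |(k i : ℝ)|, mul_le_mul this this zero_le_one (by linarith)]
      calc wt k ^ (n + 1) * ‖coef vol f k‖
          = wt k ^ n * ‖coef vol f k‖ + ∑ i, wt k ^ n * ((k i : ℝ) ^ 2 * ‖coef vol f k‖) := by
            rw [← Finset.mul_sum, ← Finset.sum_mul, pow_succ]; simp only [wt]; ring
        _ ≤ _ := add_le_add (hC0 k) (Finset.sum_le_sum fun i _ =>
            (mul_le_mul_of_nonneg_left (hi i) (pow_nonneg (wt_pos k).le n)).trans (hC i k))
  intro m
  obtain ⟨C, hC⟩ := key (m + 2) f hf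
  refine Summable.of_nonneg_of_le (fun k => mul_nonneg (pow_nonneg (wt_pos k).le m) (norm_nonneg _))
    (fun k => ?_) (summable_wt_inv.mul_left C)
  rw [← div_eq_mul_inv, le_div_iff₀ (pow_pos (wt_pos k) 2)]
  exact le_trans (le_of_eq (by ring)) (hC k)


lemma sm_comp {f : T3 → F6} (hf : Sm f) (i : Fin 6) : Sm fun x => f x i :=
  contDiff_pi.1 hf i

namespace Four

lemma norm_c6_le (u : C6) : ‖u‖ ≤ ∑ i, ‖u i‖ := by
  rw [EuclideanSpace.norm_eq]
  refine Real.sqrt_le_iff.2 ⟨Finset.sum_nonneg fun i _ => norm_nonneg _, ?_⟩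
  exact Finset.sum_sq_le_sq_sum_of_nonneg fun i _ => norm_nonneg _

lemma norm_apply_le (u : C6) (i : Fin 6) : ‖u i‖ ≤ ‖u‖ := PiLp.norm_apply_le u i

lemma cf_apply (μ : Measure T3) (t : T3 → F6) (k : Idx) (i : Fin 6) :
    cf μ t k i = coef μ (fun x => t x i) k := rfl

lemma cM_apply (M : T3 → Matrix (Fin 6) (Fin 6) ℝ) (k : Idx) (u : C6) (i : Fin 6) :
    cM M k u i = ∑ j, coef vol (fun x => M x i j) k * u j := rfl

lemma norm_cM_le (M : T3 → Matrix (Fin 6) (Fin 6) ℝ) (k : Idx) :
    ‖cM M k‖ ≤ ∑ i, ∑ j, ‖coef vol (fun x => M x i j) k‖ := by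
  refine ContinuousLinearMap.opNorm_le_bound _ (by positivity) fun u => ?_
  refine (norm_c6_le _).trans ?_
  rw [Finset.sum_mul]
  refine Finset.sum_le_sum fun i _ => ?_
  rw [cM_apply, Finset.sum_mul]
  refine (norm_sum_le _ _).trans (Finset.sum_le_sum fun j _ => ?_)
  rw [norm_mul]
  exact mul_le_mul_of_nonneg_left (norm_apply_le u j) (norm_nonneg _)

lemma rapid_of_le {ι E : Type*} [Fintype ι] [Norm E] {a : Idx → E} {b : ι → Idx → ℂ}
    (hb : ∀ i, Rapid (b i)) (h0 : ∀ k, 0 ≤ ‖a k‖) (h : ∀ k, ‖a k‖ ≤ ∑ i, ‖b i k‖) : Rapid a :=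
  fun m => Summable.of_nonneg_of_le (fun k => mul_nonneg (pow_nonneg (wt_pos k).le m) (h0 k))
    (fun k => (mul_le_mul_of_nonneg_left (h k) (pow_nonneg (wt_pos k).le m)).trans
      (le_of_eq (Finset.mul_sum _ _ _)))
    (summable_sum fun i _ => hb i m)

lemma rapid_summable {E : Type*} [SeminormedAddCommGroup E] {a : Idx → E} (ha : Rapid a) :
    Summable fun k => ‖a k‖ := by
  simpa using ha 0

lemma rapid_apply {a : Idx → C6} (ha : Rapid a) (i : Fin 6) : Rapid fun k => a k i :=
  fun m => Summable.of_nonneg_of_le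
    (fun k => mul_nonneg (pow_nonneg (wt_pos k).le m) (norm_nonneg _))
    (fun k => mul_le_mul_of_nonneg_left (norm_apply_le _ _) (pow_nonneg (wt_pos k).le m)) (ha m)

lemma series_hasSum {f : T3 → ℝ} (hf : Sm f) (x : T3) :
    HasSum (fun l => coef vol f l * mFourier l x) (f x : ℂ) := by
  have := hasSum_mFourier_series_apply_of_summable
    (f := ⟨fun x => (f x : ℂ), Complex.continuous_ofReal.comp (sm_continuous hf)⟩)
    (Summable.of_norm (rapid_summable (coef_rapid hf))) x
  simpa [mFourierCoeff, coef, vol_eq] using this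

lemma abs_le_tsum_coef {f : T3 → ℝ} (hf : Sm f) (x : T3) : |f x| ≤ ∑' k, ‖coef vol f k‖ := by
  have h := series_hasSum hf x
  rw [← Real.norm_eq_abs, ← Complex.norm_real, ← h.tsum_eq]
  refine (norm_tsum_le_tsum_norm ?_).trans (le_of_eq (tsum_congr fun k => ?_))
  · simpa [norm_e] using rapid_summable (coef_rapid hf)
  · simp [norm_e]

/-- The integral of a bounded function against a smooth one. -/
lemma hasSum_integral_mul (μ : Measure T3) [IsFiniteMeasure μ] {φ : T3 → ℂ}
    (hφ : AEStronglyMeasurable φ μ) {R : ℝ} (hR : ∀ x, ‖φ x‖ ≤ R) {g : T3 → ℝ} (hg : Sm g) :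
    HasSum (fun l => coef vol g l * ∫ x, mFourier l x * φ x ∂μ) (∫ x, φ x * (g x : ℂ) ∂μ) := by
  have hint : ∀ l, Integrable (fun x => coef vol g l * (mFourier l x * φ x)) μ := fun l =>
    (integrable_e_mul l hφ hR).const_mul _
  have hs : Summable fun l => ∫ x, ‖coef vol g l * (mFourier l x * φ x)‖ ∂μ := by
    refine Summable.of_nonneg_of_le (fun l => integral_nonneg fun x => norm_nonneg _) (fun l => ?_)
      ((rapid_summable (coef_rapid hg)).mul_right (R * μ.real Set.univ))
    refine le_trans (integral_mono (g := fun _ => ‖coef vol g l‖ * R) (hint l).norm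
      (integrable_const _) fun x => ?_) (le_of_eq (by rw [integral_const, smul_eq_mul]; ring))
    simp only [norm_mul, norm_e, one_mul]
    exact mul_le_mul_of_nonneg_left (hR x) (norm_nonneg _)
  have h := hasSum_integral_of_summable_integral_norm hint hs
  simp only [integral_const_mul] at h
  rwa [show (fun x => φ x * (g x : ℂ)) = fun x => ∑' l, coef vol g l * (mFourier l x * φ x) from
    funext fun x => by
      rw [← (series_hasSum hg x).tsum_eq, ← tsum_mul_left]
      exact tsum_congr fun l => by ring]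

lemma integral_mFourier {n : Idx} (hn : n ≠ 0) : ∫ x, mFourier n x ∂vol = 0 := by
  obtain ⟨i, hi⟩ := Function.ne_iff.1 hn
  have hi' : (n i : ℂ) ≠ 0 := by exact_mod_cast hi
  set y : T3 := pt ((1 / (2 * (n i : ℝ))) • Pi.single i 1) with hy
  have he : mFourier n y = -1 := by
    rw [hy, mFourier_pt, phase_apply, Finset.sum_eq_single i
      (fun j _ hj => by simp [Pi.single_eq_of_ne hj]) (fun h => absurd (Finset.mem_univ i) h),
      show (2 * (Real.pi : ℂ) * Complex.I * (n i)) *
          (((1 / (2 * (n i : ℝ))) • Pi.single i 1 : Fin 3 → ℝ) i : ℂ)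
        = Real.pi * Complex.I by simp; field_simp, Complex.exp_pi_mul_I]
  have h := integral_shift (fun x => mFourier n x) y
  simp only [mFourier_shift, he, mul_neg, mul_one, integral_neg] at h
  linear_combination (-1 / 2 : ℂ) * h

lemma norm_phase_le (k : Idx) (v : Fin 3 → ℝ) : ‖phase k v‖ ≤ 6 * Real.pi * wt k * ‖v‖ := by
  rw [phase_apply]
  refine (norm_sum_le _ _).trans ((Finset.sum_le_sum fun i _ => ?_).trans
    (le_of_eq (show ∑ _i : Fin 3, 2 * Real.pi * wt k * ‖v‖ = _ by simp; ring)))
  simp only [norm_mul, Complex.norm_two, Complex.norm_real, Complex.norm_I, mul_one,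
    Complex.norm_intCast, Real.norm_eq_abs, abs_of_pos Real.pi_pos]
  exact mul_le_mul (mul_le_mul_of_nonneg_left (abs_coord_le_wt k i) (by positivity))
    (norm_le_pi_norm v i) (abs_nonneg _) (mul_nonneg (by positivity) (wt_pos k).le)

lemma norm_smul_phase_le (c : ℂ) (k : Idx) {w : ℂ} (hw : ‖w‖ = 1) :
    ‖(c * w) • phase k‖ ≤ 6 * Real.pi * (wt k ^ 1 * ‖c‖) := by
  have h : ‖phase k‖ ≤ 6 * Real.pi * wt k :=
    ContinuousLinearMap.opNorm_le_bound _ (mul_nonneg (by positivity) (wt_pos k).le)
      (norm_phase_le k)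
  rw [norm_smul, norm_mul, hw, mul_one, pow_one]
  exact (mul_le_mul_of_nonneg_left h (norm_nonneg c)).trans_eq (by ring)

lemma norm_exp_phase (k : Idx) (z : Fin 3 → ℝ) : ‖Complex.exp (phase k z)‖ = 1 := by
  rw [← mFourier_pt, norm_e]

lemma hasFDerivAt_series {c : Idx → ℂ} (hc : Rapid c) (y : Fin 3 → ℝ) :
    HasFDerivAt (fun y => ∑' k, c k * Complex.exp (phase k y))
      (∑' k, (c k * Complex.exp (phase k y)) • phase k) y := by
  have hd : ∀ k z, HasFDerivAt (fun z => c k * Complex.exp (phase k z))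
      ((c k * Complex.exp (phase k z)) • phase k) z := fun k z => by
    rw [mul_smul]
    exact ((phase k).hasFDerivAt (x := z)).cexp.const_mul (c k)
  refine hasFDerivAt_tsum (u := fun k => 6 * Real.pi * (wt k ^ 1 * ‖c k‖))
    ((hc 1).mul_left _) hd (fun k z => norm_smul_phase_le _ _ (norm_exp_phase k z)) (x₀ := y)
    (Summable.of_norm ?_) y
  simpa [norm_exp_phase] using rapid_summable hc

lemma contDiff_series (n : ℕ) : ∀ c : Idx → ℂ, Rapid c →
    ContDiff ℝ n fun y => ∑' k, c k * Complex.exp (phase k y) := by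
  induction n with
  | zero =>
    intro c hc
    exact contDiff_zero.2 (Differentiable.continuous (𝕜 := ℝ)
      fun y => (hasFDerivAt_series hc y).differentiableAt)
  | succ n ih =>
    intro c hc
    refine contDiff_succ_iff_fderiv.2 ⟨fun y => (hasFDerivAt_series hc y).differentiableAt,
      fun h => absurd h (WithTop.natCast_ne_top n), ?_⟩
    refine contDiff_clm_apply_iff.2 fun v => ?_
    have hr : Rapid fun k => c k * phase k v := fun m => by
      refine Summable.of_nonneg_of_le
        (fun k => mul_nonneg (pow_nonneg (wt_pos k).le m) (norm_nonneg _)) (fun k => ?_)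
        ((hc (m + 1)).mul_left (6 * Real.pi * ‖v‖))
      rw [norm_mul, pow_succ]
      refine le_trans (mul_le_mul_of_nonneg_left (mul_le_mul_of_nonneg_left (norm_phase_le k v)
        (norm_nonneg _)) (pow_nonneg (wt_pos k).le m)) (le_of_eq (by ring))
    convert ih _ hr using 1
    funext y
    rw [(hasFDerivAt_series hc y).fderiv]
    have hs : Summable fun k => (c k * Complex.exp (phase k y)) • phase k :=
      Summable.of_norm_bounded (g := fun k => 6 * Real.pi * (wt k ^ 1 * ‖c k‖))
        ((hc 1).mul_left _) fun k => norm_smul_phase_le _ _ (norm_exp_phase k y)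
    refine Eq.trans (hs.hasSum.mapL (ContinuousLinearMap.apply ℝ ℂ v)).tsum_eq.symm
      (tsum_congr fun k => ?_)
    simp only [ContinuousLinearMap.apply_apply, FunLike.coe_smul, Pi.smul_apply, smul_eq_mul]
    ring

end Four

lemma cf_rapid {f : T3 → F6} (hf : Sm f) : Rapid (cf vol f) :=
  rapid_of_le (b := fun i => coef vol fun x => f x i) (fun i => coef_rapid (sm_comp hf i))
    (fun _ => norm_nonneg _) fun _ => norm_c6_le _

lemma cM_rapid {M : T3 → Matrix (Fin 6) (Fin 6) ℝ} (hM : ∀ i j, Sm fun x => M x i j) :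
    Rapid (cM M) :=
  rapid_of_le (ι := Fin 6 × Fin 6) (b := fun p => coef vol fun x => M x p.1 p.2)
    (fun p => coef_rapid (hM p.1 p.2)) (fun _ => norm_nonneg _) fun k => by
      rw [Fintype.sum_prod_type]; exact norm_cM_le M k

lemma cf_realSeq (μ : Measure T3) (t : T3 → F6) : RealSeq (cf μ t) := fun k i =>
  coef_neg μ (fun x => t x i) k

/-- A coefficient against a finite measure is bounded. -/
lemma norm_cf_le (μ : Measure T3) [IsFiniteMeasure μ] (t : T3 → F6) (ht : Measurable t) {R : ℝ}
    (hR : ∀ x, ‖t x‖ ≤ R) : ∃ C, ∀ k, ‖cf μ t k‖ ≤ C :=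
  ⟨∑ _i : Fin 6, R * μ.real Set.univ, fun k => (norm_c6_le _).trans
    (Finset.sum_le_sum fun i _ => norm_coef_le
      (fun x => (Real.norm_eq_abs _).symm.le.trans ((norm_le_pi_norm (t x) i).trans (hR x))) k)⟩

/-- A real rapidly decreasing sequence is the sequence of a smooth function. -/
lemma exists_cf_eq {a : Idx → C6} (ha : Rapid a) (hr : RealSeq a) :
    ∃ f : T3 → F6, Sm f ∧ cf vol f = a := by
  set F : Fin 6 → T3 → ℂ := fun i x => ∑' k, a k i * mFourier k x with hF
  have hsum : ∀ i x, Summable fun k => a k i * mFourier k x := fun i x =>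
    Summable.of_norm (by simpa [norm_e] using rapid_summable (rapid_apply ha i))
  have hreal : ∀ i x, ((F i x).re : ℂ) = F i x := fun i x => by
    refine Complex.conj_eq_iff_re.1 ?_
    simp only [hF]
    rw [Complex.conj_tsum, ← (Equiv.neg Idx).tsum_eq]
    refine tsum_congr fun k => ?_
    simp [hr k i, mFourier_neg]
  refine ⟨fun x i => (F i x).re, ?_, ?_⟩
  · refine contDiff_pi.2 fun i => Complex.reCLM.contDiff.comp (?_ : ContDiff ℝ ∞ fun y => F i (pt y))
    rw [contDiff_infty]
    intro n
    simpa [hF, mFourier_pt] using contDiff_series n _ (rapid_apply ha i)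
  · funext k; ext i
    rw [cf_apply, coef]
    simp only [hreal]
    have hint : ∀ l, Integrable (fun x => mFourier (-k) x * (a l i * mFourier l x)) vol := fun l =>
      integrable_e_mul _ (continuous_const.mul (mFourier l).continuous).aestronglyMeasurable
        (R := ‖a l i‖) fun x => by simp [norm_e]
    have hs : Summable fun l => ∫ x, ‖mFourier (-k) x * (a l i * mFourier l x)‖ ∂vol := by
      simpa [norm_e] using rapid_summable (rapid_apply ha i)
    simp only [hF, ← tsum_mul_left]
    rw [← integral_tsum_of_summable_integral_norm hint hs, tsum_eq_single k]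
    · rw [show (fun x => mFourier (-k) x * (a k i * mFourier k x)) = fun x => a k i from by
        funext x
        rw [mul_left_comm, ← mFourier_add, neg_add_cancel, mFourier_zero]; simp]
      simp
    · intro l hl
      rw [show (fun x => mFourier (-k) x * (a l i * mFourier l x))
          = fun x => a l i * mFourier (-k + l) x from by funext x; rw [mFourier_add]; ring,
        integral_const_mul, integral_mFourier (by simpa [neg_add_eq_zero] using fun h => hl h.symm),
        mul_zero]

lemma norm_le_tsum_cf {f : T3 → F6} (hf : Sm f) (x : T3) : ‖f x‖ ≤ ∑' k, ‖cf vol f k‖ := by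
  refine (pi_norm_le_iff_of_nonneg (tsum_nonneg fun _ => norm_nonneg _)).2 fun i => ?_
  rw [Real.norm_eq_abs]
  exact (abs_le_tsum_coef (sm_comp hf i) x).trans (Summable.tsum_le_tsum
    (fun k => norm_apply_le (cf vol f k) i) (rapid_summable (coef_rapid (sm_comp hf i)))
    (rapid_summable (cf_rapid hf)))

lemma cf_injective {f g : T3 → F6} (hf : Sm f) (hg : Sm g) (h : cf vol f = cf vol g) : f = g := by
  funext x i
  have h1 := series_hasSum (sm_comp hf i) x
  have h2 := series_hasSum (sm_comp hg i) x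
  simp only [← cf_apply, h] at h1
  simp only [← cf_apply] at h2
  exact_mod_cast h1.unique h2

namespace Four

lemma qC_linear_left (s : ℝ) (b : C6) :
    Continuous (fun a : C6 => qC s a b) ∧ ∀ a a', qC s (a + a') b = qC s a b + qC s a' b := by
  refine ⟨by unfold qC; fun_prop, fun a a' => ?_⟩
  simp [qC, add_mul, Finset.sum_add_distrib, mul_add]

lemma qC_linear_right (s : ℝ) (a : C6) :
    Continuous (fun b : C6 => qC s a b) ∧ ∀ b b', qC s a (b + b') = qC s a b + qC s a b' := by
  refine ⟨by unfold qC; fun_prop, fun b b' => ?_⟩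
  simp [qC, mul_add, Finset.sum_add_distrib]

lemma norm_qC_le (s : ℝ) (a b : C6) : ‖qC s a b‖ ≤ |s| * 6 * (‖a‖ * ‖b‖) := by
  rw [qC, norm_mul, Complex.norm_real, Real.norm_eq_abs, mul_assoc]
  refine mul_le_mul_of_nonneg_left ((norm_sum_le _ _).trans ((Finset.sum_le_sum fun i _ => ?_).trans
    (le_of_eq (show ∑ _i : Fin 6, ‖a‖ * ‖b‖ = 6 * (‖a‖ * ‖b‖) by simp)))) (abs_nonneg s)
  rw [norm_mul, RCLike.norm_conj]
  exact mul_le_mul (norm_apply_le a i) (norm_apply_le b _) (norm_nonneg _) (norm_nonneg _)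

lemma polyB_of_bounded {u : Idx → C6} {A : ℝ} (h : ∀ l, ‖u l‖ ≤ A) : PolyB u :=
  ⟨A, 0, fun l => by simpa using h l⟩

lemma polyB_of_rapid {u : Idx → C6} (h : Rapid u) : PolyB u :=
  polyB_of_bounded fun l => (rapid_summable h).le_tsum l fun _ _ => norm_nonneg _

lemma polyB_of_l2 {u : Idx → C6} (h : Summable fun k => ‖u k‖ ^ 2) : PolyB u :=
  polyB_of_bounded (A := 1 + ∑' k, ‖u k‖ ^ 2) fun l => by
    nlinarith [sq_nonneg (‖u l‖ - 1), norm_nonneg (u l), h.le_tsum l fun _ _ => sq_nonneg _]

lemma conv_hasSum {M : Idx → C6 →L[ℂ] C6} {u : Idx → C6} (k : Idx)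
    (h : Summable fun l => M (k - l) (u l)) (i : Fin 6) :
    HasSum (fun l => M (k - l) (u l) i) (conv M u k i) :=
  h.hasSum.mapL (EuclideanSpace.proj (𝕜 := ℂ) i)

lemma coef_mul {f g : T3 → ℝ} (hf : Continuous f) (hg : Sm g) (k : Idx) :
    HasSum (fun l => coef vol f (k - l) * coef vol g l) (coef vol (fun x => f x * g x) k) := by
  obtain ⟨C, -, hC⟩ := exists_bound hf
  have hm : Continuous fun x : T3 => mFourier (-k) x * (f x : ℂ) :=
    (mFourier (-k)).continuous.mul (Complex.continuous_ofReal.comp hf)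
  have hb : ∀ x, ‖mFourier (-k) x * (f x : ℂ)‖ ≤ C := fun x => by
    rw [norm_mul, norm_e, one_mul, Complex.norm_real]; exact hC x
  have h := hasSum_integral_mul vol (φ := fun x => mFourier (-k) x * (f x : ℂ))
    hm.aestronglyMeasurable hb hg
  have hv : coef vol (fun x => f x * g x) k
      = ∫ x, mFourier (-k) x * (f x : ℂ) * (g x : ℂ) ∂vol :=
    integral_congr_ae (.of_forall fun x => by
      simp only [Complex.ofReal_mul, mul_assoc])
  have hl : ∀ l, ∫ x, mFourier l x * (mFourier (-k) x * (f x : ℂ)) ∂vol = coef vol f (k - l) :=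
    fun l => integral_congr_ae (.of_forall fun x => by
      simp only [show -(k - l) = -k + l by abel, mFourier_add]; ring)
  simp only [hl] at h
  rw [hv]
  exact h.congr_fun fun l => mul_comm _ _

lemma integrable_mul_sm {μ : Measure T3} [IsFiniteMeasure μ] {f g : T3 → ℝ} (hf : Measurable f)
    {R : ℝ} (hR : ∀ x, |f x| ≤ R) (hg : Continuous g) : Integrable (fun x => f x * g x) μ := by
  obtain ⟨C, -, hC⟩ := exists_bound hg
  refine Integrable.mono' (integrable_const (R * C))
    (hf.aestronglyMeasurable.mul hg.aestronglyMeasurable) (.of_forall fun x => ?_)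
  rw [norm_mul, Real.norm_eq_abs]
  exact mul_le_mul (hR x) (hC x) (norm_nonneg _) ((abs_nonneg _).trans (hR x))

end Four

lemma cf_mul {M : T3 → Matrix (Fin 6) (Fin 6) ℝ} (hM : ∀ i j, Sm fun x => M x i j) {f : T3 → F6}
    (hf : Sm f) : cf vol (fun x => M x *ᵥ f x) = conv (cM M) (cf vol f) := by
  funext k; ext i
  have hc := conv_hasSum k
    (conv_term_summable (cM_rapid hM) (polyB_of_rapid (cf_rapid hf)) k) i
  refine HasSum.unique ?_ hc
  have hs := hasSum_sum (s := Finset.univ) fun j (_ : j ∈ Finset.univ) =>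
    coef_mul (sm_continuous (hM i j)) (sm_comp hf j) k
  have hv : cf vol (fun x => M x *ᵥ f x) k i = ∑ j, coef vol (fun x => M x i j * f x j) k := by
    rw [cf_apply]
    simp only [coef]
    rw [← integral_finsetSum]
    · congr 1; funext x
      simp [Matrix.mulVec, dotProduct, Finset.mul_sum]
    · intro j _
      obtain ⟨C, -, hC⟩ := exists_bound ((sm_continuous (hM i j)).mul (sm_continuous (sm_comp hf j)))
      exact integrable_e_mul _ (Complex.continuous_ofReal.comp
        ((sm_continuous (hM i j)).mul (sm_continuous (sm_comp hf j)))).aestronglyMeasurable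
        (R := C) fun x => by simpa using hC x
  rw [hv]
  exact hs.congr_fun fun l => cM_apply M (k - l) (cf vol f l) i

/-- The pairing of a measure with a smooth form. -/
lemma hasSum_pairing (s : ℝ) (μ : Measure T3) [IsFiniteMeasure μ] {t : T3 → F6}
    (ht : Measurable t) {R : ℝ} (hR : ∀ x, ‖t x‖ ≤ R) {g : T3 → F6} (hg : Sm g) :
    HasSum (fun k => qC s (cf μ t k) (cf vol g k)) ((∫ x, qR s (t x) (g x) ∂μ : ℝ) : ℂ) := by
  have hti : ∀ i x, |t x i| ≤ R := fun i x =>
    (Real.norm_eq_abs _).symm.le.trans ((norm_le_pi_norm (t x) i).trans (hR x))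
  have hm : ∀ i, Measurable fun x => t x i := fun i => (measurable_pi_apply i).comp ht
  have h : ∀ i : Fin 6, HasSum (fun k => cf μ t k i * conj (cf vol g k (i + 3)))
      ((∫ x, t x i * g x (i + 3) ∂μ : ℝ) : ℂ) := fun i => by
    have h0 := hasSum_integral_mul μ (φ := fun x => (t x i : ℂ))
      (Complex.measurable_ofReal.comp (hm i)).aestronglyMeasurable (R := R)
      (fun x => by simpa using hti i x) (sm_comp hg (i + 3))
    rw [← integral_complex_ofReal]
    simp only [Complex.ofReal_mul]
    refine ((Equiv.neg Idx).hasSum_iff.2 h0).congr_fun fun k => ?_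
    simp only [Function.comp_apply, Equiv.neg_apply, cf_apply, coef_neg]
    rw [mul_comm]
    rfl
  have hint : ∫ x, qR s (t x) (g x) ∂μ = s * ∑ i, ∫ x, t x i * g x (i + 3) ∂μ := by
    simp only [qR]
    rw [integral_const_mul, integral_finsetSum _ fun i _ =>
      integrable_mul_sm (hm i) (hti i) (sm_continuous (sm_comp hg (i + 3)))]
  rw [hint, Complex.ofReal_mul, Complex.ofReal_sum]
  exact (hasSum_sum fun i _ => h i).mul_left (s : ℂ)

namespace Four

/-- The function with the given square-summable coefficients. -/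
noncomputable def synth (a : Idx → ℂ) (ha : Summable fun k => ‖a k‖ ^ 2) :
    Lp ℂ 2 (volume : Measure T3) :=
  mFourierBasis.repr.symm ⟨a, memℓp_gen (by simpa using ha)⟩

lemma coef_synth (a : Idx → ℂ) (ha : Summable fun k => ‖a k‖ ^ 2) (k : Idx) :
    mFourierCoeff (synth a ha) k = a k := by
  rw [← mFourierBasis_repr]
  simp [synth]

lemma summable_apply_sq {a : Idx → C6} (ha : Summable fun k => ‖a k‖ ^ 2) (i : Fin 6) :
    Summable fun k => ‖a k i‖ ^ 2 :=
  Summable.of_nonneg_of_le (fun _ => sq_nonneg _)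
    (fun _ => pow_le_pow_left₀ (norm_nonneg _) (norm_apply_le _ _) 2) ha

lemma parseval {a : Idx → ℂ} (ha : Summable fun k => ‖a k‖ ^ 2) {h : T3 → ℂ} (hh : Continuous h) :
    HasSum (fun k => conj (mFourierCoeff h k) * a k) (∫ x, conj (h x) * synth a ha x ∂vol) := by
  set H : C(T3, ℂ) := ⟨h, hh⟩
  have := hasSum_prod_mFourierCoeff (H.toLp 2 volume ℂ) (synth a ha)
  simp only [mFourierCoeff_toLp, coef_synth] at this
  rw [show (∫ x, conj (h x) * synth a ha x ∂vol)
      = ∫ x, conj ((H.toLp 2 volume ℂ) x) * synth a ha x ∂vol from ?_]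
  · exact this
  refine integral_congr_ae ?_
  filter_upwards [ContinuousMap.coeFn_toLp (E := ℂ) (p := 2) (𝕜 := ℂ) (volume : Measure T3) H] with x hx
  rw [hx]; rfl

end Four

/-- A square-summable real sequence is the sequence of a square-integrable function. -/
lemma exists_memLp {a : Idx → C6} (ha : Summable fun k => ‖a k‖ ^ 2) (hr : RealSeq a) :
    ∃ σ : T3 → F6, MemLp σ 2 vol ∧ ∀ (s : ℝ) (g : T3 → F6), Sm g →
      HasSum (fun k => qC s (a k) (cf vol g k)) ((∫ x, qR s (σ x) (g x) ∂vol : ℝ) : ℂ) := by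
  set F : Fin 6 → T3 → ℂ := fun i => synth (fun k => a k i) (summable_apply_sq ha i) with hF
  have hFm : ∀ i, MemLp (F i) 2 vol := fun i => Lp.memLp _
  refine ⟨fun x i => (F i x).re, memLp_pi_iff.2 fun i => (hFm i).re, fun s g hg => ?_⟩
  have hgc : ∀ i, Continuous fun x => g x i := fun i => sm_continuous (sm_comp hg i)
  have hint : ∀ i j, Integrable (fun x => (g x j : ℂ) * F i x) vol := fun i j => by
    obtain ⟨C, -, hC⟩ := exists_bound (hgc j)
    exact ((hFm i).integrable (by norm_num)).bdd_mul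
      (Complex.continuous_ofReal.comp (hgc j)).aestronglyMeasurable (c := C)
      (.of_forall fun x => by simpa using hC x)
  have h : ∀ i : Fin 6, HasSum (fun k => a k i * conj (cf vol g k (i + 3)))
      ((∫ x, (F i x).re * g x (i + 3) ∂vol : ℝ) : ℂ) := fun i => by
    have h0 := parseval (summable_apply_sq ha i) (h := fun x => (g x (i + 3) : ℂ))
      (Complex.continuous_ofReal.comp (hgc _))
    simp only [Complex.conj_ofReal] at h0
    change HasSum _ (∫ x, (g x (i + 3) : ℂ) * F i x ∂vol) at h0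
    set S := ∫ x, (g x (i + 3) : ℂ) * F i x ∂vol
    have h1 : HasSum (fun k => a k i * conj (cf vol g k (i + 3))) S :=
      h0.congr_fun fun k => mul_comm _ _
    have h2 : HasSum (fun k => a k i * conj (cf vol g k (i + 3))) (conj S) := by
      refine ((Equiv.neg Idx).hasSum_iff.1 ?_)
      refine (h1.map (starRingEnd ℂ) Complex.continuous_conj).congr_fun fun k => ?_
      simp [hr k i, cf_apply, coef_neg]
    have h3 : S = ((∫ x, (F i x).re * g x (i + 3) ∂vol : ℝ) : ℂ) := by
      rw [← Complex.conj_eq_iff_re.1 (h1.unique h2).symm]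
      congr 1
      rw [← RCLike.re_to_complex, ← integral_re (hint i (i + 3))]
      congr 1; funext x
      simp [mul_comm]
    rwa [← h3]
  have hint' : ∫ x, qR s (fun i => (F i x).re) (g x) ∂vol
      = s * ∑ i, ∫ x, (F i x).re * g x (i + 3) ∂vol := by
    simp only [qR]
    rw [integral_const_mul, integral_finsetSum _ fun i _ => ?_]
    exact ((hint i (i + 3)).re).congr (.of_forall fun x => by simp [mul_comm])
  rw [hint', Complex.ofReal_mul, Complex.ofReal_sum]
  exact (hasSum_sum fun i _ => h i).mul_left (s : ℂ)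

namespace Four

lemma cM_adj (D : Data) (m : Idx) (a b : C6) :
    qC D.s (cM D.pr m a) b = qC D.s a (cM D.pr (-m) b) := by
  have hs : D.s ≠ 0 := by rcases D.hs with h | h <;> simp [h]
  have hsym : ∀ x i j, D.pr x i j = D.pr x (j + 3) (i + 3) := fun x i j => by
    have h := D.selfAdj x (Pi.single j 1) (Pi.single (i + 3) 1)
    simp only [qR, Matrix.mulVec_single_one, Matrix.col_apply] at h
    have h' := mul_left_cancel₀ hs h
    have e6 : (3 : Fin 6) + 3 = 0 := rfl
    rw [Finset.sum_eq_single i, Finset.sum_eq_single j] at h'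
    · simpa using h'
    · intro l _ hl; simp [Pi.single_eq_of_ne hl]
    · exact fun h => absurd (Finset.mem_univ j) h
    · intro l _ hl; simp [Pi.single_eq_of_ne (fun e => hl (add_right_cancel e))]
    · exact fun h => absurd (Finset.mem_univ i) h
  have hc : ∀ i j, coef vol (fun x => D.pr x i j) m
      = conj (coef vol (fun x => D.pr x (j + 3) (i + 3)) (-m)) := fun i j => by
    rw [coef_neg, Complex.conj_conj]
    simp only [← hsym]
  unfold qC
  congr 1
  simp only [cM_apply, map_sum, map_mul, Finset.sum_mul, Finset.mul_sum]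
  refine Finset.sum_comm.trans (Finset.sum_congr rfl fun j _ => ?_)
  refine Fintype.sum_equiv (Equiv.addRight 3) _ _ fun i => ?_
  simp only [Equiv.coe_addRight, ← hc]
  ring

lemma summable_sub_fst {f g : Idx → ℝ} (hf : Summable f) (hg : Summable g) (hf0 : 0 ≤ f)
    (hg0 : 0 ≤ g) :
    (Summable fun p : Idx × Idx => f (p.1 - p.2) * g p.1) ∧
      Summable fun p : Idx × Idx => f (p.1 - p.2) * g p.2 := by
  constructor
  · exact (hf.mul_of_nonneg hg hf0 hg0).comp_injective (i := fun p : Idx × Idx => (p.1 - p.2, p.1))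
      fun p q h => by
        simp only [Prod.mk.injEq] at h
        exact Prod.ext h.2 (by simpa [h.2] using h.1)
  · exact (hf.mul_of_nonneg hg hf0 hg0).comp_injective (i := fun p : Idx × Idx => (p.1 - p.2, p.2))
      fun p q h => by
        simp only [Prod.mk.injEq] at h
        exact Prod.ext (by simpa [h.2] using h.1) h.2

lemma selfAdj_of_summable (D : Data) {u v : Idx → C6} (hu : PolyB u) (hv : PolyB v)
    (h : Summable fun p : Idx × Idx => ‖cM D.pr (p.1 - p.2)‖ * ‖u p.2‖ * ‖v p.1‖) :
    ∑' k, qC D.s (conv (cM D.pr) u k) (v k) = ∑' k, qC D.s (u k) (conv (cM D.pr) v k) := by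
  have hM := cM_rapid D.sm_pr
  have hl : ∀ k, qC D.s (conv (cM D.pr) u k) (v k)
      = ∑' l, qC D.s (cM D.pr (k - l) (u l)) (v k) := fun k => by
    obtain ⟨hc, ha⟩ := qC_linear_left D.s (v k)
    exact ((conv_term_summable hM hu k).hasSum.map (AddMonoidHom.mk' _ ha) hc).tsum_eq.symm
  have hr : ∀ l, qC D.s (u l) (conv (cM D.pr) v l)
      = ∑' k, qC D.s (u l) (cM D.pr (l - k) (v k)) := fun l => by
    obtain ⟨hc, ha⟩ := qC_linear_right D.s (u l)
    exact ((conv_term_summable hM hv l).hasSum.map (AddMonoidHom.mk' _ ha) hc).tsum_eq.symm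
  have hsum : Summable (Function.uncurry fun k l => qC D.s (cM D.pr (k - l) (u l)) (v k)) :=
    Summable.of_norm_bounded (h.mul_left (|D.s| * 6)) fun p => (norm_qC_le _ _ _).trans
      (mul_le_mul_of_nonneg_left (mul_le_mul_of_nonneg_right
        ((cM D.pr (p.1 - p.2)).le_opNorm _) (norm_nonneg _)) (by positivity))
  simp only [hl, hr]
  rw [← hsum.tsum_comm]
  refine tsum_congr fun l => tsum_congr fun k => ?_
  rw [cM_adj, neg_sub]

lemma basis_sum (a : C6) : a = ∑ j, a j • EuclideanSpace.single j (1 : ℂ) := by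
  ext i; simp [Pi.single_apply]

lemma cM_assoc (D : Data) (n : Idx) (a : C6) :
    HasSum (fun l => cM D.pr (n - l) (cM D.pr l a)) (cM D.pr n a) := by
  have hcol : ∀ j, HasSum (fun l => cM D.pr (n - l) (cM D.pr l (EuclideanSpace.single j 1)))
      (cM D.pr n (EuclideanSpace.single j 1)) := fun j => by
    set f : T3 → F6 := fun x i => D.pr x i j with hf
    have hsm : Sm f := contDiff_pi.2 fun i => D.sm_pr i j
    have hcf : ∀ l, cf vol f l = cM D.pr l (EuclideanSpace.single j 1) := fun l => by
      ext i; simp [cf_apply, cM_apply, hf]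
    have hfix : (fun x => D.pr x *ᵥ f x) = f := by
      funext x i
      have := congr_fun (congr_fun (D.idem x) i) j
      simpa [Matrix.mul_apply, Matrix.mulVec, dotProduct, hf] using this
    have h := congr_fun (cf_mul D.sm_pr hsm) n
    rw [hfix] at h
    simp only [← hcf]
    rw [h]
    exact (conv_term_summable (cM_rapid D.sm_pr) (polyB_of_rapid (cf_rapid hsm)) n).hasSum
  rw [basis_sum a]
  simp only [map_sum, map_smul]
  exact hasSum_sum fun j _ => (hcol j).const_smul (a j)

end Four

lemma conv_idem (D : Data) {u : Idx → C6} (hu : PolyB u) :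
    conv (cM D.pr) (conv (cM D.pr) u) = conv (cM D.pr) u := by
  have hM := cM_rapid D.sm_pr
  set M := cM D.pr
  funext k
  obtain ⟨A, n, hA⟩ := hu
  have hA0 : 0 ≤ A :=
    nonneg_of_mul_nonneg_left ((norm_nonneg _).trans (hA 0)) (pow_pos (wt_pos 0) n)
  have hw : Summable fun l => wt l ^ n * ‖M l‖ := hM n
  have h0 : 0 ≤ fun l => wt l ^ n * ‖M l‖ := fun l =>
    mul_nonneg (pow_nonneg (wt_pos l).le n) (norm_nonneg _)
  have hsum : Summable (Function.uncurry fun l m => M (k - l) (M (l - m) (u m))) := by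
    refine Summable.of_norm_bounded (g := fun p : Idx × Idx => A * (4 * wt k) ^ n *
      ((wt (k - p.1) ^ n * ‖M (k - p.1)‖) * (wt (p.1 - p.2) ^ n * ‖M (p.1 - p.2)‖)))
      (((hw.mul_of_nonneg hw h0 h0).comp_injective
        (i := fun p : Idx × Idx => (k - p.1, p.1 - p.2)) fun p q h => by
          simp only [Prod.mk.injEq, sub_right_inj] at h
          exact Prod.ext h.1 (by simpa [h.1] using h.2)).mul_left _) ?_
    rintro ⟨l, m⟩
    refine ((M (k - l)).le_opNorm _).trans ((mul_le_mul_of_nonneg_left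
      ((M (l - m)).le_opNorm _) (norm_nonneg _)).trans ?_)
    have h1 : wt m ≤ 4 * wt k * wt (k - l) * wt (l - m) := by
      have a := wt_peetre m k
      have b := wt_peetre (k - m) (l - m)
      rw [sub_sub_sub_cancel_right] at b
      rw [← neg_sub k m, wt_neg] at a
      calc wt m ≤ 2 * wt (k - m) * wt k := a
        _ ≤ 2 * (2 * wt (k - l) * wt (l - m)) * wt k :=
          mul_le_mul_of_nonneg_right (mul_le_mul_of_nonneg_left b two_pos.le) (wt_pos k).le
        _ = _ := by ring
    have h2 : ‖u m‖ ≤ A * (4 * wt k * wt (k - l) * wt (l - m)) ^ n :=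
      (hA m).trans (mul_le_mul_of_nonneg_left (pow_le_pow_left₀ (wt_pos m).le h1 n) hA0)
    refine (mul_le_mul_of_nonneg_left (mul_le_mul_of_nonneg_left h2 (norm_nonneg _))
      (norm_nonneg _)).trans_eq ?_
    rw [mul_pow, mul_pow]; ring
  have e1 : ∀ l, M (k - l) (conv M u l) = ∑' m, M (k - l) (M (l - m) (u m)) := fun l =>
    ((conv_term_summable hM ⟨A, n, hA⟩ l).hasSum.mapL (M (k - l))).tsum_eq.symm
  have e2 : ∀ m, ∑' l, M (k - l) (M (l - m) (u m)) = M (k - m) (u m) := fun m => by
    refine HasSum.tsum_eq ?_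
    rw [← (Equiv.addRight m).hasSum_iff]
    refine (cM_assoc D (k - m) (u m)).congr_fun fun l => ?_
    simp [M, sub_sub, add_comm]
  change ∑' l, M (k - l) (conv M u l) = ∑' m, M (k - m) (u m)
  simp only [e1]
  rw [← hsum.tsum_comm]
  exact tsum_congr e2

lemma conv_selfAdj (D : Data) {u v : Idx → C6} (hu : PolyB u) (hv : Rapid v) :
    ∑' k, qC D.s (conv (cM D.pr) u k) (v k) = ∑' k, qC D.s (u k) (conv (cM D.pr) v k) := by
  refine selfAdj_of_summable D hu (polyB_of_rapid hv) ?_
  obtain ⟨A, n, hA⟩ := hu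
  have hA0 : 0 ≤ A :=
    nonneg_of_mul_nonneg_left ((norm_nonneg _).trans (hA 0)) (pow_pos (wt_pos 0) n)
  refine Summable.of_nonneg_of_le (fun p => by positivity) ?_
    ((summable_sub_fst (cM_rapid D.sm_pr n) (hv n)
      (fun l => mul_nonneg (pow_nonneg (wt_pos l).le n) (norm_nonneg _))
      (fun l => mul_nonneg (pow_nonneg (wt_pos l).le n) (norm_nonneg _))).1.mul_left (A * 2 ^ n))
  rintro ⟨k, l⟩
  have h1 : wt l ≤ 2 * wt (k - l) * wt k := by
    have := wt_peetre l k
    rwa [← neg_sub k l, wt_neg] at this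
  refine (mul_le_mul_of_nonneg_right (mul_le_mul_of_nonneg_left ((hA l).trans
    (mul_le_mul_of_nonneg_left (pow_le_pow_left₀ (wt_pos l).le h1 n) hA0)) (norm_nonneg _))
    (norm_nonneg _)).trans_eq ?_
  rw [mul_pow, mul_pow]; ring

lemma conv_selfAdj_l2 (D : Data) {u v : Idx → C6} (hu : Summable fun k => ‖u k‖ ^ 2)
    (hv : Summable fun k => ‖v k‖ ^ 2) :
    ∑' k, qC D.s (conv (cM D.pr) u k) (v k) = ∑' k, qC D.s (u k) (conv (cM D.pr) v k) := by
  refine selfAdj_of_summable D (polyB_of_l2 hu) (polyB_of_l2 hv) ?_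
  have hM := rapid_summable (cM_rapid D.sm_pr)
  refine Summable.of_nonneg_of_le (fun p => by positivity) ?_
    ((summable_sub_fst hM hv (fun _ => norm_nonneg _) fun _ => sq_nonneg _).1.add
      (summable_sub_fst hM hu (fun _ => norm_nonneg _) fun _ => sq_nonneg _).2)
  rintro ⟨k, l⟩
  rw [← mul_add, mul_assoc]
  refine mul_le_mul_of_nonneg_left ?_ (norm_nonneg _)
  nlinarith [sq_nonneg (‖u l‖ - ‖v k‖), norm_nonneg (u l), norm_nonneg (v k)]

/-- Positivity on the range of the projection, in coefficients. -/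
lemma conv_pos (D : Data) : ∃ c > 0, ∀ u : Idx → C6, Summable (fun k => ‖u k‖ ^ 2) →
    c * ∑' k, ‖conv (cM D.pr) u k‖ ^ 2 ≤
      (∑' k, qC D.s (conv (cM D.pr) u k) (conv (cM D.pr) u k)).re := by
  obtain ⟨c, hc, hpos⟩ := D.pos
  refine ⟨c / 6, by positivity, fun u hu => ?_⟩
  set F : Fin 6 → T3 → ℂ := fun j => synth (fun k => u k j) (summable_apply_sq hu j) with hF
  have hFm : ∀ j, MemLp (F j) 2 vol := fun j => Lp.memLp _
  have hcM : ∀ i j, Continuous fun x => (D.pr x i j : ℂ) := fun i j =>
    Complex.continuous_ofReal.comp (sm_continuous (D.sm_pr i j))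
  have hterm : ∀ i j, MemLp (fun x => (D.pr x i j : ℂ) * F j x) 2 vol := fun i j => by
    obtain ⟨C, -, hC⟩ := exists_bound (hcM i j)
    refine (hFm j).of_le_mul (c := C) ((hcM i j).aestronglyMeasurable.mul (hFm j).1)
      (.of_forall fun x => ?_)
    rw [norm_mul]
    exact mul_le_mul_of_nonneg_right (hC x) (norm_nonneg _)
  set G : Fin 6 → T3 → ℂ := fun i x => ∑ j, (D.pr x i j : ℂ) * F j x with hG
  have hGm : ∀ i, MemLp (G i) 2 vol := fun i => memLp_finsetSum _ fun j _ => hterm i j
  set L : Fin 6 → Lp ℂ 2 (volume : Measure T3) := fun i => (hGm i).toLp (G i) with hL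
  set w := conv (cM D.pr) u with hw
  have hcoef : ∀ i k, mFourierCoeff (L i) k = w k i := fun i k => by
    have h1 : mFourierCoeff (L i) k = ∫ x, mFourier (-k) x * G i x ∂vol := by
      refine integral_congr_ae ?_
      filter_upwards [(hGm i).coeFn_toLp] with x hx
      rw [smul_eq_mul]; congr 1
    have h2 : ∀ j, HasSum (fun l => coef vol (fun x => D.pr x i j) (k - l) * u l j)
        (∫ x, mFourier (-k) x * ((D.pr x i j : ℂ) * F j x) ∂vol) := fun j => by
      have := parseval (summable_apply_sq hu j)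
        (h := fun x => mFourier k x * (D.pr x i j : ℂ)) ((mFourier k).continuous.mul (hcM i j))
      convert this using 2 with l
      · congr 1
        rw [mFourierCoeff, ← integral_conj, coef, vol_eq]
        congr 1; funext x
        rw [smul_eq_mul, map_mul, map_mul, Complex.conj_ofReal, ← mFourier_neg, ← mFourier_neg,
          ← mul_assoc, ← mFourier_add, neg_neg, show l + -k = -(k - l) by abel]
      · funext x
        rw [map_mul, Complex.conj_ofReal, mFourier_neg, mul_assoc]
    have h3 := hasSum_sum (s := Finset.univ) fun j (_ : j ∈ Finset.univ) => h2 j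
    rw [h1]
    refine Eq.trans ?_ (h3.congr_fun fun l => cM_apply D.pr (k - l) (u l) i).tsum_eq.symm |>.trans
      (conv_hasSum k (conv_term_summable (cM_rapid D.sm_pr) (polyB_of_l2 hu) k) i).tsum_eq
    simp only [hG, Finset.mul_sum]
    refine integral_finsetSum _ fun j _ => ?_
    exact ((hterm i j).integrable (by norm_num)).bdd_mul (mFourier (-k)).continuous.aestronglyMeasurable
      (c := 1) (.of_forall fun x => (norm_e _ _).le)
  have hq : HasSum (fun k => qC D.s (w k) (w k))
      ((D.s : ℂ) * ∑ i : Fin 6, ∫ x, conj (L (i + 3) x) * L i x ∂vol) := by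
    refine (hasSum_sum fun i _ => ?_).mul_left (D.s : ℂ)
    have := hasSum_prod_mFourierCoeff (L (i + 3)) (L i)
    simp only [hcoef] at this
    exact this.congr_fun fun k => mul_comm _ _
  have hn : HasSum (fun k => ‖w k‖ ^ 2) (∑ i : Fin 6, ∫ x, ‖L i x‖ ^ 2 ∂vol) := by
    simp only [EuclideanSpace.norm_sq_eq]
    refine hasSum_sum fun i _ => ?_
    have h := hasSum_sq_mFourierCoeff (L i)
    simp only [hcoef] at h
    exact h
  rw [hn.tsum_eq, hq.tsum_eq, Complex.re_ofReal_mul, Complex.re_sum]
  have hint : ∀ i j, Integrable (fun x => conj (L j x) * L i x) vol := fun i j => by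
    have h := L2.integrable_inner (𝕜 := ℂ) (L j) (L i)
    simp only [RCLike.inner_apply] at h
    exact h.congr (.of_forall fun x => mul_comm _ _)
  have hsq : ∀ i, Integrable (fun x => ‖L i x‖ ^ 2) vol := fun i =>
    (memLp_two_iff_integrable_sq_norm (Lp.aestronglyMeasurable _)).1 (Lp.memLp (L i))
  have hre : ∀ i : Fin 6, (∫ x, conj (L (i + 3) x) * L i x ∂vol).re
      = ∫ x, (conj (L (i + 3) x) * L i x).re ∂vol := fun i =>
    (integral_re (hint i (i + 3))).symm
  have hint' : ∀ i : Fin 6, Integrable (fun x => (conj (L (i + 3) x) * L i x).re) vol := fun i =>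
    (hint i (i + 3)).re
  simp only [hre]
  rw [← integral_finsetSum _ fun i _ => hsq i, ← integral_finsetSum _ fun i _ => hint' i,
    ← integral_const_mul, ← integral_const_mul]
  refine integral_mono_ae ((integrable_finsetSum _ fun i _ => hsq i).const_mul _)
    ((integrable_finsetSum _ fun i _ => hint' i).const_mul _) ?_
  filter_upwards [ae_all_iff.2 fun i => (hGm i).coeFn_toLp] with x hx
  have hx' : ∀ i, (L i : T3 → ℂ) x = G i x := hx
  simp only [hx']
  set a : F6 := fun j => (F j x).re
  set b : F6 := fun j => (F j x).im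
  have hGre : ∀ i, (G i x).re = (D.pr x *ᵥ a) i ∧ (G i x).im = (D.pr x *ᵥ b) i := fun i => by
    simp [hG, a, b, Matrix.mulVec, dotProduct]
  have key : ∀ v : F6, c / 6 * ∑ i, v i ^ 2 ≤ c * ‖v‖ ^ 2 := fun v => by
    have h : ∑ i, v i ^ 2 ≤ ∑ _i : Fin 6, ‖v‖ ^ 2 := Finset.sum_le_sum fun i _ => by
      rw [← sq_abs, ← Real.norm_eq_abs]
      exact pow_le_pow_left₀ (norm_nonneg _) (norm_le_pi_norm v i) 2
    simp only [Finset.sum_const, Finset.card_univ, Fintype.card_fin, nsmul_eq_mul] at h
    refine (mul_le_mul_of_nonneg_left h (by positivity)).trans_eq ?_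
    push_cast; ring
  have hA := (key _).trans (hpos x a)
  have hB := (key _).trans (hpos x b)
  simp only [qR] at hA hB
  simp only [Complex.sq_norm, Complex.normSq_apply, Complex.mul_re, Complex.conj_re,
    Complex.conj_im, fun i => (hGre i).1, fun i => (hGre i).2, ← sq]
  refine le_trans (le_of_eq ?_) ((add_le_add hA hB).trans (le_of_eq ?_))
  · simp only [Finset.sum_add_distrib]; ring
  · rw [← mul_add, ← Finset.sum_add_distrib]
    congr 1
    refine Finset.sum_congr rfl fun i _ => ?_
    ring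

end Vale.Agent.P204
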