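import Vale.Agent.P204.Seq
import Vale.Agent.P204.Four

/-!
A right inverse of the projection on forms of type (2,0) among closed forms.
-/

open Filter Topology
open scoped ComplexConjugate

namespace Vale.Agent.P204

namespace Solve

/-- Square-summable coefficient sequences. -/
noncomputable abbrev Hs := lp (fun _ : Idx => C6) 2

lemma memℓp_iff {u : Idx → C6} : Memℓp u 2 ↔ Summable fun k => ‖u k‖ ^ 2 := by
  rw [memℓp_gen_iff (by norm_num)]
  norm_num

lemma hasSum_sq (u : Hs) : HasSum (fun k => ‖u k‖ ^ 2) (‖u‖ ^ 2) := by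
  have := lp.hasSum_norm (p := 2) (by norm_num) u
  simpa using this

/-- An operator from a map on sequences with a bound. -/
lemma exists_op (f : (Idx → C6) → Idx → C6) {C : ℝ} (hC : 0 ≤ C)
    (hadd : ∀ u v : Hs, f (⇑u + ⇑v) = f u + f v) (hsmul : ∀ (c : ℂ) (u : Hs), f (c • ⇑u) = c • f u)
    (hb : ∀ u : Hs, Summable (fun k => ‖f u k‖ ^ 2) ∧ ∑' k, ‖f u k‖ ^ 2 ≤ C ^ 2 * ‖u‖ ^ 2) :
    ∃ T : Hs →L[ℂ] Hs, (∀ u k, T u k = f u k) ∧ ‖T‖ ≤ C := by
  let T₀ : Hs →ₗ[ℂ] Hs :=
    { toFun := fun u => ⟨f u, memℓp_iff.2 (hb u).1⟩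
      map_add' := fun u v => Subtype.ext (hadd u v)
      map_smul' := fun c u => Subtype.ext (hsmul c u) }
  refine ⟨T₀.mkContinuous C fun u => le_of_pow_le_pow_left₀ two_ne_zero (by positivity) ?_,
    fun u k => rfl, LinearMap.mkContinuous_norm_le _ hC _⟩
  rw [← (hasSum_sq (T₀ u)).tsum_eq, mul_pow]
  exact (hb u).2

/-- A kernel operator. -/
lemma exists_kop {M : Idx → C6 →L[ℂ] C6} (hM : Rapid M) (p : ℕ) {C : ℝ} (hC : 0 ≤ C)
    {κ : Idx → Idx → ℝ} (h : ∀ k l, |κ k l| ≤ C * wt (k - l) ^ p) :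
    ∃ T : Hs →L[ℂ] Hs,
      (∀ u : Hs, ∀ k, HasSum (fun l => (κ k l : ℂ) • M (k - l) (u l)) (T u k)) ∧
      ‖T‖ ≤ C * ∑' k, wt k ^ p * ‖M k‖ := by
  have hh : ∀ k l, |κ k l| ≤ C * wt (k - l) ^ p * |(fun _ : Idx => (1 : ℝ)) l| := fun k l => by
    simpa using h k l
  have hu : ∀ u : Hs, Summable fun l => ((fun _ : Idx => (1 : ℝ)) l) ^ 2 * ‖u l‖ ^ 2 := fun u => by
    simpa using (hasSum_sq u).summable
  have B := fun u : Hs => schur_bound hM p hC hh (hu u)
  have hS : 0 ≤ C * ∑' k, wt k ^ p * ‖M k‖ :=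
    mul_nonneg hC (tsum_nonneg fun k => mul_nonneg (pow_nonneg (wt_pos k).le _) (norm_nonneg _))
  obtain ⟨T, hT, hTn⟩ := exists_op (fun u k => ∑' l, (κ k l : ℂ) • M (k - l) (u l)) hS
    (fun u v => funext fun k => by
      simp only [Pi.add_apply, map_add, smul_add]
      exact ((B u).1 k).tsum_add ((B v).1 k))
    (fun c u => funext fun k => by
      simp only [Pi.smul_apply, map_smul, smul_comm _ c]
      exact ((B u).1 k).tsum_const_smul c)
    (fun u => ⟨(B u).2.1, (B u).2.2.trans_eq (by simp [(hasSum_sq u).tsum_eq])⟩)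
  exact ⟨T, fun u k => by rw [hT]; exact ((B u).1 k).hasSum, hTn⟩

/-- A diagonal operator. -/
lemma exists_diag (P : Idx → C6 →L[ℂ] C6) (hP : ∀ k v, ‖P k v‖ ≤ ‖v‖) :
    ∃ T : Hs →L[ℂ] Hs, ∀ u k, T u k = P k (u k) := by
  have hs : ∀ u : Hs, Summable fun k => ‖P k (u k)‖ ^ 2 := fun u =>
    (hasSum_sq u).summable.of_nonneg_of_le (fun k => sq_nonneg _)
      fun k => pow_le_pow_left₀ (norm_nonneg _) (hP k _) 2
  obtain ⟨T, hT, -⟩ := exists_op (fun u k => P k (u k)) zero_le_one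
    (fun u v => funext fun k => by simp) (fun c u => funext fun k => by simp)
    (fun u => ⟨hs u, by
      rw [one_pow, one_mul, ← (hasSum_sq u).tsum_eq]
      exact (hs u).tsum_le_tsum (fun k => pow_le_pow_left₀ (norm_nonneg _) (hP k _) 2)
        (hasSum_sq u).summable⟩)
  exact ⟨T, hT⟩

/-- Swap of the halves, with a sign: the Hodge star. -/
noncomputable def star6 (s : ℝ) : C6 →L[ℂ] C6 :=
  LinearMap.toContinuousLinearMap
    { toFun := fun u => WithLp.toLp 2 fun i => (s : ℂ) * u (i + 3)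
      map_add' := fun u v => by ext i; simp [mul_add]
      map_smul' := fun c u => by ext i; simp [mul_left_comm] }

lemma star6_apply (s : ℝ) (u : C6) (i : Fin 6) : star6 s u i = (s : ℂ) * u (i + 3) := rfl

lemma star6_invol {s : ℝ} (hs : s = 1 ∨ s = -1) (u : C6) : star6 s (star6 s u) = u := by
  ext i
  have e : i + 3 + 3 = i := by fin_cases i <;> rfl
  rcases hs with rfl | rfl <;> simp [star6_apply, e]

lemma star6_norm {s : ℝ} (hs : s = 1 ∨ s = -1) (u : C6) : ‖star6 s u‖ ≤ ‖u‖ := by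
  refine le_of_eq ((pow_left_inj₀ (norm_nonneg _) (norm_nonneg _) two_ne_zero).1 ?_)
  simp only [EuclideanSpace.norm_sq_eq]
  refine Fintype.sum_equiv (Equiv.addRight 3) _ _ fun i => ?_
  rcases hs with rfl | rfl <;> simp [star6_apply]

lemma inner_star6 (s : ℝ) (a b : C6) :
    inner ℂ (star6 s b) a = qC s a b ∧ inner ℂ b (star6 s a) = qC s a b := by
  constructor
  · simp only [PiLp.inner_apply, RCLike.inner_apply, star6_apply, qC, Finset.mul_sum, map_mul,
      Complex.conj_ofReal]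
    exact Finset.sum_congr rfl fun i _ => by ring
  · simp only [PiLp.inner_apply, RCLike.inner_apply, star6_apply, qC, Finset.mul_sum]
    refine Fintype.sum_equiv (Equiv.addRight 3) _ _ fun i => ?_
    have e : i + 3 + 3 = i := by fin_cases i <;> rfl
    simp only [Equiv.coe_addRight, e]
    ring

/-- The closed vectors at a frequency. -/
def closedSub (k : Idx) : Submodule ℂ C6 where
  carrier := {u | ClosedAt k u}
  zero_mem' := by simp [ClosedAt]
  add_mem' := fun {u v} hu hv => by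
    obtain ⟨a1, a2, a3, a4⟩ := hu
    obtain ⟨b1, b2, b3, b4⟩ := hv
    refine ⟨?_, ?_, ?_, ?_⟩ <;> simp only [PiLp.add_apply]
    · linear_combination a1 + b1
    · linear_combination a2 + b2
    · linear_combination a3 + b3
    · linear_combination a4 + b4
  smul_mem' := fun c u hu => by
    obtain ⟨a1, a2, a3, a4⟩ := hu
    refine ⟨?_, ?_, ?_, ?_⟩ <;> simp only [PiLp.smul_apply, smul_eq_mul]
    · linear_combination c * a1
    · linear_combination c * a2
    · linear_combination c * a3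
    · linear_combination c * a4

lemma mem_closedSub {k : Idx} {u : C6} : u ∈ closedSub k ↔ ClosedAt k u := Iff.rfl

/-- The star of a vector orthogonal to the closed ones is closed. -/
lemma star6_mem {s : ℝ} {k : Idx} {a : C6} (ha : a ∈ (closedSub k)ᗮ) :
    star6 s a ∈ closedSub k := by
  have h : ∀ v : Fin 6 → ℂ, ClosedAt k (WithLp.toLp 2 v) → ∑ i, a i * conj (v i) = 0 := fun v hv => by
    have := (closedSub k).inner_right_of_mem_orthogonal (mem_closedSub.2 hv) ha
    rwa [PiLp.inner_apply] at this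
  have h1 := h ![0, 0, 0, (k 0 : ℂ), k 1, k 2] (by simp [ClosedAt, mul_comm])
  have h2 := h ![0, (k 2 : ℂ), -k 1, 0, 0, 0] (by simp [ClosedAt, mul_comm])
  have h3 := h ![-(k 2 : ℂ), 0, k 0, 0, 0, 0] (by simp [ClosedAt, mul_comm])
  have h4 := h ![(k 1 : ℂ), -k 0, 0, 0, 0, 0] (by simp [ClosedAt, mul_comm])
  simp [Fin.sum_univ_six] at h1 h2 h3 h4
  refine ⟨?_, ?_, ?_, ?_⟩ <;> simp only [star6_apply]
  · show (k 0 : ℂ) * ((s : ℂ) * a 3) + (k 1 : ℂ) * ((s : ℂ) * a 4) + (k 2 : ℂ) * ((s : ℂ) * a 5) = 0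
    linear_combination (s : ℂ) * h1
  · show (k 1 : ℂ) * ((s : ℂ) * a 2) - (k 2 : ℂ) * ((s : ℂ) * a 1) = 0
    linear_combination -(s : ℂ) * h2
  · show (k 2 : ℂ) * ((s : ℂ) * a 0) - (k 0 : ℂ) * ((s : ℂ) * a 2) = 0
    linear_combination -(s : ℂ) * h3
  · show (k 0 : ℂ) * ((s : ℂ) * a 1) - (k 1 : ℂ) * ((s : ℂ) * a 0) = 0
    linear_combination -(s : ℂ) * h4

/-- Componentwise conjugation. -/
noncomputable def conj6 : C6 →+ C6 where
  toFun u := WithLp.toLp 2 fun i => conj (u i)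
  map_zero' := by ext i; simp
  map_add' u v := by ext i; simp

lemma conj6_apply (u : C6) (i : Fin 6) : conj6 u i = conj (u i) := rfl

lemma conj6_norm (u : C6) : ‖conj6 u‖ = ‖u‖ := by
  refine (pow_left_inj₀ (norm_nonneg _) (norm_nonneg _) two_ne_zero).1 ?_
  simp [EuclideanSpace.norm_sq_eq, conj6_apply]

lemma conj6_continuous : Continuous conj6 := by
  show Continuous fun u : C6 => WithLp.toLp 2 fun i => conj (u i)
  fun_prop

lemma conj6_closed {k : Idx} {u : C6} (h : ClosedAt k u) : ClosedAt k (conj6 u) := by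
  obtain ⟨a1, a2, a3, a4⟩ := h
  have c := congrArg conj a1
  have c2 := congrArg conj a2
  have c3 := congrArg conj a3
  have c4 := congrArg conj a4
  simp at c c2 c3 c4
  exact ⟨c, c2, c3, c4⟩

lemma conj6_conj6 (u : C6) : conj6 (conj6 u) = u := by
  ext i; simp [conj6_apply]

lemma closedSub_neg (k : Idx) : closedSub (-k) = closedSub k := by
  ext u
  simp only [mem_closedSub, ClosedAt, Pi.neg_apply, Int.cast_neg]
  constructor <;> rintro ⟨a1, a2, a3, a4⟩ <;> refine ⟨?_, ?_, ?_, ?_⟩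
  all_goals first
    | linear_combination -a1
    | linear_combination -a2
    | linear_combination -a3
    | linear_combination -a4

lemma proj_conj (k : Idx) (u : C6) :
    (closedSub (-k)).starProjection (conj6 u) = conj6 ((closedSub k).starProjection u) := by
  rw [closedSub_neg]
  refine (Submodule.eq_starProjection_of_mem_orthogonal
    (mem_closedSub.2 (conj6_closed (mem_closedSub.1 (Submodule.starProjection_apply_mem _ u)))) ?_)
  refine (Submodule.mem_orthogonal _ _).2 fun c hc => ?_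
  have h := (Submodule.mem_orthogonal _ _).1 (Submodule.sub_starProjection_mem_orthogonal u) _
    (mem_closedSub.2 (conj6_closed (mem_closedSub.1 hc)))
  rw [← map_sub, PiLp.inner_apply]
  rw [PiLp.inner_apply] at h
  have h' := congrArg conj h
  simpa [RCLike.inner_apply, map_sum, conj6_apply] using h'

lemma cM_conj (M : T3 → Matrix (Fin 6) (Fin 6) ℝ) (m : Idx) (v : C6) :
    cM M (-m) (conj6 v) = conj6 (cM M m v) := by
  ext i
  simp [Four.cM_apply, conj6_apply, Four.coef_neg, map_sum]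

/-- The reflected conjugate of a sequence. -/
noncomputable def mirror (u : Hs) : Hs :=
  ⟨fun k => conj6 (u (-k)), memℓp_iff.2 (by
    simp only [conj6_norm]
    exact (Equiv.neg Idx).summable_iff.2 (hasSum_sq u).summable)⟩

lemma mirror_apply (u : Hs) (k : Idx) : mirror u k = conj6 (u (-k)) := rfl

lemma mirror_add (u v : Hs) : mirror (u + v) = mirror u + mirror v :=
  lp.ext (funext fun k => by simp [mirror_apply])

lemma mirror_sub (u v : Hs) : mirror (u - v) = mirror u - mirror v :=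
  lp.ext (funext fun k => by simp [mirror_apply])

/-- The quadratic operator of the variational problem. -/
def quad {R : Type*} [Ring R] (J P X : R) : R := J * X * P * J * X + J * (1 - X) * J * (1 - X)

lemma alg_solve {R : Type*} [Ring R] {J P X Ai : R} (hJ : J * J = 1) (hX : X * X = X)
    (hA : quad J P X * Ai = 1) :
    X * (P * J * X * Ai * (J * X)) = X ∧ P * J * X * Ai * (J * X) * X = P * J * X * Ai * (J * X) := by
  refine ⟨?_, by simp only [mul_assoc, hX]⟩
  have h : X * J * quad J P X = X * (P * J * X) := by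
    have e1 : X * (1 - X) = 0 := by rw [mul_sub, mul_one, hX, sub_self]
    calc X * J * quad J P X
        = X * (J * J) * X * (P * J * X) + X * (J * J) * (1 - X) * J * (1 - X) := by
          simp only [quad, mul_add, mul_assoc]
      _ = X * (P * J * X) := by rw [hJ, mul_one, hX, e1]; simp
  calc X * (P * J * X * Ai * (J * X)) = X * (P * J * X) * Ai * (J * X) := by simp only [mul_assoc]
    _ = X * J * (quad J P X * Ai) * (J * X) := by rw [← h]; simp only [mul_assoc]
    _ = X := by rw [hA, mul_one, ← mul_assoc, mul_assoc X J J, hJ, mul_one, hX]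

lemma alg_semiconj {R : Type*} [Ring R] {J P X Y Ai Bi Q : R} (hJ : Q * J = J * Q)
    (hP : Q * P = P * Q) (hX : Q * Y = X * Q) (hA : Ai * quad J P X = 1)
    (hB : quad J P Y * Bi = 1) :
    P * J * X * Ai * (J * X) * Q = Q * (P * J * Y * Bi * (J * Y)) := by
  have sJ : SemiconjBy Q J J := hJ
  have sP : SemiconjBy Q P P := hP
  have sX : SemiconjBy Q Y X := hX
  have s1 : SemiconjBy Q (1 - Y) (1 - X) := (SemiconjBy.one_right Q).sub_right sX
  have hq : Q * quad J P Y = quad J P X * Q :=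
    ((((sJ.mul_right sX).mul_right sP).mul_right sJ).mul_right sX).add_right
      (((sJ.mul_right s1).mul_right sJ).mul_right s1)
  have sA : SemiconjBy Q Bi Ai := by
    show Q * Bi = Ai * Q
    calc Q * Bi = Ai * (quad J P X * Q) * Bi := by rw [← mul_assoc Ai, hA, one_mul]
      _ = Ai * Q * (quad J P Y * Bi) := by rw [← hq]; simp only [mul_assoc]
      _ = Ai * Q := by rw [hB, mul_one]
  exact ((((sP.mul_right sJ).mul_right sX).mul_right sA).mul_right (sJ.mul_right sX)).symm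

/-- A strictly accretive bounded operator is invertible. -/
lemma isUnit_of_coercive (A : Hs →L[ℂ] Hs) {m : ℝ} (hm : 0 < m)
    (h : ∀ u, m * ‖u‖ ^ 2 ≤ (inner ℂ u (A u)).re) : IsUnit A := by
  set M := ‖A‖ + m with hM
  have M0 : 0 < M := by positivity
  set t := m / M ^ 2 with ht
  have t0 : 0 < t := by positivity
  have hb : 0 ≤ 1 - t * m := by
    rw [ht, div_mul_eq_mul_div, sub_nonneg, div_le_one (by positivity)]
    nlinarith [norm_nonneg A]
  have hn : ‖1 - (t : ℂ) • A‖ < 1 := by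
    refine lt_of_le_of_lt (ContinuousLinearMap.opNorm_le_bound _ (Real.sqrt_nonneg (1 - t * m))
      fun u => ?_) (by rw [Real.sqrt_lt' one_pos]; nlinarith)
    refine le_of_pow_le_pow_left₀ two_ne_zero (by positivity) ?_
    rw [mul_pow, Real.sq_sqrt hb]
    show ‖u - (t : ℂ) • A u‖ ^ 2 ≤ _
    rw [norm_sub_sq (𝕜 := ℂ), inner_smul_right, norm_smul, Complex.norm_real, Real.norm_eq_abs,
      abs_of_pos t0, RCLike.re_to_complex, Complex.re_ofReal_mul]
    have hA : t * ‖A u‖ ≤ t * (M * ‖u‖) := mul_le_mul_of_nonneg_left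
      ((A.le_opNorm u).trans (mul_le_mul_of_nonneg_right (by linarith) (norm_nonneg u))) t0.le
    have hA2 : (t * ‖A u‖) ^ 2 ≤ t * m * ‖u‖ ^ 2 := by
      refine (pow_le_pow_left₀ (by positivity) hA 2).trans_eq ?_
      rw [ht]; field_simp
    nlinarith [mul_le_mul_of_nonneg_left (h u) t0.le]
  have hu := isUnit_one_sub_of_norm_lt_one hn
  rw [sub_sub_cancel] at hu
  obtain ⟨U, hU⟩ := hu
  refine ⟨⟨A, (t : ℂ) • (U⁻¹).val, ?_, ?_⟩, rfl⟩
  · rw [mul_smul_comm, ← smul_mul_assoc, ← hU, U.mul_inv]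
  · rw [smul_mul_assoc, ← mul_smul_comm, ← hU, U.inv_mul]

/-- The data of the variational problem. -/
lemma exists_data (D : Data) : ∃ J P X Ai : Hs →L[ℂ] Hs,
    (∀ u k, J u k = star6 D.s (u k)) ∧ (∀ u k, P u k = (closedSub k).starProjection (u k)) ∧
    (∀ u : Hs, ⇑(X u) = conv (cM D.pr) u) ∧
    (∀ u : Hs, ∀ k, HasSum (fun l => cM D.pr (k - l) (u l)) (X u k)) ∧
    J * J = 1 ∧ X * X = X ∧ quad J P X * Ai = 1 ∧ Ai * quad J P X = 1 := by
  have hM := cM_rapid D.sm_pr
  obtain ⟨J, hJ⟩ := exists_diag (fun _ => star6 D.s) fun _ => star6_norm D.hs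
  obtain ⟨P, hP⟩ := exists_diag (fun k => (closedSub k).starProjection)
    fun k v => Submodule.norm_starProjection_apply_le _ v
  obtain ⟨X, hX, -⟩ := exists_kop (κ := fun _ _ => (1 : ℝ)) hM 0 zero_le_one (by simp)
  simp only [Complex.ofReal_one, one_smul] at hX
  have hXc : ∀ u : Hs, ⇑(X u) = conv (cM D.pr) u := fun u =>
    funext fun k => (hX u k).tsum_eq.symm
  have hJJ : J * J = 1 := ContinuousLinearMap.ext fun u => lp.ext (funext fun k => by
    show J (J u) k = u k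
    rw [hJ, hJ, star6_invol D.hs])
  have hXX : X * X = X := ContinuousLinearMap.ext fun u => lp.ext (by
    show ⇑(X (X u)) = ⇑(X u)
    rw [hXc, hXc, conv_idem D (Four.polyB_of_l2 (hasSum_sq u).summable)])
  -- the pairing
  have hQl : ∀ u v : Hs, inner ℂ (J v) u = ∑' k, qC D.s (u k) (v k) := fun u v => by
    rw [lp.inner_eq_tsum]; exact tsum_congr fun k => by rw [hJ]; exact (inner_star6 _ _ _).1
  have hQr : ∀ u v : Hs, inner ℂ v (J u) = ∑' k, qC D.s (u k) (v k) := fun u v => by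
    rw [lp.inner_eq_tsum]; exact tsum_congr fun k => by rw [hJ]; exact (inner_star6 _ _ _).2
  have hJs : ∀ u v : Hs, inner ℂ (J v) u = inner ℂ v (J u) := fun u v => (hQl u v).trans (hQr u v).symm
  have hJX : ∀ u v : Hs, inner ℂ (J (X v)) u = inner ℂ v (J (X u)) := fun u v => by
    rw [hQl, hQr, hXc, hXc, conv_selfAdj_l2 D (hasSum_sq u).summable (hasSum_sq v).summable]
  have hPs : ∀ u v : Hs, inner ℂ (P v) u = inner ℂ v (P u) := fun u v => by
    simp only [lp.inner_eq_tsum, hP]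
    exact tsum_congr fun k => Submodule.inner_starProjection_left_eq_right _ _ _
  have hPP : ∀ u : Hs, P (P u) = P u := fun u => lp.ext (funext fun k => by
    rw [hP, hP]; exact Submodule.starProjection_eq_self_iff.2 (Submodule.starProjection_apply_mem _ _))
  -- coercivity
  obtain ⟨c, c0, hc⟩ := conv_pos D
  have hJn : ∀ u : Hs, ‖J u‖ = ‖u‖ := fun u => by
    rw [norm_eq_sqrt_re_inner (𝕜 := ℂ), norm_eq_sqrt_re_inner (𝕜 := ℂ) u, hJs,
      show J (J u) = u from DFunLike.congr_fun hJJ u]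
  have key : ∀ u : Hs, c / 3 * ‖X u‖ ≤ ‖P (J (X u))‖ := fun u => by
    set v := X u with hv
    set b := P (J v) with hb
    set a := J v - b with ha
    have h1 : c * ‖v‖ ^ 2 ≤ (inner ℂ v (J v)).re := by
      rw [hQr, ← (hasSum_sq v).tsum_eq, hv, hXc]
      exact hc u (hasSum_sq u).summable
    have h0 : inner ℂ (J a) a = 0 := by
      rw [lp.inner_eq_tsum]
      refine (tsum_congr fun k => ?_).trans tsum_zero
      have hmem : a k ∈ (closedSub k)ᗮ := by
        rw [ha, lp.coeFn_sub, Pi.sub_apply, hb, hP]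
        exact Submodule.sub_starProjection_mem_orthogonal _
      rw [hJ]
      exact Submodule.inner_right_of_mem_orthogonal (star6_mem hmem) hmem
    have hb1 : ‖b‖ ≤ ‖v‖ := by
      refine le_of_pow_le_pow_left₀ two_ne_zero (norm_nonneg _) ?_
      rw [← (hasSum_sq b).tsum_eq, ← hJn v, ← (hasSum_sq (J v)).tsum_eq]
      refine (hasSum_sq b).summable.tsum_le_tsum (fun k => ?_) (hasSum_sq _).summable
      rw [hb, hP]
      exact pow_le_pow_left₀ (norm_nonneg _) (Submodule.norm_starProjection_apply_le _ _) 2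
    have e : inner ℂ v (J v) = inner ℂ (J a) b + inner ℂ (J b) (J v) := by
      have e1 : J v = a + b := by rw [ha, sub_add_cancel]
      have e2 : v = J a + J b := by
        rw [← map_add, ← e1]; exact (DFunLike.congr_fun hJJ v).symm
      conv_lhs => rw [e2]
      rw [inner_add_left, ← e2]
      congr 1
      rw [e1, inner_add_right, h0, zero_add]
    have ha2 : ‖a‖ ≤ 2 * ‖v‖ := by
      refine (norm_sub_le _ _).trans ?_
      rw [hJn]; linarith
    have h3 : c * ‖v‖ ^ 2 ≤ 3 * ‖v‖ * ‖b‖ := by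
      refine h1.trans ((Complex.re_le_norm _).trans ?_)
      rw [e]
      refine (norm_add_le _ _).trans ((add_le_add (norm_inner_le_norm _ _) (norm_inner_le_norm _ _)).trans ?_)
      rw [hJn, hJn, hJn]
      nlinarith [norm_nonneg b, norm_nonneg v]
    rcases eq_or_lt_of_le (norm_nonneg v) with h | h
    · rw [← h, mul_zero]; exact norm_nonneg _
    · nlinarith
  set m := min (c ^ 2 / 9) 1 / 2 with hm
  have m0 : 0 < m := by positivity
  have hA : ∀ u, m * ‖u‖ ^ 2 ≤ (inner ℂ u (quad J P X u)).re := fun u => by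
    have e : inner ℂ u (quad J P X u) = inner ℂ (P (J (X u))) (P (J (X u))) +
        inner ℂ (u - X u) (u - X u) := by
      show inner ℂ u (J (X (P (J (X u)))) + J (J (u - X u) - X (J (u - X u)))) = _
      rw [inner_add_right, ← hJX, hPs, hPP]
      congr 1
      rw [map_sub, inner_sub_right, ← hJX, ← hJs]
      have : ∀ z, J (J z) = z := DFunLike.congr_fun hJJ
      rw [← inner_sub_left, ← map_sub, hJs, this]
    rw [e, inner_self_eq_norm_sq_to_K, inner_self_eq_norm_sq_to_K, Complex.add_re]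
    norm_cast
    simp only [← RCLike.re_to_complex, RCLike.ofReal_re]
    have h2 : ‖u‖ ^ 2 ≤ 2 * (‖X u‖ ^ 2 + ‖u - X u‖ ^ 2) := by
      have := norm_add_le (X u) (u - X u)
      rw [add_sub_cancel] at this
      nlinarith [sq_nonneg (‖X u‖ - ‖u - X u‖), norm_nonneg u]
    nlinarith [pow_le_pow_left₀ (by positivity) (key u) 2, min_le_left (c ^ 2 / 9) 1,
      min_le_right (c ^ 2 / 9) 1, sq_nonneg ‖X u‖, sq_nonneg ‖u - X u‖,
      mul_le_mul_of_nonneg_left h2 m0.le]
  obtain ⟨U, hU⟩ := isUnit_of_coercive _ m0 hA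
  exact ⟨J, P, X, (U⁻¹).val, hJ, hP, hXc, hX, hJJ, hXX, by rw [← hU]; exact U.mul_inv,
    by rw [← hU]; exact U.inv_mul⟩

/-- The weights of the smoothing conjugation. -/
noncomputable def qw (d : ℝ) (n : ℕ) (k : Idx) : ℝ := (1 + d * (wt k - 1)) ^ n

lemma one_le_qw {d : ℝ} (hd : d ∈ Set.Ioc (0 : ℝ) 1) (n : ℕ) (k : Idx) : 1 ≤ qw d n k :=
  one_le_pow₀ (by nlinarith [one_le_wt k, hd.1])

lemma qw_bounds {d : ℝ} (hd : d ∈ Set.Ioc (0 : ℝ) 1) (n : ℕ) (k : Idx) :
    d ^ n * wt k ^ n ≤ qw d n k ∧ qw d n k ≤ wt k ^ n := by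
  have := one_le_wt k
  rw [qw, ← mul_pow]
  exact ⟨pow_le_pow_left₀ (mul_nonneg hd.1.le (wt_pos k).le) (by nlinarith [hd.2]) n,
    pow_le_pow_left₀ (by nlinarith [hd.1]) (by nlinarith [hd.2]) n⟩

lemma qw_ratio {d : ℝ} (hd : d ∈ Set.Ioc (0 : ℝ) 1) (n : ℕ) (k l : Idx) :
    |qw d n k / qw d n l - 1| ≤ √d * (3 * n * 2 ^ n) * wt (k - l) ^ n := by
  set r := wt (k - l) with hr
  have r1 : 1 ≤ r := one_le_wt _
  set a := 1 + d * (wt k - 1) with ha
  set b := 1 + d * (wt l - 1) with hb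
  have a1 : 1 ≤ a := by nlinarith [one_le_wt k, hd.1]
  have b1 : 1 ≤ b := by nlinarith [one_le_wt l, hd.1]
  have b0 : 0 < b := by linarith
  have hsb : √(d * wt l) ≤ b :=
    Real.sqrt_le_iff.2 ⟨b0.le, by nlinarith [one_le_wt l, hd.1, hd.2]⟩
  have h1 : |a / b - 1| ≤ 3 * √d * r := by
    rw [div_sub_one b0.ne', abs_div, abs_of_pos b0, div_le_iff₀ b0,
      show a - b = d * (wt k - wt l) by rw [ha, hb]; ring, abs_mul, abs_of_pos hd.1]
    calc d * |wt k - wt l| ≤ d * (3 * r * √(wt l)) :=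
          mul_le_mul_of_nonneg_left (abs_wt_sub_le k l) hd.1.le
      _ = 3 * √d * r * √(d * wt l) := by
          rw [Real.sqrt_mul hd.1.le]; nth_rw 1 [← Real.mul_self_sqrt hd.1.le]; ring
      _ ≤ 3 * √d * r * b := mul_le_mul_of_nonneg_left hsb (by positivity)
  have h2 : a / b ≤ 2 * r := (div_le_iff₀ b0).2 (q_le hd r1 (wt_peetre k l))
  rcases n with _ | n
  · simp [qw]
  have h3 := abs_pow_sub_pow_le (a := a / b) (b := 1) (n := n + 1)
  rw [one_pow] at h3
  rw [qw, qw, ← div_pow]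
  refine h3.trans ?_
  calc |a / b - 1| * ((n + 1 : ℕ) : ℝ) * max |a / b| |1| ^ (n + 1 - 1)
      ≤ 3 * √d * r * ((n + 1 : ℕ) : ℝ) * (2 * r) ^ (n + 1 - 1) := by
        refine mul_le_mul (mul_le_mul_of_nonneg_right h1 (by positivity))
          (pow_le_pow_left₀ (by positivity) (max_le ?_ ?_) _) (by positivity) (by positivity)
        · rwa [abs_of_nonneg (by positivity)]
        · rw [abs_one]; linarith
    _ ≤ 3 * √d * r * ((n + 1 : ℕ) : ℝ) * ((2 * r) ^ n * 2) :=
        mul_le_mul_of_nonneg_left (by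
          rw [Nat.add_sub_cancel]; exact le_mul_of_one_le_right (by positivity) one_le_two)
          (by positivity)
    _ = _ := by rw [mul_pow, pow_succ, pow_succ]; ring

/-- Weighted regularity. -/
lemma weighted {D : Data} {J P X Ai : Hs →L[ℂ] Hs} (hJ : ∀ u k, J u k = star6 D.s (u k))
    (hP : ∀ u k, P u k = (closedSub k).starProjection (u k))
    (hX : ∀ u : Hs, ∀ k, HasSum (fun l => cM D.pr (k - l) (u l)) (X u k))
    (hA : quad J P X * Ai = 1) (hA' : Ai * quad J P X = 1) (n : ℕ) :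
    ∃ C : ℝ, ∀ a : Hs, Summable (fun k => wt k ^ (2 * n) * ‖a k‖ ^ 2) →
      Summable (fun k => wt k ^ (2 * n) * ‖(P * J * X * Ai * (J * X)) a k‖ ^ 2) ∧
      ∑' k, wt k ^ (2 * n) * ‖(P * J * X * Ai * (J * X)) a k‖ ^ 2 ≤
        C * ∑' k, wt k ^ (2 * n) * ‖a k‖ ^ 2 := by
  have hM := cM_rapid D.sm_pr
  have hc : Continuous fun Y : Hs →L[ℂ] Hs => quad J P Y := by unfold quad; fun_prop
  obtain ⟨ε, ε0, hε⟩ := Metric.isOpen_iff.1 (Units.isOpen.preimage hc) X
    ⟨⟨quad J P X, Ai, hA, hA'⟩, rfl⟩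
  set S := 3 * (n : ℝ) * 2 ^ n * ∑' k, wt k ^ n * ‖cM D.pr k‖ with hS
  have ht : ∀ᶠ d : ℝ in 𝓝[>] 0, √d * S < ε :=
    (tendsto_nhdsWithin_of_tendsto_nhds (Continuous.tendsto' (f := fun d : ℝ => √d * S)
      (by fun_prop) 0 0 (by simp))).eventually_lt_const ε0
  have h1 : ∀ᶠ d : ℝ in 𝓝[>] 0, d ≤ 1 :=
    tendsto_nhdsWithin_of_tendsto_nhds tendsto_id |>.eventually (eventually_le_nhds one_pos)
  obtain ⟨d, ⟨hds, hd1⟩, hd0⟩ := ((ht.and h1).and self_mem_nhdsWithin).exists
  have hd : d ∈ Set.Ioc (0 : ℝ) 1 := ⟨hd0, hd1⟩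
  set w := qw d n with hw
  have w1 : ∀ k, 1 ≤ w k := one_le_qw hd n
  have w0 : ∀ k, 0 < w k := fun k => by linarith [w1 k]
  obtain ⟨R, hR⟩ := exists_diag (fun k => (((w k)⁻¹ : ℝ) : ℂ) • ContinuousLinearMap.id ℂ C6)
    fun k v => by
      rw [ContinuousLinearMap.smul_apply, norm_smul, Complex.norm_real, Real.norm_eq_abs,
        abs_of_pos (inv_pos.2 (w0 k))]
      exact mul_le_of_le_one_left (norm_nonneg _) (inv_le_one_of_one_le₀ (w1 k))
  simp only [ContinuousLinearMap.smul_apply, ContinuousLinearMap.id_apply] at hR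
  obtain ⟨E, hE, hEn⟩ := exists_kop (κ := fun k l => w k / w l - 1) hM n
    (C := √d * (3 * n * 2 ^ n)) (by positivity) (qw_ratio hd n)
  set Y := X + E with hY
  have hYX : Y ∈ Metric.ball X ε := by
    rw [Metric.mem_ball, dist_eq_norm, hY, add_sub_cancel_left]
    refine hEn.trans_lt (lt_of_eq_of_lt ?_ hds)
    rw [hS]; ring
  obtain ⟨U, (hU : U.val = quad J P Y)⟩ := hε hYX
  have hRX : R * Y = X * R := ContinuousLinearMap.ext fun u => lp.ext (funext fun k => by
    show R (X u + E u) k = X (R u) k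
    rw [hR, lp.coeFn_add, Pi.add_apply]
    refine HasSum.unique (((hX u k).add (hE u k)).const_smul _) ?_
    convert hX (R u) k using 2 with l
    rw [hR, map_smul, smul_add, smul_smul, ← add_smul]
    congr 1
    have := (w0 k).ne'
    have := (w0 l).ne'
    have := Complex.ofReal_ne_zero.2 (w0 k).ne'
    push_cast
    field_simp
    ring)
  have hRJ : R * J = J * R := ContinuousLinearMap.ext fun u => lp.ext (funext fun k => by
    show R (J u) k = J (R u) k
    rw [hR, hJ, hJ, hR, map_smul])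
  have hRP : R * P = P * R := ContinuousLinearMap.ext fun u => lp.ext (funext fun k => by
    show R (P u) k = P (R u) k
    rw [hR, hP, hP, hR, map_smul])
  have hcomm := alg_semiconj hRJ hRP hRX hA' (Bi := (U⁻¹).val) (by rw [← hU]; exact U.mul_inv)
  set T := P * J * X * Ai * (J * X) with hT
  set T' := P * J * Y * (U⁻¹).val * (J * Y)
  refine ⟨((d ^ n)⁻¹) ^ 2 * ‖T'‖ ^ 2, fun a ha => ?_⟩
  have e2 : ∀ x : ℝ, x ^ (2 * n) = (x ^ n) ^ 2 := fun x => by rw [← pow_mul, mul_comm]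
  have hw2 : ∀ k, ‖((w k : ℝ) : ℂ) • a k‖ ^ 2 ≤ wt k ^ (2 * n) * ‖a k‖ ^ 2 := fun k => by
    rw [norm_smul, Complex.norm_real, Real.norm_eq_abs, abs_of_pos (w0 k), mul_pow, e2]
    exact mul_le_mul_of_nonneg_right (pow_le_pow_left₀ (w0 k).le (qw_bounds hd n k).2 2)
      (sq_nonneg _)
  set a' : Hs := ⟨fun k => ((w k : ℝ) : ℂ) • a k, memℓp_iff.2
    (ha.of_nonneg_of_le (fun k => sq_nonneg _) hw2)⟩ with ha'
  have hRa : R a' = a := lp.ext (funext fun k => by
    rw [hR, ha', smul_smul, ← Complex.ofReal_mul, inv_mul_cancel₀ (w0 k).ne', Complex.ofReal_one,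
      one_smul])
  have hTa : T a = R (T' a') := by rw [← hRa]; exact DFunLike.congr_fun hcomm a'
  have hk : ∀ k, wt k ^ (2 * n) * ‖T a k‖ ^ 2 ≤ ((d ^ n)⁻¹) ^ 2 * ‖T' a' k‖ ^ 2 := fun k => by
    rw [hTa, hR, norm_smul, Complex.norm_real, Real.norm_eq_abs, abs_of_pos (inv_pos.2 (w0 k)),
      mul_pow, e2, ← mul_assoc]
    refine mul_le_mul_of_nonneg_right ?_ (sq_nonneg _)
    rw [← mul_pow]
    refine pow_le_pow_left₀ (by have := wt_pos k; have := w0 k; positivity) ?_ 2
    rw [← div_eq_mul_inv, div_le_iff₀ (w0 k), le_inv_mul_iff₀ (pow_pos hd0 n)]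
    exact (qw_bounds hd n k).1
  have hs2 := ((hasSum_sq (T' a')).summable.mul_left (((d ^ n)⁻¹) ^ 2))
  have hs1 := hs2.of_nonneg_of_le (fun k => by have := wt_pos k; positivity) hk
  refine ⟨hs1, (hs1.tsum_le_tsum hk hs2).trans ?_⟩
  rw [tsum_mul_left, (hasSum_sq (T' a')).tsum_eq, mul_assoc]
  refine mul_le_mul_of_nonneg_left ?_ (sq_nonneg _)
  refine (pow_le_pow_left₀ (norm_nonneg _) (T'.le_opNorm a') 2).trans ?_
  rw [mul_pow, ← (hasSum_sq a').tsum_eq]
  exact mul_le_mul_of_nonneg_left ((hasSum_sq a').summable.tsum_le_tsum hw2 ha) (sq_nonneg _)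

lemma l2_of_rapid {a : Idx → C6} (ha : Rapid a) (n : ℕ) :
    Summable fun k => wt k ^ (2 * n) * ‖a k‖ ^ 2 := by
  have h := ha n
  refine (h.mul_left (∑' k, wt k ^ n * ‖a k‖)).of_nonneg_of_le
    (fun k => by have := wt_pos k; positivity) fun k => ?_
  rw [mul_comm 2 n, pow_mul, ← mul_pow, pow_two]
  exact mul_le_mul_of_nonneg_right (h.le_tsum k fun j _ => by have := wt_pos j; positivity)
    (by have := wt_pos k; positivity)

lemma rapid_of_l2 {a : Idx → C6} (h : ∀ n, Summable fun k => wt k ^ (2 * n) * ‖a k‖ ^ 2) :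
    Rapid a := fun m => by
  refine ((h (m + 1)).add summable_wt_inv).of_nonneg_of_le
    (fun k => by have := wt_pos k; positivity) fun k => ?_
  have := wt_pos k
  have e : wt k ^ m * ‖a k‖ = wt k ^ (m + 1) * ‖a k‖ * (wt k)⁻¹ := by
    rw [pow_succ]; field_simp
  rw [e, mul_comm 2, pow_mul, ← mul_pow, ← inv_pow]
  nlinarith [sq_nonneg (wt k ^ (m + 1) * ‖a k‖ - (wt k)⁻¹),
    show 0 ≤ wt k ^ (m + 1) * ‖a k‖ * (wt k)⁻¹ by positivity]

lemma mirror_commutes {D : Data} {J P X Ai : Hs →L[ℂ] Hs} (hJ : ∀ u k, J u k = star6 D.s (u k))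
    (hP : ∀ u k, P u k = (closedSub k).starProjection (u k))
    (hX : ∀ u : Hs, ∀ k, HasSum (fun l => cM D.pr (k - l) (u l)) (X u k))
    (hA : quad J P X * Ai = 1) (hA' : Ai * quad J P X = 1) (u : Hs) :
    (P * J * X * Ai * (J * X)) (mirror u) = mirror ((P * J * X * Ai * (J * X)) u) := by
  have cJ : ∀ u, J (mirror u) = mirror (J u) := fun u => lp.ext (funext fun k => by
    rw [hJ, mirror_apply, mirror_apply, hJ]
    ext i
    simp [star6_apply, conj6_apply])
  have cP : ∀ u, P (mirror u) = mirror (P u) := fun u => lp.ext (funext fun k => by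
    rw [hP, mirror_apply, mirror_apply, hP]
    have := proj_conj (-k) (u (-k))
    rwa [neg_neg] at this)
  have cX : ∀ u, X (mirror u) = mirror (X u) := fun u => lp.ext (funext fun k => by
    refine (hX (mirror u) k).unique ?_
    rw [mirror_apply]
    convert ((Equiv.neg Idx).hasSum_iff.2 (hX u (-k))).map conj6 conj6_continuous using 1
    funext l
    simp only [Function.comp_apply, Equiv.neg_apply]
    rw [← cM_conj, mirror_apply, show -(-k - -l) = k - l by abel])
  have cA : ∀ u, quad J P X (mirror u) = mirror (quad J P X u) := fun u => by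
    show J (X (P (J (X (mirror u))))) + J (J (mirror u - X (mirror u)) - X (J (mirror u - X (mirror u)))) = _
    rw [cX, ← mirror_sub]
    simp only [cJ, cX, cP, ← mirror_sub, ← mirror_add]
    rfl
  have cI : ∀ u, Ai (mirror u) = mirror (Ai u) := fun u => by
    have e := DFunLike.congr_fun hA u
    calc Ai (mirror u) = Ai (mirror (quad J P X (Ai u))) := by rw [show quad J P X (Ai u) = u from e]
      _ = Ai (quad J P X (mirror (Ai u))) := by rw [cA]
      _ = mirror (Ai u) := DFunLike.congr_fun hA' _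
  show P (J (X (Ai (J (X (mirror u)))))) = _
  simp only [cX, cJ, cI, cP]
  rfl

end Solve

open Solve in
theorem exists_solve (D : Data) : ∃ L : (Idx → C6) → (Idx → C6), ∃ C : ℝ,
    (∀ a b, Rapid a → Rapid b → L (a + b) = L a + L b) ∧
    (∀ (c : ℂ) a, Rapid a → L (c • a) = c • L a) ∧
    ∀ a, Rapid a → Rapid (L a) ∧ (∀ k, ClosedAt k (L a k)) ∧ (RealSeq a → RealSeq (L a)) ∧
      conv (cM D.pr) (L a) = conv (cM D.pr) a ∧ L (conv (cM D.pr) a) = L a ∧
      ∑' k, wt k ^ 2 * ‖L a k‖ ^ 2 ≤ C * ∑' k, wt k ^ 2 * ‖a k‖ ^ 2 := by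
  classical
  obtain ⟨J, P, X, Ai, hJ, hP, hXc, hX, hJJ, hXX, hA, hA'⟩ := exists_data D
  set T := P * J * X * Ai * (J * X) with hT
  obtain ⟨e1, e2⟩ := alg_solve hJJ hXX hA
  have hm : ∀ {a : Idx → C6}, Rapid a → Memℓp a 2 := fun ha =>
    memℓp_iff.2 (by simpa using l2_of_rapid ha 0)
  obtain ⟨L, hL⟩ : ∃ L : (Idx → C6) → (Idx → C6), ∀ (a : Idx → C6) (h : Memℓp a 2),
      L a = ⇑(T ⟨a, h⟩) :=
    ⟨fun a => if h : Memℓp a 2 then ⇑(T ⟨a, h⟩) else 0, fun a h => dif_pos h⟩
  obtain ⟨C, hC⟩ := weighted hJ hP hX hA hA' 1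
  refine ⟨L, C, fun a b ha hb => ?_, fun c a ha => ?_, fun a ha => ?_⟩
  · rw [hL a (hm ha), hL b (hm hb), hL _ ((hm ha).add (hm hb)), ← lp.coeFn_add, ← map_add]
    rfl
  · rw [hL a (hm ha), hL _ ((hm ha).const_smul c), ← lp.coeFn_smul, ← map_smul]
    rfl
  set u : Hs := ⟨a, hm ha⟩ with hu
  have hLu : L a = ⇑(T u) := hL a (hm ha)
  refine ⟨?_, fun k => ?_, fun hr => ?_, ?_, ?_, ?_⟩
  · rw [hLu]
    refine rapid_of_l2 fun n => ?_
    obtain ⟨_, hn⟩ := weighted hJ hP hX hA hA' n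
    exact (hn u (l2_of_rapid ha n)).1
  · rw [hLu, hT]
    show ClosedAt k ((P (J (X (Ai (J (X u)))))) k)
    rw [hP]
    exact mem_closedSub.1 (Submodule.starProjection_apply_mem (closedSub k) _)
  · have hfix : mirror u = u := lp.ext (funext fun k => by
      ext i
      rw [mirror_apply, conj6_apply]
      show conj (a (-k) i) = a k i
      rw [hr k i, Complex.conj_conj])
    have h := mirror_commutes hJ hP hX hA hA' u
    rw [hfix] at h
    intro k i
    rw [hLu]
    have := congrArg (fun z : Hs => z (-k) i) h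
    simp only [mirror_apply, conj6_apply, neg_neg] at this
    exact this
  · rw [hLu, ← hXc]
    exact (congrArg (fun Z : Hs →L[ℂ] Hs => ⇑(Z u)) e1).trans (hXc u)
  · rw [hLu]
    have e : conv (cM D.pr) a = ⇑(X u) := (hXc u).symm
    rw [e, hL _ (lp.memℓp _)]
    exact congrArg (fun Z : Hs →L[ℂ] Hs => ⇑(Z u)) e2
  · rw [hLu]
    have := (hC u (l2_of_rapid ha 1)).2
    rw [mul_one] at this
    exact this

end Vale.Agent.P204
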