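import Vale.Agent.P204.Obstruct
import Vale.Agent.P204.Four
import Vale.Agent.P204.Solve

/-!
An obstruction extends to an exact current by a part of type (2,0) + (0,2).
-/

open MeasureTheory Filter Topology
open scoped ContDiff ComplexConjugate Matrix

namespace Vale.Agent.P204

open Four

theorem pr_cf_eq_zero {D : Data} {μ : Measure T3} {t : T3 → F6} (hO : Obstruction D μ t) :
    conv (cM D.pr) (cf μ t) = 0 := by
  have hfin := hO.fin
  obtain ⟨R, hR⟩ := hO.bdd
  obtain ⟨CT, hCT⟩ := norm_cf_le μ t hO.meas hR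
  funext k; ext i
  have hc := conv_hasSum k (conv_term_summable (cM_rapid D.sm_pr) (polyB_of_bounded hCT) k) i
  refine hc.unique ?_
  have hm : ∀ j, Measurable fun x => t x j := fun j => (measurable_pi_apply j).comp hO.meas
  have hφ : ∀ j, AEStronglyMeasurable (fun x => UnitAddTorus.mFourier (-k) x * (t x j : ℂ)) μ :=
    fun j => (UnitAddTorus.mFourier (-k)).continuous.aestronglyMeasurable.mul
      (Complex.measurable_ofReal.comp (hm j)).aestronglyMeasurable
  have hb : ∀ j x, ‖UnitAddTorus.mFourier (-k) x * (t x j : ℂ)‖ ≤ R := fun j x => by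
    rw [norm_mul, norm_e, one_mul, Complex.norm_real]
    exact (norm_le_pi_norm (t x) j).trans (hR x)
  have h : ∀ j, HasSum (fun l => coef vol (fun x => D.pr x i j) (k - l) * cf μ t l j)
      (∫ x, UnitAddTorus.mFourier (-k) x * (t x j : ℂ) * (D.pr x i j : ℂ) ∂μ) := fun j => by
    have h0 := hasSum_integral_mul μ (hφ j) (hb j) (D.sm_pr i j)
    refine ((Equiv.subLeft k).hasSum_iff.2 h0).congr_fun fun l => ?_
    simp only [Function.comp_apply, Equiv.subLeft_apply, cf_apply, coef]
    congr 2; funext x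
    rw [show -l = k - l + -k by abel, UnitAddTorus.mFourier_add]; ring
  have hv : ∑ j, ∫ x, UnitAddTorus.mFourier (-k) x * (t x j : ℂ) * (D.pr x i j : ℂ) ∂μ = 0 := by
    rw [← integral_finsetSum]
    · refine integral_eq_zero_of_ae (.of_forall fun x => ?_)
      have := congr_fun (hO.cone x).1 i
      simp only [Matrix.mulVec, dotProduct, Pi.zero_apply] at this ⊢
      have h' : ∑ j, (D.pr x i j : ℂ) * (t x j : ℂ) = 0 := by exact_mod_cast this
      calc _ = UnitAddTorus.mFourier (-k) x * ∑ j, (D.pr x i j : ℂ) * (t x j : ℂ) := by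
            rw [Finset.mul_sum]; exact Finset.sum_congr rfl fun j _ => by ring
        _ = _ := by rw [h', mul_zero]
    · intro j _
      obtain ⟨C, -, hC⟩ := exists_bound (sm_continuous (D.sm_pr i j))
      refine Integrable.mono' (integrable_const (R * C)) ((hφ j).mul
        (Complex.continuous_ofReal.comp (sm_continuous (D.sm_pr i j))).aestronglyMeasurable)
        (.of_forall fun x => ?_)
      rw [norm_mul, Complex.norm_real]
      exact mul_le_mul (hb j x) (hC x) (norm_nonneg _) ((norm_nonneg _).trans (hb j x))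
  rw [Pi.zero_apply, PiLp.zero_apply, ← hv]
  exact (hasSum_sum fun j _ => h j).congr_fun fun l => cM_apply D.pr (k - l) (cf μ t l) i

/-- An exact coefficient pairs to zero with a closed one. -/
theorem qC_exact_closed (s : ℝ) {k : Idx} {b u : C6} (hb : ExactAt k b) (hu : ClosedAt k u) :
    qC s b u = 0 := by
  rcases eq_or_ne k 0 with hk | hk
  · simp [qC, hb.2 hk]
  obtain ⟨⟨bd, b1, b2, b3⟩, -⟩ := hb
  obtain ⟨ud, u1, u2, u3⟩ := hu
  have cu := congr_arg conj ud
  have c1 := congr_arg conj u1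
  have c2 := congr_arg conj u2
  have c3 := congr_arg conj u3
  simp only [map_sub, map_add, map_mul, map_zero, map_intCast] at cu c1 c2 c3
  have h0 : (k 0 : ℂ) ≠ 0 ∨ (k 1 : ℂ) ≠ 0 ∨ (k 2 : ℂ) ≠ 0 := by
    by_contra h
    push Not at h
    obtain ⟨h1, h2, h3⟩ := h
    apply hk; funext i
    fin_cases i <;> simp_all
  simp only [qC, Fin.sum_univ_six, show (0 : Fin 6) + 3 = 3 from rfl,
    show (1 : Fin 6) + 3 = 4 from rfl, show (2 : Fin 6) + 3 = 5 from rfl,
    show (3 : Fin 6) + 3 = 0 from rfl, show (4 : Fin 6) + 3 = 1 from rfl,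
    show (5 : Fin 6) + 3 = 2 from rfl]
  rcases h0 with h | h | h <;> refine mul_left_cancel₀ h ?_
  · linear_combination (s : ℂ) * conj (u 3) * bd + (s : ℂ) * b 3 * cu
      + (s : ℂ) * b 1 * c3 - (s : ℂ) * b 2 * c2 + (s : ℂ) * conj (u 1) * b3
      - (s : ℂ) * conj (u 2) * b2
  · linear_combination (s : ℂ) * conj (u 4) * bd + (s : ℂ) * b 4 * cu
      + (s : ℂ) * b 2 * c1 - (s : ℂ) * b 0 * c3 + (s : ℂ) * conj (u 2) * b1
      - (s : ℂ) * conj (u 0) * b3
  · linear_combination (s : ℂ) * conj (u 5) * bd + (s : ℂ) * b 5 * cu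
      + (s : ℂ) * b 0 * c2 - (s : ℂ) * b 1 * c1 + (s : ℂ) * conj (u 0) * b2
      - (s : ℂ) * conj (u 1) * b1

namespace Dual

/-- Conjugation of the components. -/
noncomputable def bar (u : C6) : C6 := WithLp.toLp 2 fun i => conj (u i)

lemma bar_apply (u : C6) (i : Fin 6) : bar u i = conj (u i) := rfl

/-- The part of a sequence at one frequency. -/
noncomputable def dl (k : Idx) (u : C6) : Idx → C6 := Pi.single k u

lemma rapid_single (k : Idx) (u : C6) : Rapid (dl k u) := fun m =>
  summable_of_ne_finset_zero (s := {k}) fun l hl => by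
    simp [dl, Pi.single_eq_of_ne (Finset.notMem_singleton.1 hl)]

lemma rapid_add {a b : Idx → C6} (ha : Rapid a) (hb : Rapid b) : Rapid (a + b) := fun m =>
  Summable.of_nonneg_of_le (fun k => mul_nonneg (pow_nonneg (wt_pos k).le m) (norm_nonneg _))
    (fun k => (mul_le_mul_of_nonneg_left (norm_add_le _ _) (pow_nonneg (wt_pos k).le m)).trans_eq
      (mul_add _ _ _)) ((ha m).add (hb m))

lemma rapid_smul (c : ℂ) {a : Idx → C6} (ha : Rapid a) : Rapid (c • a) := fun m =>
  ((ha m).mul_left ‖c‖).congr fun k => by simp [norm_smul]; ring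

lemma rapid_zero : Rapid (0 : Idx → C6) := fun m => by simp [summable_zero]

lemma rapid_sum {ι : Type*} (s : Finset ι) {f : ι → Idx → C6} (h : ∀ i ∈ s, Rapid (f i)) :
    Rapid (∑ i ∈ s, f i) := by
  classical
  induction s using Finset.induction_on with
  | empty => simpa using rapid_zero
  | @insert i s hi ih =>
    rw [Finset.sum_insert hi]
    exact rapid_add (h i (Finset.mem_insert_self i s))
      (ih fun j hj => h j (Finset.mem_insert_of_mem hj))

lemma qC_conj (s : ℝ) (a b : C6) : conj (qC s a b) = qC s b a := by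
  simp only [qC, map_mul, Complex.conj_ofReal, map_sum, Complex.conj_conj]
  congr 1
  refine Fintype.sum_equiv (Equiv.addRight 3) _ _ fun i => ?_
  simp [add_assoc, show (3 : Fin 6) + 3 = 0 from rfl, mul_comm]

lemma qC_single (s : ℝ) (i : Fin 6) (b : C6) :
    qC s (EuclideanSpace.single i 1) b = (s : ℂ) * conj (b (i + 3)) := by
  rw [qC, Finset.sum_eq_single i]
  · simp
  · intro j _ hj; simp [hj]
  · simp

lemma qC_ext {s : ℝ} (hs : s = 1 ∨ s = -1) {b b' : C6}
    (h : ∀ i, qC s (EuclideanSpace.single i 1) b = qC s (EuclideanSpace.single i 1) b') :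
    b = b' := by
  ext i
  have := h (i + 3)
  rw [qC_single, qC_single, add_assoc, show (3 : Fin 6) + 3 = 0 from rfl, add_zero] at this
  have hs' : (s : ℂ) ≠ 0 := by rcases hs with h | h <;> simp [h]
  exact (starRingEnd ℂ).injective (mul_left_cancel₀ hs' this)

/-- The twist which turns the wedge pairing into the inner product. -/
noncomputable def swap (s : ℝ) (u : C6) : C6 := WithLp.toLp 2 fun i => (s : ℂ) * u (i + 3)

lemma norm_swap {s : ℝ} (hs : s = 1 ∨ s = -1) (u : C6) : ‖swap s u‖ = ‖u‖ := by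
  rw [EuclideanSpace.norm_eq, EuclideanSpace.norm_eq]
  congr 1
  refine Fintype.sum_equiv (Equiv.addRight 3) _ _ fun i => ?_
  rcases hs with h | h <;> simp [swap, h]

lemma qC_swap {s : ℝ} (hs : s = 1 ∨ s = -1) (u : C6) : qC s (swap s u) u = (‖u‖ ^ 2 : ℝ) := by
  have hs2 : (s : ℂ) * s = 1 := by rcases hs with h | h <;> simp [h]
  rw [EuclideanSpace.norm_sq_eq, qC, Complex.ofReal_sum, Finset.mul_sum]
  refine Fintype.sum_equiv (Equiv.addRight 3) _ _ fun i => ?_
  simp only [swap, Equiv.coe_addRight, Complex.ofReal_pow]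
  rw [← Complex.mul_conj']
  linear_combination (u (i + 3) * conj (u (i + 3))) * hs2

lemma qC_add (s : ℝ) (a a' b : C6) : qC s (a + a') b = qC s a b + qC s a' b :=
  (qC_linear_left s b).2 a a'

lemma qC_add_right (s : ℝ) (a b b' : C6) : qC s a (b + b') = qC s a b + qC s a b' :=
  (qC_linear_right s a).2 b b'

lemma qC_smul (s : ℝ) (c : ℂ) (a b : C6) : qC s (c • a) b = c * qC s a b := by
  simp only [qC, PiLp.smul_apply, smul_eq_mul, mul_assoc, ← Finset.mul_sum]
  ring

lemma qC_zero (s : ℝ) (b : C6) : qC s 0 b = 0 := by simp [qC]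

/-- The pairing with a bounded sequence. -/
noncomputable def pair (s : ℝ) (T a : Idx → C6) : ℂ := ∑' k, qC s (a k) (T k)

section pair

variable {s : ℝ} {T : Idx → C6} {CT : ℝ}

lemma pair_summable (hT : ∀ k, ‖T k‖ ≤ CT) {a : Idx → C6} (ha : Rapid a) :
    Summable fun k => qC s (a k) (T k) :=
  Summable.of_norm_bounded ((rapid_summable ha).mul_left (|s| * 6 * CT)) fun k =>
    (norm_qC_le s _ _).trans ((mul_le_mul_of_nonneg_left
      (mul_le_mul_of_nonneg_left (hT k) (norm_nonneg _)) (by positivity)).trans_eq (by ring))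

lemma pair_add (hT : ∀ k, ‖T k‖ ≤ CT) {a b : Idx → C6} (ha : Rapid a) (hb : Rapid b) :
    pair s T (a + b) = pair s T a + pair s T b := by
  simp only [pair, Pi.add_apply, qC_add]
  exact (pair_summable hT ha).tsum_add (pair_summable hT hb)

lemma pair_smul (c : ℂ) (a : Idx → C6) : pair s T (c • a) = c * pair s T a := by
  simp only [pair, Pi.smul_apply, qC_smul, tsum_mul_left]

lemma pair_zero : pair s T 0 = 0 := by simp [pair, qC_zero]

lemma pair_single (k : Idx) (u : C6) : pair s T (dl k u) = qC s u (T k) := by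
  rw [pair, tsum_eq_single k fun l hl => by simp [dl, hl, qC_zero]]
  simp [dl]

lemma pair_real (hTr : RealSeq T) {a : Idx → C6} (ha : RealSeq a) :
    conj (pair s T a) = pair s T a := by
  rw [pair, Complex.conj_tsum, ← (Equiv.neg Idx).tsum_eq]
  refine tsum_congr fun k => ?_
  simp [qC, ha k, hTr k]

lemma norm_pair_le (hs : s = 1 ∨ s = -1) (hT : ∀ k, ‖T k‖ ≤ CT) {a : Idx → C6} (ha : Rapid a) :
    ‖pair s T a‖ ≤
      6 * CT * √(∑' k, ((wt k) ^ 2)⁻¹) * √(∑' k, wt k ^ 2 * ‖a k‖ ^ 2) := by
  have hCT : 0 ≤ CT := (norm_nonneg _).trans (hT 0)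
  have hs1 : |s| = 1 := by rcases hs with h | h <;> simp [h]
  have hw : Summable fun k => wt k ^ 2 * ‖a k‖ ^ 2 := by
    have hA := rapid_summable ha
    refine Summable.of_nonneg_of_le (fun k => by positivity) (fun k => ?_)
      ((ha 2).mul_left (∑' l, ‖a l‖))
    rw [sq ‖a k‖]
    refine le_trans (le_of_eq (by ring)) (mul_le_mul_of_nonneg_right
      (hA.le_tsum k fun _ _ => norm_nonneg _) (mul_nonneg (pow_nonneg (wt_pos k).le 2) (norm_nonneg _)))
  have h1 : ‖pair s T a‖ ≤ 6 * CT * ∑' k, ‖a k‖ := by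
    rw [← tsum_mul_left]
    refine tsum_of_norm_bounded ((rapid_summable ha).mul_left _).hasSum fun k => ?_
    refine (norm_qC_le s _ _).trans ?_
    rw [hs1, one_mul]
    refine (mul_le_mul_of_nonneg_left (mul_le_mul_of_nonneg_left (hT k) (norm_nonneg _))
      (by norm_num)).trans_eq (by ring)
  refine h1.trans ?_
  rw [mul_assoc _ (√_)]
  refine mul_le_mul_of_nonneg_left ?_ (by positivity)
  refine Real.tsum_le_of_sum_le (fun k => norm_nonneg _) fun F => ?_
  calc ∑ k ∈ F, ‖a k‖ = ∑ k ∈ F, (wt k)⁻¹ * (wt k * ‖a k‖) :=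
        Finset.sum_congr rfl fun k _ => by rw [← mul_assoc, inv_mul_cancel₀ (wt_pos k).ne', one_mul]
    _ ≤ √(∑ k ∈ F, ((wt k)⁻¹) ^ 2) * √(∑ k ∈ F, (wt k * ‖a k‖) ^ 2) :=
        Real.sum_mul_le_sqrt_mul_sqrt F _ _
    _ ≤ _ := by
        simp only [inv_pow, mul_pow]
        gcongr
        · exact summable_wt_inv.sum_le_tsum F fun k _ => by positivity
        · exact hw.sum_le_tsum F fun k _ => by positivity

end pair

/-- A functional given by a weighted square-summable sequence. -/
lemma exists_rep {s : ℝ} (hs : s = 1 ∨ s = -1) {f : (Idx → C6) → ℂ} {K : ℝ}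
    (hadd : ∀ a b, Rapid a → Rapid b → f (a + b) = f a + f b)
    (hsmul : ∀ (c : ℂ) a, Rapid a → f (c • a) = c * f a)
    (hbd : ∀ a, Rapid a → ‖f a‖ ≤ K * √(∑' k, wt k ^ 2 * ‖a k‖ ^ 2)) :
    ∃ S : Idx → C6, (Summable fun k => ((wt k) ^ 2)⁻¹ * ‖S k‖ ^ 2) ∧
      (∀ a, Rapid a → HasSum (fun k => qC s (a k) (S k)) (f a)) ∧
      ∀ k i, S k i = (s : ℂ) * conj (f (dl k (EuclideanSpace.single (i + 3) 1))) := by
  classical
  set S : Idx → C6 := fun k => WithLp.toLp 2 fun i =>
    (s : ℂ) * conj (f (dl k (EuclideanSpace.single (i + 3) 1))) with hS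
  have hs2 : (s : ℂ) * s = 1 := by rcases hs with h | h <;> simp [h]
  have hf0 : f 0 = 0 := by
    have := hsmul 0 0 rapid_zero
    simpa using this
  have hfsum : ∀ {ι : Type} (F : Finset ι) (g : ι → Idx → C6), (∀ i, Rapid (g i)) →
      f (∑ i ∈ F, g i) = ∑ i ∈ F, f (g i) := fun F g hg => by
    induction F using Finset.induction_on with
    | empty => simpa using hf0
    | @insert i F hi ih =>
      rw [Finset.sum_insert hi, Finset.sum_insert hi, hadd _ _ (hg i)
        (rapid_sum _ fun j _ => hg j), ih]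
  have hfs : ∀ k u, f (dl k u) = qC s u (S k) := fun k u => by
    have e : dl k u = ∑ i, u i • dl k (EuclideanSpace.single i (1 : ℂ)) := by
      funext l
      by_cases hl : l = k
      · subst hl; simpa [dl, Finset.sum_apply] using basis_sum u
      · simp [dl, Finset.sum_apply, hl]
    rw [e, hfsum _ _ fun i => rapid_smul _ (rapid_single _ _), qC, Finset.mul_sum]
    refine Finset.sum_congr rfl fun i _ => ?_
    rw [hsmul _ _ (rapid_single _ _)]
    simp only [hS, map_mul, Complex.conj_ofReal, Complex.conj_conj, add_assoc,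
      show (3 : Fin 6) + 3 = 0 from rfl, add_zero]
    linear_combination (-(u i * f (dl k (EuclideanSpace.single i 1)))) * hs2
  have hfin : ∀ (F : Finset Idx) (v : Idx → C6),
      f (∑ k ∈ F, dl k (v k)) = ∑ k ∈ F, qC s (v k) (S k) := fun F v => by
    rw [hfsum _ _ fun k => rapid_single _ _]
    exact Finset.sum_congr rfl fun k _ => hfs k (v k)
  have heval : ∀ (F : Finset Idx) (v : Idx → C6) (l : Idx),
      (∑ k ∈ F, dl k (v k)) l = if l ∈ F then v l else 0 := fun F v l => by
    simp [dl, Finset.sum_apply, Pi.single_apply]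
  refine ⟨S, ?_, ?_, fun k i => rfl⟩
  · refine summable_of_sum_le (c := K ^ 2) (fun k => by positivity) fun F => ?_
    set X := ∑ k ∈ F, ((wt k) ^ 2)⁻¹ * ‖S k‖ ^ 2
    set v : Idx → C6 := fun k => ((((wt k) ^ 2)⁻¹ : ℝ) : ℂ) • swap s (S k) with hv
    have h1 := hbd _ (rapid_sum F fun k _ => rapid_single k (v k))
    have hX : f (∑ k ∈ F, dl k (v k)) = (X : ℂ) := by
      rw [hfin, Complex.ofReal_sum]
      refine Finset.sum_congr rfl fun k _ => ?_
      rw [hv, qC_smul, qC_swap hs, Complex.ofReal_mul]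
    have hN : ∑' k, wt k ^ 2 * ‖(∑ k ∈ F, dl k (v k)) k‖ ^ 2 = X := by
      rw [tsum_eq_sum (s := F) fun l hl => by rw [heval, if_neg hl]; simp]
      refine Finset.sum_congr rfl fun l hl => ?_
      rw [heval, if_pos hl, hv, norm_smul, norm_swap hs, Complex.norm_real, Real.norm_eq_abs,
        abs_of_nonneg (by positivity)]
      field_simp [(wt_pos l).ne']
    have hX0 : 0 ≤ X := Finset.sum_nonneg fun k _ => by positivity
    rw [hX, hN, Complex.norm_real, Real.norm_eq_abs, abs_of_nonneg hX0] at h1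
    rcases hX0.eq_or_lt with h | h
    · rw [← h]; positivity
    · have h2 : √X ≤ K := by
        refine le_of_mul_le_mul_right ?_ (Real.sqrt_pos.2 h)
        rwa [Real.mul_self_sqrt hX0]
      calc X = √X ^ 2 := (Real.sq_sqrt hX0).symm
        _ ≤ K ^ 2 := by gcongr
  · intro a ha
    have hw : Summable fun k => wt k ^ 2 * ‖a k‖ ^ 2 := by
      refine Summable.of_nonneg_of_le (fun k => by positivity) (fun k => ?_)
        ((ha 2).mul_left (∑' l, ‖a l‖))
      rw [sq ‖a k‖]
      refine le_trans (le_of_eq (by ring)) (mul_le_mul_of_nonneg_right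
        ((rapid_summable ha).le_tsum k fun _ _ => norm_nonneg _)
        (mul_nonneg (pow_nonneg (wt_pos k).le 2) (norm_nonneg _)))
    rw [HasSum, tendsto_iff_norm_sub_tendsto_zero]
    refine squeeze_zero (fun F => norm_nonneg _) (fun F => ?_)
      (g := fun F => K * √(∑' k : {k // k ∉ F}, wt k ^ 2 * ‖a k‖ ^ 2)) ?_
    · set r : Idx → C6 := fun l => if l ∈ F then 0 else a l with hr
      have hra : Rapid r := fun m => by
        refine Summable.of_nonneg_of_le
          (fun k => mul_nonneg (pow_nonneg (wt_pos k).le m) (norm_nonneg _)) (fun k => ?_) (ha m)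
        refine mul_le_mul_of_nonneg_left ?_ (pow_nonneg (wt_pos k).le m)
        simp only [hr]; split_ifs <;> simp
      have e : a = (∑ k ∈ F, dl k (a k)) + r := by
        funext l
        rw [Pi.add_apply, heval]
        simp only [hr]; split_ifs <;> simp
      have h1 : f a = ∑ k ∈ F, qC s (a k) (S k) + f r := by
        conv_lhs => rw [e]
        rw [hadd _ _ (rapid_sum F fun k _ => rapid_single k (a k)) hra, hfin]
      rw [h1, sub_add_cancel_left, norm_neg]
      refine (hbd r hra).trans (le_of_eq ?_)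
      congr 2
      rw [← tsum_subtype_eq_of_support_subset (s := {k | k ∉ F}) (f := fun k => wt k ^ 2 * ‖r k‖ ^ 2)
        fun l hl hF => hl (by simp [hr, hF])]
      exact tsum_congr fun ⟨l, hl⟩ => by simp [hr, show l ∉ F from hl]
    · simpa using ((Real.continuous_sqrt.tendsto 0).comp
        (tendsto_tsum_compl_atTop_zero fun k => wt k ^ 2 * ‖a k‖ ^ 2)).const_mul K

lemma closedAt_bar {k : Idx} {u : C6} (hu : ClosedAt k u) : ClosedAt (-k) (bar u) := by
  obtain ⟨a, b, c, d⟩ := hu
  refine ⟨?_, ?_, ?_, ?_⟩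
  all_goals simp only [bar_apply, Pi.neg_apply, Int.cast_neg]
  · have := congr_arg conj a
    simp only [map_add, map_mul, map_zero, map_intCast] at this
    linear_combination -this
  · have := congr_arg conj b
    simp only [map_sub, map_mul, map_zero, map_intCast] at this
    linear_combination -this
  · have := congr_arg conj c
    simp only [map_sub, map_mul, map_zero, map_intCast] at this
    linear_combination -this
  · have := congr_arg conj d
    simp only [map_sub, map_mul, map_zero, map_intCast] at this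
    linear_combination -this

lemma closedAt_add {k : Idx} {u v : C6} (hu : ClosedAt k u) (hv : ClosedAt k v) :
    ClosedAt k (u + v) := by
  obtain ⟨a, b, c, d⟩ := hu
  obtain ⟨a', b', c', d'⟩ := hv
  refine ⟨?_, ?_, ?_, ?_⟩
  all_goals simp only [PiLp.add_apply]
  · linear_combination a + a'
  · linear_combination b + b'
  · linear_combination c + c'
  · linear_combination d + d'

lemma closedAt_smul {k : Idx} {u : C6} (hu : ClosedAt k u) (z : ℂ) : ClosedAt k (z • u) := by
  obtain ⟨a, b, c, d⟩ := hu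
  refine ⟨?_, ?_, ?_, ?_⟩
  all_goals simp only [PiLp.smul_apply, smul_eq_mul]
  · linear_combination z * a
  · linear_combination z * b
  · linear_combination z * c
  · linear_combination z * d

lemma closedAt_single {k : Idx} {u : C6} (hu : ClosedAt k u) (l : Idx) : ClosedAt l (dl k u l) := by
  by_cases hl : l = k
  · subst hl; simpa [dl] using hu
  · simp [dl, hl, ClosedAt]

lemma realSeq_sym (k : Idx) (u : C6) : RealSeq (dl k u + dl (-k) (bar u)) := fun l i => by
  simp only [dl, Pi.add_apply, Pi.single_apply, neg_eq_iff_eq_neg, neg_neg]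
  split_ifs <;> simp [bar]
  all_goals ring

lemma realSeq_antisym (k : Idx) (u : C6) :
    RealSeq (Complex.I • (dl k u + (-1 : ℂ) • dl (-k) (bar u))) := fun l i => by
  simp only [dl, Pi.add_apply, Pi.smul_apply, Pi.single_apply, neg_eq_iff_eq_neg, neg_neg]
  split_ifs <;> simp [bar]
  all_goals ring

end Dual

open Vale.Agent.P204.Dual

theorem exists_dual {D : Data} {μ : Measure T3} {t : T3 → F6} (hO : Obstruction D μ t) :
    ∃ S : Idx → C6, RealSeq S ∧ (Summable fun k => ((wt k) ^ 2)⁻¹ * ‖S k‖ ^ 2) ∧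
      conv (cM D.pr) S = S ∧ ∀ k, ExactAt k (cf μ t k + S k) := by
  have hfin := hO.fin
  obtain ⟨R, hR⟩ := hO.bdd
  obtain ⟨CT, hCT⟩ := norm_cf_le μ t hO.meas hR
  have hCT0 : 0 ≤ CT := (norm_nonneg _).trans (hCT 0)
  set T := cf μ t with hT
  have hTr : RealSeq T := cf_realSeq μ t
  obtain ⟨L, C, Ladd, Lsmul, hL⟩ := exists_solve D
  set M := cM D.pr with hMdef
  have hM : Rapid M := cM_rapid D.sm_pr
  set ψ := pair D.s T with hψ
  set f : (Idx → C6) → ℂ := fun a => -ψ (L a) with hf
  have hfadd : ∀ a b, Rapid a → Rapid b → f (a + b) = f a + f b := fun a b ha hb => by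
    simp only [hf, hψ, Ladd a b ha hb, pair_add hCT (hL a ha).1 (hL b hb).1]; ring
  have hfsmul : ∀ (c : ℂ) a, Rapid a → f (c • a) = c * f a := fun c a ha => by
    simp only [hf, hψ, Lsmul c a ha, pair_smul]; ring
  obtain ⟨S, hSs, hSf, hS⟩ := exists_rep D.hs (f := f)
    (K := 6 * CT * √(∑' k, ((wt k) ^ 2)⁻¹) * √(max C 0)) hfadd hfsmul
    fun a ha => by
      simp only [hf, norm_neg]
      refine (norm_pair_le D.hs hCT (hL a ha).1).trans ?_
      rw [mul_assoc _ (√(max C 0)), ← Real.sqrt_mul (le_max_right _ _)]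
      refine mul_le_mul_of_nonneg_left (Real.sqrt_le_sqrt ((hL a ha).2.2.2.2.2.trans
        (mul_le_mul_of_nonneg_right (le_max_left _ _) (tsum_nonneg fun k => by positivity))))
        (by positivity)
  have hfreal : ∀ a, Rapid a → RealSeq a → conj (f a) = f a := fun a ha hr => by
    simp only [hf, map_neg, hψ, pair_real hTr ((hL a ha).2.2.1 hr)]
  have hSp : PolyB S := by
    refine ⟨√(∑' k, ((wt k) ^ 2)⁻¹ * ‖S k‖ ^ 2), 1, fun l => ?_⟩
    have h := hSs.le_tsum l fun _ _ => by positivity
    rw [pow_one, ← Real.sqrt_sq (norm_nonneg (S l))]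
    refine le_trans ?_ (mul_le_mul_of_nonneg_right (Real.sqrt_le_sqrt h) (wt_pos l).le)
    rw [Real.sqrt_mul' _ (sq_nonneg _), Real.sqrt_inv, Real.sqrt_sq (norm_nonneg _),
      Real.sqrt_sq (wt_pos l).le, mul_comm, ← mul_assoc, mul_inv_cancel₀ (wt_pos l).ne', one_mul]
  -- the projection fixes it
  have hfix : conv M S = S := by
    funext k
    refine qC_ext D.hs fun i => ?_
    set a : Idx → C6 := dl k (EuclideanSpace.single i 1) with ha
    have hra : Rapid a := rapid_single _ _
    have h1 := congr_arg conj (conv_selfAdj D hSp hra)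
    simp only [Complex.conj_tsum, qC_conj] at h1
    rw [(hSf _ (conv_rapid hM hra)).tsum_eq, show f (conv M a) = f a by
      simp only [hf, (hL a hra).2.2.2.2.1], ← (hSf a hra).tsum_eq,
      tsum_eq_single k (fun l hl => by simp [ha, dl, hl, qC_zero]),
      tsum_eq_single k (fun l hl => by simp [ha, dl, hl, qC_zero])] at h1
    simpa [ha, dl] using h1
  have hreal : RealSeq S := fun k i => by
    set u : C6 := EuclideanSpace.single (i + 3) 1 with hu
    have hbu : bar u = u := by ext j; simp [hu, bar_apply, apply_ite]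
    have hr1 := rapid_single k u
    have hr2 := rapid_single (-k) u
    have e1 := hfreal _ (rapid_add hr1 hr2) (by simpa [hbu] using realSeq_sym k u)
    have e2 := hfreal _ (rapid_smul Complex.I (rapid_add hr1 (rapid_smul (-1) hr2)))
      (by simpa [hbu] using realSeq_antisym k u)
    rw [hfadd _ _ hr1 hr2, map_add] at e1
    rw [hfsmul _ _ (rapid_add hr1 (rapid_smul _ hr2)), hfadd _ _ hr1 (rapid_smul _ hr2),
      hfsmul _ _ hr2, map_mul, map_add, map_mul, Complex.conj_I, map_neg (starRingEnd ℂ) (1 : ℂ), map_one] at e2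
    rw [hS, hS, map_mul, Complex.conj_ofReal, Complex.conj_conj]
    have hI : Complex.I * Complex.I = -1 := Complex.I_mul_I
    linear_combination (D.s / 2 : ℂ) * e1 + (-(D.s : ℂ) * Complex.I / 2) * e2 +
      (-(D.s : ℂ) / 2) * (conj (f (dl k u)) - conj (f (dl (-k) u)) + f (dl k u) - f (dl (-k) u)) * hI
  refine ⟨S, hreal, hSs, hfix, ?_⟩
  -- closed forms annihilate the sum
  have hclosed : ∀ a, Rapid a → RealSeq a → (∀ k, ClosedAt k (a k)) →
      ψ a = ψ (L a) := fun a ha hr hc => by
    obtain ⟨hLr, hLc, hLR, hLM, -, -⟩ := hL a ha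
    set g : Idx → C6 := a + (-1 : ℂ) • L a with hg
    have hgr : Rapid g := rapid_add ha (rapid_smul _ hLr)
    obtain ⟨w, hw, hwc⟩ := exists_cf_eq hgr (fun k i => by simp [hg, hr k i, hLR hr k i])
    have hcl : ClosedForm w := ⟨hw, fun k => by
      rw [hwc]; exact closedAt_add (hc k) (closedAt_smul (hLc k) _)⟩
    have hpw : Sm fun x => D.pr x *ᵥ w x := contDiff_pi.2 fun i => by
      have : ContDiff ℝ ∞ fun y => ∑ j, D.pr (pt y) i j * w (pt y) j :=
        ContDiff.sum fun j _ => (D.sm_pr i j).mul (sm_comp hw j)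
      exact this
    have hcf0 : cf vol (fun _ : T3 => (0 : F6)) = 0 := by
      funext k; ext i; simp [cf_apply, coef]
    have h0 : (fun x => D.pr x *ᵥ w x) = fun _ => 0 := by
      refine cf_injective hpw contDiff_const ?_
      rw [hcf0, cf_mul D.sm_pr hw, hwc]
      funext k
      have h1 := (conv_term_summable hM (polyB_of_rapid ha) k).hasSum
      have h2 := (conv_term_summable hM (polyB_of_rapid hLr) k).hasSum
      refine HasSum.tsum_eq ?_
      have h3 := h1.add (h2.const_smul (-1 : ℂ))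
      rw [show (∑' l, M (k - l) (L a l)) = conv M (L a) k from rfl, hLM] at h3
      simpa [hg, conv] using h3
    have h1 := (hasSum_pairing D.s μ hO.meas hR hw).tsum_eq
    rw [hO.annihil w hcl fun x => congr_fun h0 x, hwc, ← hT] at h1
    have h2 := congr_arg conj h1
    simp only [Complex.conj_tsum, qC_conj, Complex.ofReal_zero, map_zero] at h2
    change pair D.s T g = 0 at h2
    rw [hg, pair_add hCT ha (rapid_smul _ hLr), pair_smul] at h2
    simp only [hψ]
    linear_combination h2
  intro k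
  set B := T k + S k with hB
  have hsingle : ∀ k u, qC D.s u (T k + S k) = ψ (dl k u) + f (dl k u) := fun k u => by
    rw [qC_add_right, hψ, pair_single, ← (hSf _ (rapid_single k u)).tsum_eq,
      tsum_eq_single k (fun l hl => by simp [dl, hl, qC_zero])]
    simp [dl]
  have key : ∀ a, Rapid a → RealSeq a → (∀ k, ClosedAt k (a k)) → ψ a + f a = 0 :=
    fun a ha hr hc => by rw [hclosed a ha hr hc]; simp [hf]
  have hpair : ∀ u, ClosedAt k u → qC D.s u B = 0 := fun u hu => by
    have hr1 := rapid_single k u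
    have hr2 := rapid_single (-k) (bar u)
    have e1 := key _ (rapid_add hr1 hr2) (realSeq_sym k u) fun l =>
      closedAt_add (closedAt_single hu l) (closedAt_single (closedAt_bar hu) l)
    have e2 := key _ (rapid_smul Complex.I (rapid_add hr1 (rapid_smul (-1) hr2)))
      (realSeq_antisym k u) fun l => closedAt_smul (closedAt_add (closedAt_single hu l)
        (closedAt_smul (closedAt_single (closedAt_bar hu) l) _)) _
    simp only [hψ, pair_add hCT hr1 hr2, hfadd _ _ hr1 hr2] at e1
    simp only [hψ, pair_smul, pair_add hCT hr1 (rapid_smul _ hr2),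
      hfsmul _ _ (rapid_add hr1 (rapid_smul _ hr2)), hfadd _ _ hr1 (rapid_smul _ hr2),
      hfsmul _ _ hr2] at e2
    have e3 : (ψ (dl k u) + f (dl k u)) - (ψ (dl (-k) (bar u)) + f (dl (-k) (bar u))) = 0 := by
      refine mul_left_cancel₀ Complex.I_ne_zero ?_
      simp only [hψ]
      linear_combination e2
    rw [hB, hsingle]
    simp only [hψ] at e3 ⊢
    linear_combination e1 / 2 + e3 / 2
  have hs' : (D.s : ℂ) ≠ 0 := by rcases D.hs with h | h <;> simp [h]
  have test : ∀ v : Fin 6 → ℂ, ClosedAt k (WithLp.toLp 2 v) →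
      ∑ i, v i * conj (B (i + 3)) = 0 := fun v hv =>
    (mul_eq_zero.1 (hpair _ hv)).resolve_left hs'
  have t0 := test ![0, 0, 0, (k 0 : ℂ), (k 1 : ℂ), (k 2 : ℂ)] (by
    simp [ClosedAt]; constructor <;> [skip; constructor] <;> ring)
  have t1 := test ![0, -(k 2 : ℂ), (k 1 : ℂ), 0, 0, 0] (by simp [ClosedAt]; ring)
  have t2 := test ![(k 2 : ℂ), 0, -(k 0 : ℂ), 0, 0, 0] (by simp [ClosedAt]; ring)
  have t3 := test ![-(k 1 : ℂ), (k 0 : ℂ), 0, 0, 0, 0] (by simp [ClosedAt]; ring)
  simp [Fin.sum_univ_six, show (0 : Fin 6) + 3 = 3 from rfl,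
    show (1 : Fin 6) + 3 = 4 from rfl, show (2 : Fin 6) + 3 = 5 from rfl,
    show (3 : Fin 6) + 3 = 0 from rfl, show (4 : Fin 6) + 3 = 1 from rfl,
    show (5 : Fin 6) + 3 = 2 from rfl] at t0 t1 t2 t3
  refine ⟨⟨?_, ?_, ?_, ?_⟩, fun hk => ?_⟩
  · have := congr_arg conj t0
    simp at this
    linear_combination this
  · have := congr_arg conj t1
    simp at this
    linear_combination this
  · have := congr_arg conj t2
    simp at this
    linear_combination this
  · have := congr_arg conj t3
    simp at this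
    linear_combination this
  · refine qC_ext D.hs fun i => ?_
    rw [hpair _ (by subst hk; simp [ClosedAt])]
    simp [qC]

end Vale.Agent.P204
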