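import Vale.Agent.P204.Theta
import Vale.Agent.P204.Seq

/-!
Energies of form-valued measures in the heat kernel, their mixtures, and Gaussian averages of
measures of linear growth.
-/

open MeasureTheory Filter Topology
open scoped ENNReal ComplexConjugate

namespace Vale.Agent.P204

/-- The Fourier multiplier of the heat kernel. -/
noncomputable def heat (σ : ℝ) (k : Idx) : ℝ := Real.exp (-(σ * (wt k - 1)))

lemma abs_heat (σ : ℝ) (k : Idx) : |heat σ k| = heat σ k := abs_of_pos (Real.exp_pos _)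

/-- A bilinear form on six numbers. -/
def bil (c : ℝ) (p : Fin 6 → Fin 6) (u v : F6) : ℝ := c * ∑ i, u i * v (p i)

/-- Its value on the coefficients. -/
noncomputable def bilF (μ : Measure T3) (t : T3 → F6) (c : ℝ) (p : Fin 6 → Fin 6) (k : Idx) : ℝ :=
  ((c : ℂ) * ∑ i, cf μ t k i * conj (cf μ t k (p i))).re

lemma qR_eq_bil (s : ℝ) (u v : F6) : qR s u v = bil s (fun i => i + 3) u v := rfl

lemma qC_re_eq_bilF (s : ℝ) (μ : Measure T3) (t : T3 → F6) (k : Idx) :
    (qC s (cf μ t k) (cf μ t k)).re = bilF μ t s (fun i => i + 3) k := rfl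

lemma norm_sq_eq_bilF (μ : Measure T3) (t : T3 → F6) (k : Idx) :
    ‖cf μ t k‖ ^ 2 = bilF μ t 1 id k := by
  rw [EuclideanSpace.norm_sq_eq, bilF, Complex.ofReal_one, one_mul, Complex.re_sum]
  refine Finset.sum_congr rfl fun i _ => ?_
  rw [id, Complex.mul_conj, Complex.ofReal_re, Complex.normSq_eq_norm_sq]

lemma abs_bil_le {c : ℝ} (p : Fin 6 → Fin 6) {u v : F6} {R : ℝ} (hu : ‖u‖ ≤ R) (hv : ‖v‖ ≤ R) :
    |bil c p u v| ≤ |c| * (6 * R ^ 2) := by
  rw [bil, abs_mul]
  refine mul_le_mul_of_nonneg_left ((Finset.abs_sum_le_sum_abs _ _).trans ?_) (abs_nonneg _)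
  calc ∑ i, |u i * v (p i)| ≤ ∑ _i : Fin 6, R * R := Finset.sum_le_sum fun i _ => by
        rw [abs_mul]
        exact mul_le_mul (((Real.norm_eq_abs _).symm.trans_le (norm_le_pi_norm u i)).trans hu)
          (((Real.norm_eq_abs _).symm.trans_le (norm_le_pi_norm v _)).trans hv) (abs_nonneg _)
          ((norm_nonneg u).trans hu)
    _ = 6 * R ^ 2 := by simp [pow_two]

lemma norm_mFourier_le (k : Idx) (x : T3) : ‖UnitAddTorus.mFourier k x‖ ≤ 1 :=
  ((UnitAddTorus.mFourier k).norm_coe_le_norm x).trans_eq UnitAddTorus.mFourier_norm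

lemma mFourier_sub (k : Idx) (x y : T3) :
    UnitAddTorus.mFourier k (y - x) = UnitAddTorus.mFourier k y * UnitAddTorus.mFourier (-k) x := by
  simp only [UnitAddTorus.mFourier, ContinuousMap.coe_mk, Pi.sub_apply, Pi.neg_apply,
    ← Finset.prod_mul_distrib]
  refine Finset.prod_congr rfl fun i _ => ?_
  simp only [fourier_apply]
  rw [← Circle.coe_mul, ← AddCircle.toCircle_add, smul_sub, neg_smul, sub_eq_add_neg]

lemma wt_sub_one_nonneg (k : Idx) : 0 ≤ wt k - 1 := sub_nonneg.2 (one_le_wt k)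

variable (μ : Measure T3) [IsFiniteMeasure μ] {t : T3 → F6} {R : ℝ}

lemma norm_coef_le (hR : ∀ x, ‖t x‖ ≤ R) (k : Idx) (i : Fin 6) :
    ‖cf μ t k i‖ ≤ R * μ.real Set.univ := by
  show ‖coef μ (fun x => t x i) k‖ ≤ _
  refine norm_integral_le_of_norm_le_const (Eventually.of_forall fun x => ?_)
  rw [norm_mul, Complex.norm_real]
  exact (mul_le_of_le_one_left (norm_nonneg _) (norm_mFourier_le _ _)).trans
    ((norm_le_pi_norm (t x) i).trans (hR x))

lemma abs_bilF_le (hR : ∀ x, ‖t x‖ ≤ R) (c : ℝ) (p : Fin 6 → Fin 6) (k : Idx) :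
    |bilF μ t c p k| ≤ |c| * (6 * (R * μ.real Set.univ) ^ 2) := by
  rw [bilF]
  refine (Complex.abs_re_le_norm _).trans ?_
  rw [norm_mul, Complex.norm_real, Real.norm_eq_abs]
  refine mul_le_mul_of_nonneg_left ((norm_sum_le _ _).trans ?_) (abs_nonneg _)
  have h0 : 0 ≤ R * μ.real Set.univ := (norm_nonneg _).trans (norm_coef_le μ hR k 0)
  calc ∑ i, ‖cf μ t k i * conj (cf μ t k (p i))‖
      ≤ ∑ _i : Fin 6, R * μ.real Set.univ * (R * μ.real Set.univ) := Finset.sum_le_sum fun i _ => by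
        rw [norm_mul, Complex.norm_conj]
        exact mul_le_mul (norm_coef_le μ hR k i) (norm_coef_le μ hR k _) (norm_nonneg _) h0
    _ = 6 * (R * μ.real Set.univ) ^ 2 := by simp [pow_two]

/-- The energy in the heat kernel. -/
noncomputable def energy (t : T3 → F6) (c : ℝ) (p : Fin 6 → Fin 6) (σ : ℝ) : ℝ :=
  ∫ z, th3 σ (z.2 - z.1) * bil c p (t z.1) (t z.2) ∂μ.prod μ

lemma measurable_comp_apply (ht : Measurable t) (i : Fin 6) : Measurable fun x => t x i :=
  (measurable_pi_apply i).comp ht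

lemma integrable_kernel (ht : Measurable t) (hR : ∀ x, ‖t x‖ ≤ R) (c : ℝ) (p : Fin 6 → Fin 6)
    {σ : ℝ} (hσ : 0 < σ) :
    Integrable (fun z => th3 σ (z.2 - z.1) * bil c p (t z.1) (t z.2)) (μ.prod μ) := by
  obtain ⟨A, A0, hA⟩ := th3_le
  refine Integrable.of_bound (C := A * sz σ ^ 3 * (|c| * (6 * R ^ 2))) ?_
    (Eventually.of_forall fun z => ?_)
  · refine (Measurable.mul ((th3_continuous hσ).measurable.comp
      (measurable_snd.sub measurable_fst)) ?_).aestronglyMeasurable
    exact (Finset.measurable_fun_sum _ fun i _ =>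
      ((measurable_comp_apply ht i).comp measurable_fst).mul
        ((measurable_comp_apply ht (p i)).comp measurable_snd)).const_mul c
  · rw [Real.norm_eq_abs, abs_mul, abs_of_nonneg (th3_nonneg hσ _)]
    have s0 : 0 ≤ sz σ := zero_le_one.trans (le_max_right _ _)
    refine mul_le_mul ((hA σ hσ _).trans (mul_le_of_le_one_right (by positivity)
      (Real.exp_le_one_iff.2 (neg_nonpos.2 (by positivity)))))
      (abs_bil_le p (hR _) (hR _)) (abs_nonneg _) (by positivity)

theorem energy_eq (ht : Measurable t) (hR : ∀ x, ‖t x‖ ≤ R) (c : ℝ) (p : Fin 6 → Fin 6) {σ : ℝ}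
    (hσ : 0 < σ) : ∑' k, heat σ k * bilF μ t c p k = energy μ t c p σ := by
  set f : Fin 6 → Idx → T3 → ℂ := fun i k x => UnitAddTorus.mFourier (-k) x * (t x i : ℂ) with hf
  have hi : ∀ i k, Integrable (f i k) μ := fun i k => by
    refine Integrable.of_bound (C := R) ?_ (Eventually.of_forall fun x => ?_)
    · exact ((UnitAddTorus.mFourier (-k)).continuous.measurable.mul
        (Complex.measurable_ofReal.comp (measurable_comp_apply ht i))).aestronglyMeasurable
    · rw [norm_mul, Complex.norm_real]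
      exact (mul_le_of_le_one_left (norm_nonneg _) (norm_mFourier_le _ _)).trans
        ((norm_le_pi_norm (t x) i).trans (hR x))
  set G : Idx → T3 × T3 → ℂ := fun k z =>
    UnitAddTorus.mFourier k (z.2 - z.1) * (heat σ k : ℂ) * (bil c p (t z.1) (t z.2) : ℂ) with hG
  have hGeq : ∀ k, G k = fun z => (heat σ k : ℂ) * ((c : ℂ) *
      ∑ i, f i k z.1 * conj (f (p i) k z.2)) := fun k => by
    funext z
    simp only [hG, hf, bil, mFourier_sub, map_mul, Complex.conj_ofReal, ← UnitAddTorus.mFourier_neg,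
      neg_neg, Complex.ofReal_mul, Complex.ofReal_sum, Finset.mul_sum]
    refine Finset.sum_congr rfl fun i _ => ?_
    ring
  have hint : ∀ k i, Integrable (fun z => f i k z.1 * conj (f (p i) k z.2)) (μ.prod μ) := fun k i =>
    (hi i k).mul_prod (Complex.conjCLE.toContinuousLinearMap.integrable_comp (hi (p i) k))
  have hGi : ∀ k, Integrable (G k) (μ.prod μ) := fun k => by
    rw [hGeq]
    exact ((integrable_finsetSum _ fun i _ => hint k i).const_mul _).const_mul _
  have hval : ∀ k, ∫ z, G k z ∂μ.prod μ =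
      (heat σ k : ℂ) * ((c : ℂ) * ∑ i, cf μ t k i * conj (cf μ t k (p i))) := fun k => by
    rw [hGeq, integral_const_mul, integral_const_mul, integral_finsetSum _ fun i _ => hint k i]
    congr 2
    refine Finset.sum_congr rfl fun i _ => ?_
    rw [integral_prod_mul (f i k) (fun y => conj (f (p i) k y)), integral_conj]
    rfl
  have hGn : ∀ k z, ‖G k z‖ ≤ heat σ k * (|c| * (6 * R ^ 2)) := fun k z => by
    simp only [hG, norm_mul, Complex.norm_real, Real.norm_eq_abs]
    rw [abs_heat]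
    exact mul_le_mul (mul_le_of_le_one_left (Real.exp_pos _).le (norm_mFourier_le _ _))
      (abs_bil_le p (hR _) (hR _)) (abs_nonneg _) (Real.exp_pos _).le
  have hsum : Summable fun k => ∫ z, ‖G k z‖ ∂μ.prod μ := by
    refine Summable.of_nonneg_of_le (fun k => integral_nonneg fun z => norm_nonneg _) (fun k => ?_)
      (((th3_summable hσ).mul_right (|c| * (6 * R ^ 2))).mul_right ((μ.prod μ).real Set.univ))
    calc ∫ z, ‖G k z‖ ∂μ.prod μ ≤ ∫ _z, heat σ k * (|c| * (6 * R ^ 2)) ∂μ.prod μ :=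
          integral_mono (hGi k).norm (integrable_const _) (hGn k)
      _ = _ := by rw [integral_const, smul_eq_mul, mul_comm]; rfl
  have h := hasSum_integral_of_summable_integral_norm hGi hsum
  have htot : ∫ z, ∑' k, G k z ∂μ.prod μ = (energy μ t c p σ : ℂ) := by
    rw [energy, ← integral_complex_ofReal]
    refine integral_congr_ae (Eventually.of_forall fun z => ?_)
    show ∑' k, G k z = _
    beta_reduce
    rw [Complex.ofReal_mul, ← (th3_hasSum hσ (z.2 - z.1)).tsum_eq, ← tsum_mul_right]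
    rfl
  rw [htot] at h
  simp only [hval] at h
  have h' := Complex.hasSum_re h
  simp only [Complex.re_ofReal_mul, Complex.ofReal_re] at h'
  rw [← h'.tsum_eq]
  exact tsum_congr fun k => by rw [bilF, Complex.re_ofReal_mul]

/-- Energies against a mixture of heat multipliers. -/
theorem energy_mix {Ω : Type*} [MeasurableSpace Ω] (m : Measure Ω) {σ w : Ω → ℝ}
    (hσ : ∀ᵐ ω ∂m, 0 < σ ω) (hw : ∀ᵐ ω ∂m, 0 ≤ w ω) (hwi : Integrable w m)
    (hσm : Measurable σ) {N : Idx → ℝ} (hN : ∀ k, N k = ∫ ω, w ω * heat (σ ω) k ∂m)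
    (hNs : Summable N) (ht : Measurable t) (hR : ∀ x, ‖t x‖ ≤ R) (c : ℝ) (p : Fin 6 → Fin 6) :
    Integrable (fun ω => w ω * energy μ t c p (σ ω)) m ∧
      ∑' k, N k * bilF μ t c p k = ∫ ω, w ω * energy μ t c p (σ ω) ∂m := by
  set D := |c| * (6 * (R * μ.real Set.univ) ^ 2) with hD
  have hb : ∀ k, |bilF μ t c p k| ≤ D := abs_bilF_le μ hR c p
  set F : Idx → Ω → ℝ := fun k ω => w ω * heat (σ ω) k * bilF μ t c p k with hF
  have hm0 : ∀ k, AEStronglyMeasurable (fun ω => w ω * heat (σ ω) k) m := fun k =>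
    hwi.1.mul (Real.measurable_exp.comp (hσm.mul_const _).neg).aestronglyMeasurable
  have hFm : ∀ k, AEStronglyMeasurable (F k) m := fun k => (hm0 k).mul_const _
  have hwh : ∀ k, Integrable (fun ω => w ω * heat (σ ω) k) m := fun k => by
    refine hwi.mono' (hm0 k) ?_
    filter_upwards [hσ, hw] with ω h1 h2
    rw [Real.norm_eq_abs, abs_mul, abs_of_nonneg h2, abs_heat]
    exact mul_le_of_le_one_right h2
      (Real.exp_le_one_iff.2 (neg_nonpos.2 (mul_nonneg h1.le (wt_sub_one_nonneg k))))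
  have hFi : ∀ k, Integrable (F k) m := fun k => (hwh k).mul_const _
  have hFn : ∀ k, ∫ ω, ‖F k ω‖ ∂m ≤ N k * D := fun k => by
    rw [hN, ← integral_mul_const]
    refine integral_mono_ae (hFi k).norm ((hwh k).mul_const _) ?_
    filter_upwards [hw] with ω h2
    simp only [hF, Real.norm_eq_abs, abs_mul, abs_of_nonneg h2,
      abs_heat]
    exact mul_le_mul_of_nonneg_left (hb k) (mul_nonneg h2 (Real.exp_pos _).le)
  have hsum : Summable fun k => ∫ ω, ‖F k ω‖ ∂m :=
    Summable.of_nonneg_of_le (fun k => integral_nonneg fun ω => norm_nonneg _) hFn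
      (hNs.mul_right D)
  have hti : Integrable (fun ω => ∑' k, F k ω) m := by
    refine ⟨?_, ?_⟩
    · refine aestronglyMeasurable_of_tendsto_ae (u := atTop) (f := fun s : Finset Idx =>
        fun ω => ∑ k ∈ s, F k ω) (fun s => Finset.aestronglyMeasurable_fun_sum s fun k _ => hFm k) ?_
      filter_upwards [hσ, hw] with ω h1 h2
      have hs : Summable fun k => F k ω := by
        refine Summable.of_norm_bounded (((th3_summable h1).mul_left (w ω)).mul_right D) fun k => ?_
        simp only [hF, Real.norm_eq_abs, abs_mul, abs_of_nonneg h2,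
          abs_heat]
        exact mul_le_mul_of_nonneg_left (hb k) (mul_nonneg h2 (Real.exp_pos _).le)
      exact hs.hasSum
    · rw [hasFiniteIntegral_iff_enorm]
      refine lt_of_le_of_lt (lintegral_mono fun ω => enorm_tsum_le_tsum_enorm) ?_
      rw [lintegral_tsum fun k => (hFm k).enorm]
      simp_rw [← ofReal_integral_norm_eq_lintegral_enorm (hFi _)]
      rw [← ENNReal.ofReal_tsum_of_nonneg (fun k => integral_nonneg fun ω => norm_nonneg _) hsum]
      exact ENNReal.ofReal_lt_top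
  have heq : ∀ᵐ ω ∂m, ∑' k, F k ω = w ω * energy μ t c p (σ ω) := by
    filter_upwards [hσ] with ω h1
    rw [← energy_eq μ ht hR c p h1, ← tsum_mul_left]
    simp only [hF, mul_assoc]
  refine ⟨hti.congr heq, ?_⟩
  rw [← integral_congr_ae heq, ← integral_tsum_of_summable_integral_norm hFi hsum]
  simp only [hF, integral_mul_const, ← hN]

/-- The Gaussian average of `μ` at scale `ρ`, divided by `ρ`. -/
noncomputable def gauss (ρ : ℝ) (x : T3) : ℝ :=
  ρ⁻¹ * ∫ y, Real.exp (-(dist x y / ρ) ^ 2) ∂μ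

lemma summable_gauss_weights : Summable fun j : ℕ => Real.exp (-(j : ℝ) ^ 2) * ((j : ℝ) + 1) := by
  have h1 := (Real.summable_pow_mul_exp_neg_nat_mul 1 one_pos).add
    (Real.summable_pow_mul_exp_neg_nat_mul 0 one_pos)
  refine Summable.of_nonneg_of_le (fun j => by positivity) (fun j => ?_) h1
  simp only [pow_one, pow_zero, one_mul, neg_mul]
  have : Real.exp (-(j : ℝ) ^ 2) ≤ Real.exp (-(j : ℝ)) := by
    refine Real.exp_le_exp.2 (neg_le_neg ?_)
    exact_mod_cast Nat.le_self_pow two_ne_zero j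
  nlinarith [Real.exp_pos (-(j : ℝ)), mul_le_mul_of_nonneg_right this
    (show (0 : ℝ) ≤ (j : ℝ) + 1 by positivity)]

lemma gauss_nonneg {ρ : ℝ} (hρ : 0 < ρ) (x : T3) : 0 ≤ gauss μ ρ x :=
  mul_nonneg (inv_nonneg.2 hρ.le) (integral_nonneg fun _ => (Real.exp_pos _).le)

lemma gauss_le_tsum {ρ : ℝ} (hρ : 0 < ρ) (x : T3) :
    gauss μ ρ x ≤ ∑' j : ℕ, Real.exp (-(j : ℝ) ^ 2) * ((j : ℝ) + 1) *
      (μ.real (Metric.ball x (((j : ℝ) + 1) * ρ)) / (((j : ℝ) + 1) * ρ)) := by
  set F : ℕ → T3 → ℝ := fun j => (Metric.ball x (((j : ℝ) + 1) * ρ)).indicator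
    fun _ => Real.exp (-(j : ℝ) ^ 2) with hF
  have hmb : ∀ j : ℕ, MeasurableSet (Metric.ball x (((j : ℝ) + 1) * ρ)) := fun j => measurableSet_ball
  have hFi : ∀ j, Integrable (F j) μ := fun j => (integrable_const _).indicator (hmb j)
  have hval : ∀ j, ∫ y, F j y ∂μ =
      μ.real (Metric.ball x (((j : ℝ) + 1) * ρ)) * Real.exp (-(j : ℝ) ^ 2) := fun j => by
    rw [hF]
    simp only
    rw [integral_indicator_const _ (hmb j), smul_eq_mul]
  have hnorm : ∀ j, (fun y => ‖F j y‖) = F j := fun j => funext fun y =>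
    Real.norm_of_nonneg (Set.indicator_nonneg (fun _ _ => (Real.exp_pos _).le) y)
  have hsum : Summable fun j => ∫ y, ‖F j y‖ ∂μ := by
    simp_rw [hnorm, hval]
    refine Summable.of_nonneg_of_le (fun j => by positivity) (fun j => ?_)
      (summable_gauss_weights.mul_left (μ.real Set.univ))
    refine mul_le_mul (measureReal_mono (Set.subset_univ _)) ?_ (Real.exp_pos _).le measureReal_nonneg
    exact le_mul_of_one_le_right (Real.exp_pos _).le (le_add_of_nonneg_left (Nat.cast_nonneg j))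
  have hpt : ∀ y, Summable fun j => F j y := fun y =>
    Summable.of_nonneg_of_le (fun j => Set.indicator_nonneg (fun _ _ => (Real.exp_pos _).le) y)
      (fun j => (Set.indicator_le_self' (fun _ _ => (Real.exp_pos _).le) y).trans
        (le_mul_of_one_le_right (Real.exp_pos _).le (le_add_of_nonneg_left (Nat.cast_nonneg j))))
      summable_gauss_weights
  have hti : Integrable (fun y => ∑' j, F j y) μ := by
    refine Integrable.of_bound (C := ∑' j : ℕ, Real.exp (-(j : ℝ) ^ 2) * ((j : ℝ) + 1)) ?_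
      (Eventually.of_forall fun y => ?_)
    · exact aestronglyMeasurable_of_tendsto_ae atTop
        (fun s => Finset.aestronglyMeasurable_fun_sum s fun j _ => (hFi j).1)
        (Eventually.of_forall fun y => (hpt y).hasSum)
    · rw [Real.norm_of_nonneg (tsum_nonneg fun j =>
        Set.indicator_nonneg (fun _ _ => (Real.exp_pos _).le) y)]
      exact (hpt y).tsum_le_tsum (fun j => (Set.indicator_le_self' (fun _ _ => (Real.exp_pos _).le) y).trans
        (le_mul_of_one_le_right (Real.exp_pos _).le (le_add_of_nonneg_left (Nat.cast_nonneg j))))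
        summable_gauss_weights
  have hle : ∫ y, Real.exp (-(dist x y / ρ) ^ 2) ∂μ ≤ ∫ y, ∑' j, F j y ∂μ := by
    refine integral_mono (Integrable.of_bound (C := 1) (Continuous.aestronglyMeasurable
      (by fun_prop)) (Eventually.of_forall fun y => ?_)) hti fun y => ?_
    · rw [Real.norm_of_nonneg (Real.exp_pos _).le]
      exact Real.exp_le_one_iff.2 (neg_nonpos.2 (sq_nonneg _))
    · set j := ⌊dist x y / ρ⌋₊ with hj
      have h1 : (j : ℝ) ≤ dist x y / ρ := Nat.floor_le (div_nonneg dist_nonneg hρ.le)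
      have h2 : dist x y / ρ < (j : ℝ) + 1 := Nat.lt_floor_add_one _
      refine le_trans ?_ ((hpt y).le_tsum j fun i _ =>
        Set.indicator_nonneg (fun _ _ => (Real.exp_pos _).le) y)
      rw [hF]
      simp only
      rw [Set.indicator_of_mem (by rw [Metric.mem_ball, dist_comm]; exact (div_lt_iff₀ hρ).1 h2)]
      exact Real.exp_le_exp.2 (neg_le_neg (pow_le_pow_left₀ (Nat.cast_nonneg j) h1 2))
  rw [← integral_tsum_of_summable_integral_norm hFi hsum] at hle
  refine (mul_le_mul_of_nonneg_left hle (inv_nonneg.2 hρ.le)).trans_eq ?_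
  rw [← tsum_mul_left]
  refine tsum_congr fun j => ?_
  rw [hval]
  have hj : (j : ℝ) + 1 ≠ 0 := by positivity
  field_simp

lemma gauss_le {G : ℝ} (hg : ∀ y r, 0 < r → μ.real (Metric.ball y r) ≤ G * r) {ρ : ℝ} (hρ : 0 < ρ)
    (x : T3) : gauss μ ρ x ≤ G * ∑' j : ℕ, Real.exp (-(j : ℝ) ^ 2) * ((j : ℝ) + 1) := by
  refine (gauss_le_tsum μ hρ x).trans ?_
  rw [← tsum_mul_left]
  have hj : ∀ j : ℕ, 0 < ((j : ℝ) + 1) * ρ := fun j => by positivity
  have hle : ∀ j : ℕ, Real.exp (-(j : ℝ) ^ 2) * ((j : ℝ) + 1) *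
      (μ.real (Metric.ball x (((j : ℝ) + 1) * ρ)) / (((j : ℝ) + 1) * ρ)) ≤
      G * (Real.exp (-(j : ℝ) ^ 2) * ((j : ℝ) + 1)) := fun j => by
    rw [mul_comm G]
    exact mul_le_mul_of_nonneg_left ((div_le_iff₀ (hj j)).2 (hg x _ (hj j))) (by positivity)
  exact Summable.tsum_le_tsum hle (Summable.of_nonneg_of_le (fun j => by positivity) hle
    (summable_gauss_weights.mul_left G)) (summable_gauss_weights.mul_left G)

lemma gauss_tendsto {G : ℝ} (hg : ∀ y r, 0 < r → μ.real (Metric.ball y r) ≤ G * r) {x : T3}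
    (hx : Tendsto (fun r => μ.real (Metric.ball x r) / r) (𝓝[>] 0) (𝓝 0)) :
    Tendsto (fun ρ => gauss μ ρ x) (𝓝[>] 0) (𝓝 0) := by
  have hT : Tendsto (fun ρ : ℝ => ∑' j : ℕ, Real.exp (-(j : ℝ) ^ 2) * ((j : ℝ) + 1) *
      (μ.real (Metric.ball x (((j : ℝ) + 1) * ρ)) / (((j : ℝ) + 1) * ρ))) (𝓝[>] 0)
      (𝓝 (∑' _j : ℕ, (0 : ℝ))) := by
    refine tendsto_tsum_of_dominated_convergence
      (bound := fun j : ℕ => G * (Real.exp (-(j : ℝ) ^ 2) * ((j : ℝ) + 1)))
      (summable_gauss_weights.mul_left G) (fun j => ?_) ?_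
    · have hs : Tendsto (fun ρ : ℝ => ((j : ℝ) + 1) * ρ) (𝓝[>] 0) (𝓝[>] 0) := by
        refine tendsto_nhdsWithin_iff.2 ⟨?_, ?_⟩
        · exact tendsto_nhdsWithin_of_tendsto_nhds (Continuous.tendsto' (by fun_prop) _ _ (by simp))
        · filter_upwards [self_mem_nhdsWithin] with ρ hρ
          exact mul_pos (by positivity) (Set.mem_Ioi.1 hρ)
      simpa using (hx.comp hs).const_mul (Real.exp (-(j : ℝ) ^ 2) * ((j : ℝ) + 1))
    · filter_upwards [self_mem_nhdsWithin] with ρ hρ j
      have hj : 0 < ((j : ℝ) + 1) * ρ := mul_pos (by positivity) (Set.mem_Ioi.1 hρ)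
      rw [Real.norm_of_nonneg (by positivity), mul_comm G]
      exact mul_le_mul_of_nonneg_left ((div_le_iff₀ hj).2 (hg x _ hj)) (by positivity)
  rw [tsum_zero] at hT
  refine tendsto_of_tendsto_of_tendsto_of_le_of_le' tendsto_const_nhds hT ?_ ?_
  · filter_upwards [self_mem_nhdsWithin] with ρ hρ using gauss_nonneg μ hρ x
  · filter_upwards [self_mem_nhdsWithin] with ρ hρ using gauss_le_tsum μ hρ x

lemma gauss_stronglyMeasurable (ρ : ℝ) : StronglyMeasurable (gauss μ ρ) := by
  refine (StronglyMeasurable.integral_prod_right (ν := μ) (f := fun x y : T3 =>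
    Real.exp (-(dist x y / ρ) ^ 2)) ?_).const_mul _
  exact Continuous.stronglyMeasurable (by fun_prop)

end Vale.Agent.P204
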