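import Vale.Agent.P204.Defs
import Vale.Agent.P204.Seq
import Vale.Agent.P204.Kernel

/-!
Weighted energies of measures on the torus, through positive kernels.
-/

open MeasureTheory Filter Topology
open scoped ENNReal

namespace Vale.Agent.P204

lemma dist_T3_le_one (x y : T3) : dist x y ≤ 1 := by
  rw [dist_eq_norm]
  refine (pi_norm_le_iff_of_nonneg zero_le_one).2 fun i => ?_
  exact (AddCircle.norm_le_half_period (1 : ℝ) one_ne_zero).trans (by norm_num)

lemma sz_of_le {σ : ℝ} (hσ : 0 < σ) (h : σ ≤ 1) : sz σ = 1 / √σ := by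
  refine max_eq_left ?_
  rw [le_div_iff₀ (Real.sqrt_pos.2 hσ), one_mul]
  exact Real.sqrt_le_one.2 h

lemma sz_of_ge {σ : ℝ} (h : 1 ≤ σ) : sz σ = 1 := by
  refine max_eq_right ?_
  rw [div_le_one (Real.sqrt_pos.2 (by linarith))]
  exact Real.one_le_sqrt.2 h

/-- The bounds on the kernel used below. -/
lemma kernel_bounds : ∃ A : ℝ, 0 ≤ A ∧
    (∀ σ : ℝ, 0 < σ → σ ≤ 1 → ∀ x y : T3,
      th3 σ (y - x) * dist x y ^ 2 ≤ A * ((√σ)⁻¹ * Real.exp (-(dist x y / √σ) ^ 2))) ∧
    (∀ σ : ℝ, 0 < σ → σ ≤ 1 → ∀ x y : T3,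
      th3 σ (y - x) ≤ A / σ * ((√σ)⁻¹ * Real.exp (-(dist x y / √σ) ^ 2))) ∧
    (∀ σ : ℝ, 1 ≤ σ → ∀ z : T3, th3 σ z ≤ A) ∧
    (∀ σ : ℝ, 0 < σ → ∀ x y : T3, th3 σ (y - x) * dist x y ^ 2 ≤ A * ((√σ)⁻¹ + 1)) := by
  obtain ⟨A, A0, hA⟩ := th3_le
  have h3 : ∀ σ : ℝ, 1 ≤ σ → ∀ z : T3, th3 σ z ≤ A := fun σ hσ z => by
    refine (hA σ (by linarith) z).trans ?_
    rw [sz_of_ge hσ, one_pow, mul_one]
    exact mul_le_of_le_one_right A0 (Real.exp_le_one_iff.2
      (neg_nonpos.2 (div_nonneg (by positivity) (by linarith))))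
  have key : ∀ σ : ℝ, 0 < σ → σ ≤ 1 → ∀ x y : T3, th3 σ (y - x) ≤
      A / σ * (√σ)⁻¹ * Real.exp (-(Real.pi ^ 2 * (dist x y / √σ) ^ 2)) := fun σ h0 h1 x y => by
    refine (hA σ h0 _).trans_eq ?_
    have hs : √σ ^ 2 = σ := Real.sq_sqrt h0.le
    have hne : √σ ≠ 0 := (Real.sqrt_pos.2 h0).ne'
    rw [sz_of_le h0 h1, dist_comm x y, dist_eq_norm,
      show (‖y - x‖ / √σ) ^ 2 = ‖y - x‖ ^ 2 / σ by rw [div_pow, hs], mul_div_assoc]
    congr 1
    field_simp
    rw [hs]
  have pi9 : 9 ≤ Real.pi ^ 2 := by nlinarith [Real.pi_gt_three]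
  have h1 : ∀ σ : ℝ, 0 < σ → σ ≤ 1 → ∀ x y : T3,
      th3 σ (y - x) * dist x y ^ 2 ≤ A * ((√σ)⁻¹ * Real.exp (-(dist x y / √σ) ^ 2)) :=
    fun σ h0 hσ x y => by
      set u := (dist x y / √σ) ^ 2 with hu
      have u0 : 0 ≤ u := sq_nonneg _
      have hd : dist x y ^ 2 = σ * u := by
        rw [hu, div_pow, Real.sq_sqrt h0.le]; field_simp
      have hue : u * Real.exp (-(Real.pi ^ 2 * u)) ≤ Real.exp (-u) := by
        calc u * Real.exp (-(Real.pi ^ 2 * u))
            ≤ Real.exp u * Real.exp (-(Real.pi ^ 2 * u)) :=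
              mul_le_mul_of_nonneg_right (by linarith [Real.add_one_le_exp u]) (Real.exp_pos _).le
          _ ≤ Real.exp (-u) := by
              rw [← Real.exp_add]
              exact Real.exp_le_exp.2 (by nlinarith)
      calc th3 σ (y - x) * dist x y ^ 2
          ≤ A / σ * (√σ)⁻¹ * Real.exp (-(Real.pi ^ 2 * u)) * dist x y ^ 2 :=
            mul_le_mul_of_nonneg_right (key σ h0 hσ x y) (sq_nonneg _)
        _ = A * (√σ)⁻¹ * (u * Real.exp (-(Real.pi ^ 2 * u))) := by rw [hd]; field_simp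
        _ ≤ A * (√σ)⁻¹ * Real.exp (-u) := mul_le_mul_of_nonneg_left hue (by positivity)
        _ = _ := by ring
  refine ⟨A, A0, h1, fun σ h0 hσ x y => ?_, h3, fun σ h0 x y => ?_⟩
  · refine (key σ h0 hσ x y).trans ?_
    rw [mul_assoc]
    refine mul_le_mul_of_nonneg_left (mul_le_mul_of_nonneg_left (Real.exp_le_exp.2 ?_)
      (by positivity)) (by positivity)
    nlinarith [sq_nonneg (dist x y / √σ)]
  · rcases le_total σ 1 with c | c
    · refine (h1 σ h0 c x y).trans (mul_le_mul_of_nonneg_left ?_ A0)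
      exact (mul_le_of_le_one_right (by positivity) (Real.exp_le_one_iff.2
        (neg_nonpos.2 (sq_nonneg _)))).trans (le_add_of_nonneg_right zero_le_one)
    · calc th3 σ (y - x) * dist x y ^ 2 ≤ A * 1 :=
            mul_le_mul (h3 σ c _) (pow_le_one₀ dist_nonneg (dist_T3_le_one x y)) (sq_nonneg _) A0
        _ ≤ A * ((√σ)⁻¹ + 1) :=
            mul_le_mul_of_nonneg_left (le_add_of_nonneg_left (by positivity)) A0

/-- The measure of one averaging parameter. -/
noncomputable abbrev halfLine : Measure ℝ := volume.restrict (Set.Ioi (0 : ℝ))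

lemma halfLine_pos : ∀ᵐ a ∂halfLine, 0 < a := ae_restrict_mem measurableSet_Ioi

lemma halfLine_integrable (n : ℕ) : Integrable (fun a : ℝ => Real.exp (-a) * a ^ n) halfLine := by
  have h := Real.GammaIntegral_convergent (s := (n : ℝ) + 1) (by positivity)
  refine Integrable.congr h ?_
  filter_upwards with a
  rw [add_sub_cancel_right, Real.rpow_natCast]

lemma halfLine_integrable_inv_sqrt :
    Integrable (fun a : ℝ => Real.exp (-a) * (√a)⁻¹) halfLine := by
  have h := Real.GammaIntegral_convergent (s := 1 / 2) (by norm_num)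
  refine Integrable.congr h ?_
  filter_upwards [halfLine_pos] with a ha
  rw [Real.sqrt_eq_rpow, ← Real.rpow_neg ha.le]
  norm_num

lemma halfLine_gamma (n : ℕ) {r : ℝ} (hr : 0 < r) :
    ∫ a, a ^ n * Real.exp (-(r * a)) ∂halfLine = (1 / r) ^ (n + 1) * n.factorial := by
  have h := Real.integral_rpow_mul_exp_neg_mul_Ioi (a := (n : ℝ) + 1) (by positivity) hr
  simp only [add_sub_cancel_right, Real.rpow_natCast, Real.Gamma_nat_eq_factorial] at h
  rw [h, ← Nat.cast_add_one, Real.rpow_natCast]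

lemma summable_N1 {δ : ℝ} (hδ : δ ∈ Set.Ioc (0 : ℝ) 1) : Summable (N1 δ) := by
  refine Summable.of_nonneg_of_le (fun k => ?_) (fun k => ?_) (summable_wt_inv.mul_left δ⁻¹)
  · have := one_le_wt k
    exact inv_nonneg.2 (mul_nonneg (by linarith) (by nlinarith [hδ.1]))
  · have := one_le_wt k
    rw [N1, ← mul_inv]
    exact inv_anti₀ (by have := hδ.1; positivity) (by nlinarith [hδ.1, hδ.2])

lemma summable_N3 {h : ℝ} (hh : h ∈ Set.Ioc (0 : ℝ) 1) : Summable (N3 h) := by
  refine Summable.of_nonneg_of_le (fun k => ?_) (fun k => ?_) (summable_wt_inv.mul_left (h ^ 2)⁻¹)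
  · have := one_le_wt k
    exact inv_nonneg.2 (pow_nonneg (by nlinarith [hh.1]) 3)
  · have hw := one_le_wt k
    have := hh.1
    have h1 : h * wt k ≤ 1 + h * (wt k - 1) := by nlinarith [hh.2]
    rw [N3, ← mul_inv, ← mul_pow]
    refine inv_anti₀ (by positivity) ?_
    calc (h * wt k) ^ 2 ≤ (1 + h * (wt k - 1)) ^ 2 := pow_le_pow_left₀ (by positivity) h1 2
      _ ≤ (1 + h * (wt k - 1)) ^ 3 :=
          pow_le_pow_right₀ (by nlinarith) (by norm_num)

lemma N3_mix {h : ℝ} (hh : 0 < h) (k : Idx) :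
    N3 h k = ∫ a, a ^ 2 * Real.exp (-a) / 2 * heat (h * a) k ∂halfLine := by
  have hw := one_le_wt k
  have e : (fun a : ℝ => a ^ 2 * Real.exp (-a) / 2 * heat (h * a) k) =
      fun a => 2⁻¹ * (a ^ 2 * Real.exp (-((1 + h * (wt k - 1)) * a))) := by
    funext a
    rw [heat, show -((1 + h * (wt k - 1)) * a) = -a + -(h * a * (wt k - 1)) by ring, Real.exp_add]
    ring
  rw [e, integral_const_mul, halfLine_gamma 2 (by nlinarith), N3, one_div, inv_pow]
  norm_num [Nat.factorial]
  ring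

theorem energy_N1_lower (s : ℝ) (μ : Measure T3) [IsFiniteMeasure μ] {t : T3 → F6}
    (ht : Measurable t) {R : ℝ} (hR : ∀ x, ‖t x‖ ≤ R) {C : ℝ}
    (hq : ∀ x y, -(C * dist x y ^ 2) ≤ qR s (t x) (t y)) :
    ∃ C' : ℝ, ∀ δ ∈ Set.Ioc (0 : ℝ) 1,
      -C' ≤ ∑' k, N1 δ k * (qC s (cf μ t k) (cf μ t k)).re := by
  obtain ⟨A, A0, -, -, -, hA⟩ := kernel_bounds
  set m := halfLine.prod halfLine
  set M := (μ.prod μ).real Set.univ with hM
  set K := max C 0 * A * M with hK
  have K0 : 0 ≤ K := mul_nonneg (mul_nonneg (le_max_right _ _) A0) measureReal_nonneg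
  have i1 : Integrable (fun z : ℝ × ℝ =>
      Real.exp (-z.1) * (√z.1)⁻¹ * Real.exp (-z.2)) m := by
    simpa using halfLine_integrable_inv_sqrt.mul_prod (halfLine_integrable 0)
  have i0 : Integrable (fun z : ℝ × ℝ => Real.exp (-z.1) * Real.exp (-z.2)) m := by
    simpa using (halfLine_integrable 0).mul_prod (halfLine_integrable 0)
  refine ⟨K * ((∫ z, Real.exp (-z.1) * (√z.1)⁻¹ * Real.exp (-z.2) ∂m) +
    ∫ z, Real.exp (-z.1) * Real.exp (-z.2) ∂m), fun δ hδ => ?_⟩
  have hpos : ∀ᵐ z ∂m, 0 < z.1 ∧ 0 < z.2 :=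
    (Measure.quasiMeasurePreserving_fst.ae halfLine_pos).and
      (Measure.quasiMeasurePreserving_snd.ae halfLine_pos)
  have hN : ∀ k, N1 δ k =
      ∫ z, Real.exp (-z.1) * Real.exp (-z.2) * heat (z.1 + δ * z.2) k ∂m := fun k => by
    have hw := one_le_wt k
    have e : (fun z : ℝ × ℝ => Real.exp (-z.1) * Real.exp (-z.2) * heat (z.1 + δ * z.2) k) =
        fun z => z.1 ^ 0 * Real.exp (-(wt k * z.1)) *
          (z.2 ^ 0 * Real.exp (-((1 + δ * (wt k - 1)) * z.2))) := by
      funext z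
      rw [heat, pow_zero, pow_zero, one_mul, one_mul, ← Real.exp_add, ← Real.exp_add, ← Real.exp_add]
      congr 1; ring
    rw [e, integral_prod_mul (fun a => a ^ 0 * Real.exp (-(wt k * a)))
      (fun b => b ^ 0 * Real.exp (-((1 + δ * (wt k - 1)) * b))), halfLine_gamma 0 (by linarith),
      halfLine_gamma 0 (by nlinarith [hδ.1]), N1]
    simp [mul_comm]
  have hσ : ∀ᵐ z ∂m, 0 < z.1 + δ * z.2 := hpos.mono fun z hz => by nlinarith [hδ.1, hz.1, hz.2]
  obtain ⟨hI, heq⟩ := energy_mix μ m (σ := fun z => z.1 + δ * z.2) hσ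
    (Eventually.of_forall fun z => (mul_pos (Real.exp_pos (-z.1)) (Real.exp_pos (-z.2))).le) i0
    (by fun_prop) hN (summable_N1 hδ) ht hR s (fun i => i + 3)
  simp only [qC_re_eq_bilF]
  rw [heq, ← integral_add i1 i0, ← integral_const_mul, ← integral_neg]
  refine integral_mono_ae ((i1.add i0).const_mul K).neg hI ?_
  filter_upwards [hpos] with z hz
  have hs : 0 < z.1 + δ * z.2 := by nlinarith [hδ.1, hz.1, hz.2]
  set σ := z.1 + δ * z.2
  have hE : -(K * ((√z.1)⁻¹ + 1)) ≤ energy μ t s (fun i => i + 3) σ := by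
    have h1 : -(K * ((√σ)⁻¹ + 1)) ≤ energy μ t s (fun i => i + 3) σ := by
      have hlow : ∀ w : T3 × T3, -(max C 0 * (A * ((√σ)⁻¹ + 1))) ≤
          th3 σ (w.2 - w.1) * bil s (fun i => i + 3) (t w.1) (t w.2) := fun w => by
        rw [← qR_eq_bil]
        nlinarith [mul_le_mul_of_nonneg_left (hq w.1 w.2) (th3_nonneg hs (w.2 - w.1)),
          mul_le_mul_of_nonneg_left (hA σ hs w.1 w.2) (le_max_right C 0),
          mul_le_mul_of_nonneg_right (le_max_left C 0)
            (mul_nonneg (th3_nonneg hs (w.2 - w.1)) (sq_nonneg (dist w.1 w.2)))]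
      refine le_trans ?_ (integral_mono (integrable_const _) (integrable_kernel μ ht hR s _ hs) hlow)
      rw [integral_const, smul_eq_mul, hK, hM]
      exact le_of_eq (by ring)
    refine le_trans (neg_le_neg (mul_le_mul_of_nonneg_left (add_le_add ?_ le_rfl) K0)) h1
    exact inv_anti₀ (Real.sqrt_pos.2 hz.1) (Real.sqrt_le_sqrt (by nlinarith [hδ.1, hz.2]))
  calc -(K * (Real.exp (-z.1) * (√z.1)⁻¹ * Real.exp (-z.2) + Real.exp (-z.1) * Real.exp (-z.2)))
      = Real.exp (-z.1) * Real.exp (-z.2) * -(K * ((√z.1)⁻¹ + 1)) := by ring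
    _ ≤ _ := mul_le_mul_of_nonneg_left hE (by positivity)

theorem energy_N3_upper (μ : Measure T3) [IsFiniteMeasure μ] {t : T3 → F6}
    (ht : Measurable t) {R : ℝ} (hR : ∀ x, ‖t x‖ ≤ R) {G : ℝ}
    (hg : ∀ y r, 0 < r → μ.real (Metric.ball y r) ≤ G * r) :
    ∃ C : ℝ, ∀ h ∈ Set.Ioc (0 : ℝ) 1, ∑' k, h * N3 h k * ‖cf μ t k‖ ^ 2 ≤ C := by
  obtain ⟨A, A0, -, hA2, hA3, -⟩ := kernel_bounds
  set S := ∑' j : ℕ, Real.exp (-(j : ℝ) ^ 2) * ((j : ℝ) + 1) with hS
  have S0 : 0 ≤ S := tsum_nonneg fun j => by positivity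
  have G0 : 0 ≤ G := by
    have := hg 0 1 one_pos
    rw [mul_one] at this
    exact measureReal_nonneg.trans this
  set K := 6 * R ^ 2 * A * μ.real Set.univ * (G * S + μ.real Set.univ) with hK
  have K0 : 0 ≤ K := by positivity
  have hE : ∀ σ : ℝ, 0 < σ → energy μ t 1 id σ ≤ K * (σ⁻¹ + 1) := fun σ hσ => by
    have hk : ∀ x, ∫ y, th3 σ (y - x) ∂μ ≤ A * (G * S + μ.real Set.univ) * (σ⁻¹ + 1) := fun x => by
      have hi : Integrable (fun y => th3 σ (y - x)) μ :=
        ((th3_continuous hσ).comp (continuous_id.sub continuous_const)).integrable_of_hasCompactSupport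
          (HasCompactSupport.of_compactSpace _)
      rcases le_total σ 1 with c | c
      · calc ∫ y, th3 σ (y - x) ∂μ
            ≤ ∫ y, A / σ * ((√σ)⁻¹ * Real.exp (-(dist x y / √σ) ^ 2)) ∂μ := by
              refine integral_mono hi ?_ fun y => hA2 σ hσ c x y
              exact (Continuous.integrable_of_hasCompactSupport (by fun_prop)
                (HasCompactSupport.of_compactSpace _))
          _ = A / σ * gauss μ (√σ) x := by rw [integral_const_mul, integral_const_mul]; rfl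
          _ ≤ A / σ * (G * S) := mul_le_mul_of_nonneg_left
              (gauss_le μ hg (Real.sqrt_pos.2 hσ) x) (by positivity)
          _ ≤ _ := by
              rw [div_eq_mul_inv]
              nlinarith [mul_nonneg A0 (mul_nonneg G0 S0), (measureReal_nonneg : 0 ≤ μ.real Set.univ),
                mul_nonneg A0 (mul_nonneg (inv_nonneg.2 hσ.le)
                  (measureReal_nonneg : 0 ≤ μ.real Set.univ)),
                mul_nonneg A0 (measureReal_nonneg : 0 ≤ μ.real Set.univ)]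
      · calc ∫ y, th3 σ (y - x) ∂μ ≤ ∫ _y, A ∂μ :=
              integral_mono hi (integrable_const _) fun y => hA3 σ c _
          _ = A * μ.real Set.univ * 1 := by rw [integral_const, smul_eq_mul, mul_one, mul_comm]
          _ ≤ A * (G * S + μ.real Set.univ) * (σ⁻¹ + 1) :=
              mul_le_mul (mul_le_mul_of_nonneg_left (le_add_of_nonneg_left (by positivity)) A0)
                (le_add_of_nonneg_left (by positivity)) zero_le_one (by positivity)
    have hi2 : Integrable (fun z : T3 × T3 => th3 σ (z.2 - z.1)) (μ.prod μ) :=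
      ((th3_continuous hσ).comp (continuous_snd.sub continuous_fst)).integrable_of_hasCompactSupport
        (HasCompactSupport.of_compactSpace _)
    calc energy μ t 1 id σ ≤ ∫ z, th3 σ (z.2 - z.1) * (6 * R ^ 2) ∂μ.prod μ := by
          refine integral_mono (integrable_kernel μ ht hR 1 id hσ) (hi2.mul_const _) fun z =>
            mul_le_mul_of_nonneg_left ?_ (th3_nonneg hσ _)
          exact (le_abs_self _).trans ((abs_bil_le id (hR _) (hR _)).trans_eq (by simp))
      _ = (∫ x, ∫ y, th3 σ (y - x) ∂μ ∂μ) * (6 * R ^ 2) := by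
          rw [integral_mul_const, integral_prod _ hi2]
      _ ≤ (∫ _x, A * (G * S + μ.real Set.univ) * (σ⁻¹ + 1) ∂μ) * (6 * R ^ 2) :=
          mul_le_mul_of_nonneg_right (integral_mono hi2.integral_prod_left (integrable_const _) hk)
            (by positivity)
      _ = K * (σ⁻¹ + 1) := by rw [integral_const, smul_eq_mul, hK]; ring
  have iw : Integrable (fun a : ℝ => a ^ 2 * Real.exp (-a) / 2) halfLine :=
    ((halfLine_integrable 2).congr (Eventually.of_forall fun a => mul_comm _ _)).div_const 2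
  have iv : Integrable (fun a : ℝ => Real.exp (-a) * a / 2 + a ^ 2 * Real.exp (-a) / 2) halfLine :=
    (((halfLine_integrable 1).congr (Eventually.of_forall fun a => by simp)).div_const 2).add iw
  refine ⟨K * ∫ a, (Real.exp (-a) * a / 2 + a ^ 2 * Real.exp (-a) / 2) ∂halfLine, fun h hh => ?_⟩
  have hh0 := hh.1
  obtain ⟨hI, heq⟩ := energy_mix μ halfLine (σ := fun a => h * a)
    (halfLine_pos.mono fun a ha => mul_pos hh0 ha)
    (halfLine_pos.mono fun a _ => by positivity) iw (by fun_prop) (N3_mix hh0) (summable_N3 hh)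
    ht hR 1 id
  simp only [norm_sq_eq_bilF, mul_assoc]
  rw [tsum_mul_left, heq, ← integral_const_mul, ← integral_const_mul]
  refine integral_mono_ae (hI.const_mul h) (iv.const_mul K) ?_
  filter_upwards [halfLine_pos] with a ha
  calc h * (a ^ 2 * Real.exp (-a) / 2 * energy μ t 1 id (h * a))
      ≤ h * (a ^ 2 * Real.exp (-a) / 2 * (K * ((h * a)⁻¹ + 1))) :=
        mul_le_mul_of_nonneg_left (mul_le_mul_of_nonneg_left (hE _ (mul_pos hh0 ha))
          (by positivity)) hh0.le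
    _ = K * (Real.exp (-a) * a / 2 + h * (a ^ 2 * Real.exp (-a) / 2)) := by field_simp
    _ ≤ _ := mul_le_mul_of_nonneg_left (add_le_add le_rfl
        (mul_le_of_le_one_left (by positivity) hh.2)) K0

theorem energy_N3_bdd (s : ℝ) (μ : Measure T3) [IsFiniteMeasure μ] {t : T3 → F6}
    (ht : Measurable t) {R : ℝ} (hR : ∀ x, ‖t x‖ ≤ R) {C : ℝ}
    (hq : ∀ x y, -(C * dist x y ^ 2) ≤ qR s (t x) (t y)) {G : ℝ}
    (hg : ∀ y r, 0 < r → μ.real (Metric.ball y r) ≤ G * r) :
    ∃ C' : ℝ, ∀ h ∈ Set.Ioc (0 : ℝ) 1,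
      -C' ≤ ∑' k, N3 h k * (qC s (cf μ t k) (cf μ t k)).re := by
  obtain ⟨A, A0, hA1, -, -, hA4⟩ := kernel_bounds
  set S := ∑' j : ℕ, Real.exp (-(j : ℝ) ^ 2) * ((j : ℝ) + 1) with hS
  set D := max C 0 with hD
  have D0 : 0 ≤ D := le_max_right _ _
  set K := D * A * (μ.real Set.univ * (G * S) + (μ.prod μ).real Set.univ * 2) with hK
  refine ⟨K, fun h hh => ?_⟩
  have hE : ∀ σ : ℝ, 0 < σ → -K ≤ energy μ t s (fun i => i + 3) σ := fun σ hσ => by
    set κ : T3 × T3 → ℝ := fun z => (√σ)⁻¹ * Real.exp (-(dist z.1 z.2 / √σ) ^ 2) with hκ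
    have hκc : Continuous κ := by rw [hκ]; fun_prop
    have hκi : Integrable κ (μ.prod μ) :=
      hκc.integrable_of_hasCompactSupport (HasCompactSupport.of_compactSpace _)
    have hlow : ∀ z : T3 × T3, -(D * A * (κ z + 2)) ≤
        th3 σ (z.2 - z.1) * bil s (fun i => i + 3) (t z.1) (t z.2) := fun z => by
      rw [← qR_eq_bil]
      have k0 : 0 ≤ κ z := by positivity
      have hb : th3 σ (z.2 - z.1) * dist z.1 z.2 ^ 2 ≤ A * (κ z + 2) := by
        rcases le_total σ 1 with c | c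
        · exact (hA1 σ hσ c z.1 z.2).trans (mul_le_mul_of_nonneg_left (by linarith) A0)
        · have := inv_le_one_of_one_le₀ (Real.one_le_sqrt.2 c)
          exact (hA4 σ hσ z.1 z.2).trans (mul_le_mul_of_nonneg_left (by linarith) A0)
      nlinarith [mul_le_mul_of_nonneg_left (hq z.1 z.2) (th3_nonneg hσ (z.2 - z.1)),
        mul_le_mul_of_nonneg_right (le_max_left C 0)
          (mul_nonneg (th3_nonneg hσ (z.2 - z.1)) (sq_nonneg (dist z.1 z.2))),
        mul_le_mul_of_nonneg_left hb D0]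
    have e : ∫ z, κ z ∂μ.prod μ ≤ μ.real Set.univ * (G * S) := by
      rw [integral_prod _ hκi]
      refine (integral_mono hκi.integral_prod_left (integrable_const _) fun x => ?_).trans_eq
        (by rw [integral_const, smul_eq_mul])
      rw [integral_const_mul]
      exact gauss_le μ hg (Real.sqrt_pos.2 hσ) x
    refine le_trans ?_ (integral_mono ((hκi.add (integrable_const 2)).const_mul _).neg
      (integrable_kernel μ ht hR s _ hσ) hlow)
    simp only [Pi.neg_apply, Pi.add_apply]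
    rw [integral_neg, integral_const_mul, integral_add hκi (integrable_const _), integral_const,
      smul_eq_mul, hK]
    exact neg_le_neg (mul_le_mul_of_nonneg_left (by linarith) (mul_nonneg D0 A0))
  have iw : Integrable (fun a : ℝ => a ^ 2 * Real.exp (-a) / 2) halfLine :=
    ((halfLine_integrable 2).congr (Eventually.of_forall fun a => mul_comm _ _)).div_const 2
  have g2 : ∫ a, a ^ 2 * Real.exp (-a) / 2 ∂halfLine = 1 := by
    have := halfLine_gamma 2 one_pos
    simp only [one_mul] at this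
    rw [integral_div, this]; norm_num [Nat.factorial]
  obtain ⟨hI, heq⟩ := energy_mix μ halfLine (σ := fun a => h * a)
    (halfLine_pos.mono fun a ha => mul_pos hh.1 ha)
    (halfLine_pos.mono fun a _ => by positivity) iw (by fun_prop) (N3_mix hh.1)
    (summable_N3 hh) ht hR s (fun i => i + 3)
  simp only [qC_re_eq_bilF]
  rw [heq, ← mul_one (-K), ← g2, ← integral_const_mul]
  refine integral_mono_ae (iw.const_mul _) hI ?_
  filter_upwards [halfLine_pos] with a ha
  rw [mul_comm (-K)]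
  exact mul_le_mul_of_nonneg_left (hE _ (mul_pos hh.1 ha)) (by positivity)

theorem energy_N3_lower (s : ℝ) (μ : Measure T3) [IsFiniteMeasure μ] {t : T3 → F6}
    (ht : Measurable t) {R : ℝ} (hR : ∀ x, ‖t x‖ ≤ R) {C : ℝ}
    (hq : ∀ x y, -(C * dist x y ^ 2) ≤ qR s (t x) (t y)) {G : ℝ}
    (hg : ∀ y r, 0 < r → μ.real (Metric.ball y r) ≤ G * r) {Z : Set T3} (hZ : MeasurableSet Z)
    (hZq : ∀ x ∈ Z, ∀ y ∈ Z, 0 ≤ qR s (t x) (t y))
    (hlim : ∀ᵐ x ∂μ, x ∉ Z →
      Tendsto (fun r => μ.real (Metric.ball x r) / r) (𝓝[>] 0) (𝓝 0)) :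
    ∀ η > 0, ∀ᶠ h in 𝓝[>] (0 : ℝ), -η ≤ ∑' k, N3 h k * (qC s (cf μ t k) (cf μ t k)).re := by
  intro η hη
  obtain ⟨A, A0, hA1, -, -, hA4⟩ := kernel_bounds
  set S := ∑' j : ℕ, Real.exp (-(j : ℝ) ^ 2) * ((j : ℝ) + 1) with hS
  set D := max C 0 with hD
  have D0 : 0 ≤ D := le_max_right _ _
  -- the averages over the complement tend to zero
  have he : Tendsto (fun σ => ∫ x in Zᶜ, gauss μ (√σ) x ∂μ) (𝓝[>] 0) (𝓝 0) := by
    have hs : Tendsto (fun σ : ℝ => √σ) (𝓝[>] 0) (𝓝[>] 0) := by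
      refine tendsto_nhdsWithin_iff.2 ⟨tendsto_nhdsWithin_of_tendsto_nhds
        (Continuous.tendsto' Real.continuous_sqrt _ _ Real.sqrt_zero), ?_⟩
      filter_upwards [self_mem_nhdsWithin] with σ hσ using Real.sqrt_pos.2 (Set.mem_Ioi.1 hσ)
    have := tendsto_integral_filter_of_norm_le_const (μ := μ.restrict Zᶜ) (f := fun _ : T3 => (0 : ℝ))
      (F := fun σ x => gauss μ (√σ) x) (l := 𝓝[>] (0 : ℝ))
      (Eventually.of_forall fun σ => (gauss_stronglyMeasurable μ _).aestronglyMeasurable)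
      ⟨G * S, by
        filter_upwards [self_mem_nhdsWithin] with σ hσ
        refine Eventually.of_forall fun x => ?_
        rw [Real.norm_of_nonneg (gauss_nonneg μ (Real.sqrt_pos.2 (Set.mem_Ioi.1 hσ)) x)]
        exact gauss_le μ hg (Real.sqrt_pos.2 (Set.mem_Ioi.1 hσ)) x⟩
      ((ae_restrict_iff' hZ.compl).2 (hlim.mono fun x hx hxZ =>
        (gauss_tendsto μ hg (hx hxZ)).comp hs))
    simpa using this
  set η' := η / 4 with hη'
  obtain ⟨σ₀, hσ₀, hsmall⟩ : ∃ σ₀ : ℝ, 0 < σ₀ ∧ ∀ σ ∈ Set.Ioo 0 σ₀, σ ≤ 1 ∧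
      2 * D * A * ∫ x in Zᶜ, gauss μ (√σ) x ∂μ ≤ η' := by
    have h1 := (he.const_mul (2 * D * A)).eventually_le_const (u := η') (by simp [hη', hη])
    have h2 : ∀ᶠ σ : ℝ in 𝓝[>] 0, σ ≤ 1 :=
      tendsto_nhdsWithin_of_tendsto_nhds tendsto_id |>.eventually (eventually_le_nhds one_pos)
    obtain ⟨σ₀, h0, h⟩ := (mem_nhdsGT_iff_exists_Ioo_subset).1 (h2.and h1)
    exact ⟨σ₀, h0, h⟩
  set C0 := D * A * ((√σ₀)⁻¹ + 1) * (μ.prod μ).real Set.univ / σ₀ with hC0
  have C00 : 0 ≤ C0 := by positivity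
  have hE : ∀ σ : ℝ, 0 < σ → -(η' + C0 * σ) ≤ energy μ t s (fun i => i + 3) σ := fun σ hσ => by
    rcases lt_or_ge σ σ₀ with c | c
    · obtain ⟨h1, h2⟩ := hsmall σ ⟨hσ, c⟩
      set κ : T3 × T3 → ℝ := fun z => (√σ)⁻¹ * Real.exp (-(dist z.1 z.2 / √σ) ^ 2) with hκ
      have hκc : Continuous κ := by rw [hκ]; fun_prop
      have hκi : Integrable κ (μ.prod μ) :=
        hκc.integrable_of_hasCompactSupport (HasCompactSupport.of_compactSpace _)
      set g₁ : T3 × T3 → ℝ := fun z => Zᶜ.indicator (fun _ => (1 : ℝ)) z.1 * κ z with hg1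
      set g₂ : T3 × T3 → ℝ := fun z => Zᶜ.indicator (fun _ => (1 : ℝ)) z.2 * κ z with hg2
      have hind : ∀ x : T3, 0 ≤ Zᶜ.indicator (fun _ => (1 : ℝ)) x ∧
          Zᶜ.indicator (fun _ => (1 : ℝ)) x ≤ 1 := fun x =>
        ⟨Set.indicator_nonneg (fun _ _ => zero_le_one) x,
          Set.indicator_le_self' (fun _ _ => zero_le_one) x⟩
      have hg1i : Integrable g₁ (μ.prod μ) :=
        hκi.bdd_mul (c := 1) (((measurable_const.indicator hZ.compl).comp measurable_fst).aestronglyMeasurable)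
          (Eventually.of_forall fun z => (Real.norm_of_nonneg (hind _).1).trans_le (hind _).2)
      have hg2i : Integrable g₂ (μ.prod μ) :=
        hκi.bdd_mul (c := 1) (((measurable_const.indicator hZ.compl).comp measurable_snd).aestronglyMeasurable)
          (Eventually.of_forall fun z => (Real.norm_of_nonneg (hind _).1).trans_le (hind _).2)
      have e1 : ∫ z, g₁ z ∂μ.prod μ = ∫ x in Zᶜ, gauss μ (√σ) x ∂μ := by
        rw [integral_prod _ hg1i, ← integral_indicator hZ.compl]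
        refine integral_congr_ae (Eventually.of_forall fun x => ?_)
        simp only [hg1, hκ, integral_const_mul, gauss]
        by_cases hx : x ∈ Zᶜ <;> simp [hx, gauss]
      have e2 : ∫ z, g₂ z ∂μ.prod μ = ∫ z, g₁ z ∂μ.prod μ := by
        rw [← integral_prod_swap]
        simp [hg1, hg2, hκ, dist_comm]
      have hlow : ∀ z : T3 × T3, -(D * A * (g₁ z + g₂ z)) ≤
          th3 σ (z.2 - z.1) * bil s (fun i => i + 3) (t z.1) (t z.2) := fun z => by
        rw [← qR_eq_bil]
        have k0 : 0 ≤ κ z := by positivity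
        by_cases hz : z.1 ∈ Z ∧ z.2 ∈ Z
        · refine le_trans (neg_nonpos.2 (mul_nonneg (mul_nonneg D0 A0) ?_))
            (mul_nonneg (th3_nonneg hσ _) (hZq _ hz.1 _ hz.2))
          exact add_nonneg (mul_nonneg (hind _).1 k0) (mul_nonneg (hind _).1 k0)
        · have hsum : κ z ≤ g₁ z + g₂ z := by
            rw [hg1, hg2]
            rcases not_and_or.1 hz with hz | hz
            · simp only [Set.indicator_of_mem (Set.mem_compl hz), one_mul]
              exact le_add_of_nonneg_right (mul_nonneg (hind _).1 k0)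
            · simp only [Set.indicator_of_mem (Set.mem_compl hz), one_mul]
              exact le_add_of_nonneg_left (mul_nonneg (hind _).1 k0)
          nlinarith [mul_le_mul_of_nonneg_left (hq z.1 z.2) (th3_nonneg hσ (z.2 - z.1)),
            mul_le_mul_of_nonneg_right (le_max_left C 0)
              (mul_nonneg (th3_nonneg hσ (z.2 - z.1)) (sq_nonneg (dist z.1 z.2))),
            mul_le_mul_of_nonneg_left (hA1 σ hσ h1 z.1 z.2) D0,
            mul_le_mul_of_nonneg_left hsum (mul_nonneg D0 A0)]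
      refine le_trans ?_ (integral_mono ((hg1i.add hg2i).const_mul _).neg
        (integrable_kernel μ ht hR s _ hσ) hlow)
      rw [show (-fun x => D * A * (g₁ + g₂) x) = fun z => -(D * A * (g₁ z + g₂ z)) from rfl,
        integral_neg, integral_const_mul, integral_add hg1i hg2i, e2, e1]
      nlinarith [mul_nonneg C00 hσ.le]
    · have hlow : ∀ z : T3 × T3, -(D * (A * ((√σ₀)⁻¹ + 1))) ≤
          th3 σ (z.2 - z.1) * bil s (fun i => i + 3) (t z.1) (t z.2) := fun z => by
        rw [← qR_eq_bil]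
        have := inv_anti₀ (Real.sqrt_pos.2 hσ₀) (Real.sqrt_le_sqrt c)
        nlinarith [mul_le_mul_of_nonneg_left (hq z.1 z.2) (th3_nonneg hσ (z.2 - z.1)),
          mul_le_mul_of_nonneg_right (le_max_left C 0)
            (mul_nonneg (th3_nonneg hσ (z.2 - z.1)) (sq_nonneg (dist z.1 z.2))),
          mul_le_mul_of_nonneg_left (hA4 σ hσ z.1 z.2) D0,
          mul_le_mul_of_nonneg_left this (mul_nonneg D0 A0)]
      refine le_trans ?_ (integral_mono (integrable_const _) (integrable_kernel μ ht hR s _ hσ) hlow)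
      rw [integral_const, smul_eq_mul]
      have hc : C0 * σ₀ ≤ C0 * σ := mul_le_mul_of_nonneg_left c C00
      have hc' : C0 * σ₀ = D * A * ((√σ₀)⁻¹ + 1) * (μ.prod μ).real Set.univ := by
        rw [hC0]; field_simp
      nlinarith
  have iw : Integrable (fun a : ℝ => a ^ 2 * Real.exp (-a) / 2) halfLine :=
    ((halfLine_integrable 2).congr (Eventually.of_forall fun a => mul_comm _ _)).div_const 2
  have i3 : Integrable (fun a : ℝ => a ^ 3 * Real.exp (-a) / 2) halfLine :=
    ((halfLine_integrable 3).congr (Eventually.of_forall fun a => mul_comm _ _)).div_const 2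
  have g2 : ∫ a, a ^ 2 * Real.exp (-a) / 2 ∂halfLine = 1 := by
    have := halfLine_gamma 2 one_pos
    simp only [one_mul] at this
    rw [integral_div, this]; norm_num [Nat.factorial]
  have g3 : ∫ a, a ^ 3 * Real.exp (-a) / 2 ∂halfLine = 3 := by
    have := halfLine_gamma 3 one_pos
    simp only [one_mul] at this
    rw [integral_div, this]; norm_num [Nat.factorial]
  have ht0 : ∀ᶠ h : ℝ in 𝓝[>] 0, C0 * h * 3 ≤ η / 2 :=
    (tendsto_nhdsWithin_of_tendsto_nhds (Continuous.tendsto' (f := fun h : ℝ => C0 * h * 3)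
      (by fun_prop) 0 0 (by simp))).eventually_le_const (by linarith)
  have ht1 : ∀ᶠ h : ℝ in 𝓝[>] 0, h ≤ 1 :=
    tendsto_nhdsWithin_of_tendsto_nhds tendsto_id |>.eventually (eventually_le_nhds one_pos)
  filter_upwards [self_mem_nhdsWithin, ht0, ht1] with h hh hb h1
  have hh0 : 0 < h := hh
  obtain ⟨hI, heq⟩ := energy_mix μ halfLine (σ := fun a => h * a)
    (halfLine_pos.mono fun a ha => mul_pos hh0 ha)
    (halfLine_pos.mono fun a _ => by positivity) iw (by fun_prop) (N3_mix hh0)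
    (summable_N3 ⟨hh0, h1⟩) ht hR s (fun i => i + 3)
  simp only [qC_re_eq_bilF]
  rw [heq]
  have hmono : ∫ a, -(η' * (a ^ 2 * Real.exp (-a) / 2) + C0 * h * (a ^ 3 * Real.exp (-a) / 2))
      ∂halfLine ≤ ∫ a, a ^ 2 * Real.exp (-a) / 2 * energy μ t s (fun i => i + 3) (h * a) ∂halfLine := by
    refine integral_mono_ae ((iw.const_mul _).add (i3.const_mul _)).neg hI ?_
    filter_upwards [halfLine_pos] with a ha
    refine le_trans (le_of_eq ?_) (mul_le_mul_of_nonneg_left (hE _ (mul_pos hh0 ha)) (by positivity))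
    ring
  rw [integral_neg, integral_add (iw.const_mul _) (i3.const_mul _), integral_const_mul,
    integral_const_mul, g2, g3] at hmono
  linarith

end Vale.Agent.P204
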