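import Vale.Agent.P204.Dual

/-!
Weighted balance of an exact current: the part of type (2,0) + (0,2) against the (1,1) part.
-/

open MeasureTheory Filter Topology
open scoped ContDiff ComplexConjugate Matrix

namespace Vale.Agent.P204

lemma qC_conj (s : ℝ) (a b : C6) : qC s b a = conj (qC s a b) := by
  simp only [qC, map_mul, map_sum, Complex.conj_ofReal, Complex.conj_conj]
  congr 1
  refine Fintype.sum_equiv (Equiv.addRight 3) _ _ fun i => ?_
  simp only [Equiv.coe_addRight, add_assoc, show (3 : Fin 6) + 3 = 0 from rfl, add_zero]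
  ring

lemma qC_smul_left (s : ℝ) (c : ℂ) (a b : C6) : qC s (c • a) b = c * qC s a b := by
  simp only [qC, PiLp.smul_apply, smul_eq_mul, mul_assoc, ← Finset.mul_sum]
  ring

lemma qC_smul_right (s : ℝ) (c : ℂ) (a b : C6) : qC s a (c • b) = conj c * qC s a b := by
  rw [qC_conj, qC_smul_left, map_mul, ← qC_conj]

lemma qC_add_left (s : ℝ) (a a' b : C6) : qC s (a + a') b = qC s a b + qC s a' b :=
  (Four.qC_linear_left s b).2 a a'

lemma qC_add_right (s : ℝ) (a b b' : C6) : qC s a (b + b') = qC s a b + qC s a b' :=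
  (Four.qC_linear_right s a).2 b b'

lemma norm_qC_le' (D : Data) (a b : C6) : ‖qC D.s a b‖ ≤ 6 * (‖a‖ * ‖b‖) := by
  refine (Four.norm_qC_le _ _ _).trans (le_of_eq ?_)
  rcases D.hs with h | h <;> simp [h]

/-- Cauchy-Schwarz for series. -/
lemma l2_mul {f g : Idx → ℝ} (hf0 : ∀ k, 0 ≤ f k) (hg0 : ∀ k, 0 ≤ g k)
    (hf : Summable fun k => f k ^ 2) (hg : Summable fun k => g k ^ 2) :
    Summable (fun k => f k * g k) ∧
      ∑' k, f k * g k ≤ √(∑' k, f k ^ 2) * √(∑' k, g k ^ 2) := by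
  have h : ∀ F : Finset Idx, ∑ k ∈ F, f k * g k ≤ √(∑' k, f k ^ 2) * √(∑' k, g k ^ 2) := fun F =>
    (Real.sum_mul_le_sqrt_mul_sqrt F f g).trans (mul_le_mul
      (Real.sqrt_le_sqrt (hf.sum_le_tsum F fun i _ => sq_nonneg _))
      (Real.sqrt_le_sqrt (hg.sum_le_tsum F fun i _ => sq_nonneg _))
      (Real.sqrt_nonneg _) (Real.sqrt_nonneg _))
  have hs := summable_of_sum_le (fun k => mul_nonneg (hf0 k) (hg0 k)) h
  exact ⟨hs, Real.tsum_le_of_sum_le (fun k => mul_nonneg (hf0 k) (hg0 k)) h⟩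

/-- A diagonal multiplier. -/
noncomputable def scl (f : Idx → ℝ) (u : Idx → C6) : Idx → C6 := fun k => (f k : ℂ) • u k

/-- The commutator of a multiplier with the projection. -/
noncomputable def comm (D : Data) (f : Idx → ℝ) (u : Idx → C6) (k : Idx) : C6 :=
  ∑' l, ((f k - f l : ℝ) : ℂ) • cM D.pr (k - l) (u l)

lemma norm_scl (f : Idx → ℝ) (u : Idx → C6) (k : Idx) : ‖scl f u k‖ = |f k| * ‖u k‖ := by
  rw [scl, norm_smul, Complex.norm_real, Real.norm_eq_abs]

lemma norm_scl_sqrt {N : Idx → ℝ} (hN : ∀ k, 0 ≤ N k) (u : Idx → C6) (k : Idx) :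
    ‖scl (fun k => √(N k)) u k‖ ^ 2 = N k * ‖u k‖ ^ 2 := by
  rw [norm_scl, mul_pow, sq_abs, Real.sq_sqrt (hN k)]

lemma sub_conv_scl (D : Data) {u : Idx → C6} (hu : PolyB u) (hπ : conv (cM D.pr) u = u)
    {f : Idx → ℝ} (hfu : PolyB (scl f u)) (k : Idx) :
    scl f u k - conv (cM D.pr) (scl f u) k = comm D f u k := by
  have hM := cM_rapid D.sm_pr
  have h1 : Summable fun l => (f k : ℂ) • cM D.pr (k - l) (u l) :=
    (conv_term_summable hM hu k).const_smul _
  have h2 : Summable fun l => (f l : ℂ) • cM D.pr (k - l) (u l) := by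
    simpa [scl] using conv_term_summable hM hfu k
  have e1 : scl f u k = ∑' l, (f k : ℂ) • cM D.pr (k - l) (u l) := by
    rw [(conv_term_summable hM hu k).tsum_const_smul]
    exact congrArg ((f k : ℂ) • ·) (congr_fun hπ k).symm
  have e2 : conv (cM D.pr) (scl f u) k = ∑' l, (f l : ℂ) • cM D.pr (k - l) (u l) := by
    simp [conv, scl]
  rw [e1, e2, comm, ← h1.tsum_sub h2]
  exact tsum_congr fun l => by rw [Complex.ofReal_sub, sub_smul]

/-- Positivity of the wedge energy up to the distance from the range of the projection. -/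
lemma energy_lower (D : Data) : ∃ c > 0, ∃ K : ℝ, ∀ u : Idx → C6,
    Summable (fun k => ‖u k‖ ^ 2) →
      c * ∑' k, ‖u k‖ ^ 2 ≤
        (∑' k, qC D.s (u k) (u k)).re + K * ∑' k, ‖u k - conv (cM D.pr) u k‖ ^ 2 := by
  obtain ⟨c, hc, hpos⟩ := conv_pos D
  refine ⟨c / 4, by positivity, c / 2 + 72 / c + 6, fun u hu => ?_⟩
  obtain ⟨-, hw, -⟩ := schur_bound (cM_rapid D.sm_pr) 0 zero_le_one (κ := fun _ _ => 1)
    (b := fun _ => 1) (fun k l => by simp) (u := u) (by simpa using hu)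
  replace hw : Summable fun k => ‖conv (cM D.pr) u k‖ ^ 2 := by simpa [conv] using hw
  set w := conv (cM D.pr) u
  have hr : Summable fun k => ‖u k - w k‖ ^ 2 :=
    Summable.of_nonneg_of_le (fun k => sq_nonneg _) (fun k => by
      nlinarith [norm_sub_le (u k) (w k), norm_nonneg (u k - w k),
        sq_nonneg (‖u k‖ - ‖w k‖)]) ((hu.add hw).mul_left 2)
  have hq : ∀ v : Idx → C6, Summable (fun k => ‖v k‖ ^ 2) →
      Summable fun k => (qC D.s (v k) (v k)).re := fun v hv =>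
    Summable.of_norm_bounded (hv.mul_left 6) fun k => by
      rw [Real.norm_eq_abs]
      refine (Complex.abs_re_le_norm _).trans ((norm_qC_le' D _ _).trans_eq ?_)
      ring
  have hqs : ∀ v : Idx → C6, Summable (fun k => ‖v k‖ ^ 2) →
      Summable fun k => qC D.s (v k) (v k) := fun v hv =>
    Summable.of_norm_bounded (hv.mul_left 6) fun k => (norm_qC_le' D _ _).trans_eq (by ring)
  have h1 : ∀ k, (qC D.s (w k) (w k)).re - (c / 2 * ‖w k‖ ^ 2 + (72 / c + 6) * ‖u k - w k‖ ^ 2) ≤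
      (qC D.s (u k) (u k)).re := fun k => by
    set r := u k - w k
    have e : u k = w k + r := by simp [r]
    rw [e, qC_add_left, qC_add_right, qC_add_right, qC_conj D.s (w k) r]
    simp only [Complex.add_re, Complex.conj_re]
    have a1 := (abs_le.1 ((Complex.abs_re_le_norm _).trans (norm_qC_le' D (w k) r))).1
    have a2 := (abs_le.1 ((Complex.abs_re_le_norm _).trans (norm_qC_le' D r r))).1
    have a3 : 12 * (‖w k‖ * ‖r‖) ≤ c / 2 * ‖w k‖ ^ 2 + 72 / c * ‖r‖ ^ 2 := by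
      have : c / 2 * ‖w k‖ ^ 2 + 72 / c * ‖r‖ ^ 2 - 12 * (‖w k‖ * ‖r‖) =
          (c * ‖w k‖ - 12 * ‖r‖) ^ 2 / (2 * c) := by field_simp; ring
      have : 0 ≤ (c * ‖w k‖ - 12 * ‖r‖) ^ 2 / (2 * c) := by positivity
      linarith
    nlinarith
  have h2 := Summable.tsum_le_tsum h1
    ((hq w hw).sub ((hw.mul_left _).add (hr.mul_left _))) (hq u hu)
  rw [(hq w hw).tsum_sub ((hw.mul_left _).add (hr.mul_left _)),
    (hw.mul_left _).tsum_add (hr.mul_left _), tsum_mul_left, tsum_mul_left,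
    ← Complex.re_tsum (hqs w hw), ← Complex.re_tsum (hqs u hu)] at h2
  have h3 := hpos u hu
  have h4 : ∑' k, ‖u k‖ ^ 2 ≤ 2 * ∑' k, ‖w k‖ ^ 2 + 2 * ∑' k, ‖u k - w k‖ ^ 2 := by
    rw [← tsum_mul_left, ← tsum_mul_left, ← (hw.mul_left _).tsum_add (hr.mul_left _)]
    refine hu.tsum_le_tsum (fun k => ?_) ((hw.mul_left _).add (hr.mul_left _))
    have : ‖u k‖ ≤ ‖w k‖ + ‖u k - w k‖ := norm_le_insert' _ _
    nlinarith [norm_nonneg (u k), sq_nonneg (‖w k‖ - ‖u k - w k‖)]
  have h5 : 0 ≤ ∑' k, ‖u k - w k‖ ^ 2 := tsum_nonneg fun k => sq_nonneg _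
  nlinarith [mul_le_mul_of_nonneg_left h4 (show 0 ≤ c / 4 by positivity)]

variable {D : Data} {T S : Idx → C6}

lemma polyB_of_weighted (hS : Summable fun k => ((wt k) ^ 2)⁻¹ * ‖S k‖ ^ 2) : PolyB S := by
  set X := ∑' k, ((wt k) ^ 2)⁻¹ * ‖S k‖ ^ 2
  refine ⟨1 + X, 1, fun l => ?_⟩
  have hw : 0 < wt l := Four.wt_pos l
  have h : (‖S l‖ / wt l) ^ 2 ≤ X := by
    rw [div_pow, div_eq_inv_mul]
    exact hS.le_tsum l fun j _ => by positivity
  rw [pow_one, ← div_le_iff₀ hw]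
  nlinarith [sq_nonneg (‖S l‖ / wt l - 1)]

/-- The balance of an exact current. -/
lemma balance {A : ℝ} (hT : ∀ k, ‖T k‖ ≤ A) (hπT : conv (cM D.pr) T = 0)
    (hS : Summable fun k => ((wt k) ^ 2)⁻¹ * ‖S k‖ ^ 2) (hπS : conv (cM D.pr) S = S)
    (hex : ∀ k, ExactAt k (T k + S k)) {N : Idx → ℝ} {K : ℝ} (hN0 : ∀ k, 0 ≤ N k)
    (hNb : ∀ k, N k ≤ K * ((wt k) ^ 2)⁻¹)
    (hcs : Summable fun k => ‖T k‖ * ‖comm D N S k‖) :
    ∑' k, N k * (qC D.s (T k) (T k)).re +
        (∑' k, qC D.s (scl (fun k => √(N k)) S k) (scl (fun k => √(N k)) S k)).re ≤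
      12 * ∑' k, ‖T k‖ * ‖comm D N S k‖ := by
  have hA : 0 ≤ A := (norm_nonneg _).trans (hT 0)
  have hw := summable_wt_inv
  have hK : 0 ≤ K := nonneg_of_mul_nonneg_left ((hN0 0).trans (hNb 0))
    (inv_pos.2 (pow_pos (Four.wt_pos 0) 2))
  set u := scl (fun k => √(N k)) S
  set v := scl N S
  have hv : Summable fun k => ‖v k‖ := by
    refine Summable.of_nonneg_of_le (fun k => norm_nonneg _) (fun k => ?_)
      ((hw.add hS).mul_left K)
    rw [norm_scl, abs_of_nonneg (hN0 k)]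
    calc N k * ‖S k‖ ≤ K * ((wt k) ^ 2)⁻¹ * (1 + ‖S k‖ ^ 2) :=
          mul_le_mul (hNb k) (by nlinarith [sq_nonneg (‖S k‖ - 1)]) (norm_nonneg _)
            (mul_nonneg hK (inv_nonneg.2 (sq_nonneg _)))
      _ = _ := by ring
  have hvB : PolyB v := Four.polyB_of_bounded fun l => hv.le_tsum l fun _ _ => norm_nonneg _
  have hSB := polyB_of_weighted hS
  have hr : ∀ k, v k - conv (cM D.pr) v k = comm D N S k := sub_conv_scl D hSB hπS hvB
  have hM := Four.rapid_summable (cM_rapid D.sm_pr)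
  have hp := Four.summable_sub_fst hM hv (fun _ => norm_nonneg _) fun _ => norm_nonneg _
  have hpv : Summable fun k => ‖conv (cM D.pr) v k‖ := by
    refine Summable.of_nonneg_of_le (fun k => norm_nonneg _) (fun k => ?_) hp.2.prod
    refine (norm_tsum_le_tsum_norm (conv_term_summable (cM_rapid D.sm_pr) hvB k).norm).trans ?_
    refine Summable.tsum_le_tsum (fun l => ?_) (conv_term_summable (cM_rapid D.sm_pr) hvB k).norm
      (hp.2.prod_factor k)
    exact (cM D.pr (k - l)).le_opNorm _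
  -- the three series
  have s1 : Summable fun k => qC D.s (T k) (T k) * (N k : ℂ) :=
    Summable.of_norm_bounded ((hw.mul_left K).mul_left (6 * A ^ 2)) fun k => by
      rw [norm_mul, Complex.norm_real, Real.norm_of_nonneg (hN0 k)]
      refine mul_le_mul ((norm_qC_le' D _ _).trans ?_) (hNb k) (hN0 k) (by positivity)
      nlinarith [hT k, norm_nonneg (T k)]
  have s2 : Summable fun k => qC D.s (u k) (u k) :=
    Summable.of_norm_bounded ((hS.mul_left K).mul_left 6) fun k => by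
      refine (norm_qC_le' D _ _).trans ?_
      rw [← sq, norm_scl_sqrt hN0, ← mul_assoc K]
      exact mul_le_mul_of_nonneg_left (mul_le_mul_of_nonneg_right (hNb k) (sq_nonneg _))
        (by norm_num)
  have sb : ∀ x : Idx → C6, Summable (fun k => ‖x k‖) → Summable fun k => qC D.s (T k) (x k) :=
    fun x hx => Summable.of_norm_bounded (hx.mul_left (6 * A)) fun k => by
      refine (norm_qC_le' D _ _).trans ?_
      rw [mul_assoc]
      exact mul_le_mul_of_nonneg_left (mul_le_mul_of_nonneg_right (hT k) (norm_nonneg _))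
        (by norm_num)
  have hrn : Summable fun k => ‖comm D N S k‖ := Summable.of_nonneg_of_le (fun k => norm_nonneg _)
    (fun k => by rw [← hr k]; exact norm_sub_le _ _) (hv.add hpv)
  have s3 := sb v hv
  have s4 := sb _ hrn
  have hzero : ∑' k, qC D.s (T k) (conv (cM D.pr) v k) = 0 := by
    rw [← Four.selfAdj_of_summable D (Four.polyB_of_bounded hT) hvB, hπT]
    · simp [qC]
    · refine Summable.of_nonneg_of_le (fun p => by positivity) (fun p => ?_) (hp.1.mul_left A)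
      calc ‖cM D.pr (p.1 - p.2)‖ * ‖T p.2‖ * ‖v p.1‖
          ≤ ‖cM D.pr (p.1 - p.2)‖ * A * ‖v p.1‖ := by gcongr; exact hT _
        _ = _ := by ring
  have hcross : ∑' k, qC D.s (T k) (v k) = ∑' k, qC D.s (T k) (comm D N S k) := by
    have e : ∀ k, qC D.s (T k) (v k) =
        qC D.s (T k) (conv (cM D.pr) v k) + qC D.s (T k) (comm D N S k) := fun k => by
      rw [← qC_add_right, ← hr k, add_sub_cancel]
    rw [tsum_congr e, (sb _ hpv).tsum_add s4, hzero, zero_add]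
  have hk : ∀ k, (qC D.s (T k) (T k) * (N k : ℂ) + qC D.s (u k) (u k)).re =
      -(2 * (qC D.s (T k) (v k)).re) := fun k => by
    have h0 := qC_exact_closed D.s (hex k) (hex k).1
    rw [qC_add_left, qC_add_right, qC_add_right, qC_conj D.s (T k) (S k)] at h0
    have h1 := congrArg Complex.re h0
    simp only [Complex.add_re, Complex.conj_re, Complex.zero_re] at h1
    simp only [u, v, scl, qC_smul_left, qC_smul_right, Complex.conj_ofReal, Complex.add_re,
      ← mul_assoc, ← Complex.ofReal_mul, Real.mul_self_sqrt (hN0 k),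
      Complex.mul_re, Complex.ofReal_re, Complex.ofReal_im, mul_zero, sub_zero, zero_mul]
    linear_combination N k * h1
  have hre : ∑' k, N k * (qC D.s (T k) (T k)).re + (∑' k, qC D.s (u k) (u k)).re =
      -(2 * (∑' k, qC D.s (T k) (v k)).re) := by
    have e : ∑' k, N k * (qC D.s (T k) (T k)).re = (∑' k, qC D.s (T k) (T k) * (N k : ℂ)).re := by
      rw [Complex.re_tsum s1]
      exact tsum_congr fun k => by simp [mul_comm]
    rw [e, ← Complex.add_re, ← s1.tsum_add s2, Complex.re_tsum (s1.add s2), tsum_congr hk,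
      tsum_neg, tsum_mul_left, ← Complex.re_tsum s3]
  rw [hre, hcross]
  have h5 := (Complex.abs_re_le_norm _).trans (norm_tsum_le_tsum_norm s4.norm)
  have h6 : ∑' k, ‖qC D.s (T k) (comm D N S k)‖ ≤ 6 * ∑' k, ‖T k‖ * ‖comm D N S k‖ := by
    rw [← tsum_mul_left]
    exact Summable.tsum_le_tsum (fun k => norm_qC_le' D _ _) s4.norm (hcs.mul_left 6)
  linarith [(abs_le.1 h5).1]

/-- A bound for the cross term. -/
lemma cross_bound {N g : Idx → ℝ} (hN : ∀ k, 0 ≤ N k) (hg : ∀ k, 0 < g k) {C : ℝ} (hC : 0 ≤ C)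
    (p : ℕ) (h : ∀ k l, |N k - N l| ≤ C * wt (k - l) ^ p * (g k * √(N l)))
    (hs : Summable fun l => N l * ‖S l‖ ^ 2) (hT : Summable fun k => g k ^ 2 * ‖T k‖ ^ 2) :
    Summable (fun k => ‖T k‖ * ‖comm D N S k‖) ∧
      ∑' k, ‖T k‖ * ‖comm D N S k‖ ≤ √(∑' k, g k ^ 2 * ‖T k‖ ^ 2) *
        ((C * ∑' k, wt k ^ p * ‖cM D.pr k‖) * √(∑' l, N l * ‖S l‖ ^ 2)) := by
  have hb : ∀ k l, |(N k - N l) / g k| ≤ C * wt (k - l) ^ p * |√(N l)| := fun k l => by
    rw [abs_div, abs_of_pos (hg k), div_le_iff₀ (hg k), abs_of_nonneg (Real.sqrt_nonneg _)]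
    exact (h k l).trans_eq (by ring)
  obtain ⟨hsum, hz, hle⟩ := schur_bound (cM_rapid D.sm_pr) p hC hb (u := S)
    (by simpa [Real.sq_sqrt, hN] using hs)
  set z := fun k => ∑' l, (((N k - N l) / g k : ℝ) : ℂ) • cM D.pr (k - l) (S l)
  have hk : ∀ k, ‖T k‖ * ‖comm D N S k‖ = (g k * ‖T k‖) * ‖z k‖ := fun k => by
    have e : comm D N S k = (g k : ℂ) • z k := by
      rw [← (hsum k).tsum_const_smul]
      refine tsum_congr fun l => ?_
      rw [smul_smul, ← Complex.ofReal_mul, mul_div_cancel₀ _ (hg k).ne']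
    rw [e, norm_smul, Complex.norm_real, Real.norm_of_nonneg (hg k).le]
    ring
  obtain ⟨h1, h2⟩ := l2_mul (f := fun k => g k * ‖T k‖) (g := fun k => ‖z k‖)
    (fun k => mul_nonneg (hg k).le (norm_nonneg _)) (fun k => norm_nonneg _)
    (by simpa [mul_pow] using hT) hz
  refine ⟨h1.congr fun k => (hk k).symm, ?_⟩
  rw [tsum_congr hk]
  refine h2.trans ?_
  simp only [mul_pow]
  refine mul_le_mul_of_nonneg_left ?_ (Real.sqrt_nonneg _)
  have hM : 0 ≤ C * ∑' k, wt k ^ p * ‖cM D.pr k‖ := mul_nonneg hC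
    (tsum_nonneg fun k => mul_nonneg (pow_nonneg (Four.wt_pos k).le p) (norm_nonneg _))
  rw [← Real.sqrt_sq hM, ← Real.sqrt_mul (sq_nonneg _)]
  refine Real.sqrt_le_sqrt (hle.trans_eq ?_)
  congr 1
  exact tsum_congr fun l => by rw [Real.sq_sqrt (hN l)]

/-- The remainder of the multiplied (2,0) part. -/
lemma rem_bound (hSB : PolyB S) (hπS : conv (cM D.pr) S = S) {f b : Idx → ℝ} {C : ℝ} (hC : 0 ≤ C)
    (p : ℕ) (h : ∀ k l, |f k - f l| ≤ C * wt (k - l) ^ p * |b l|)
    (hb : Summable fun l => b l ^ 2 * ‖S l‖ ^ 2) (hf : Summable fun l => ‖scl f S l‖ ^ 2) :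
    ∑' k, ‖scl f S k - conv (cM D.pr) (scl f S) k‖ ^ 2 ≤
      (C * ∑' k, wt k ^ p * ‖cM D.pr k‖) ^ 2 * ∑' l, b l ^ 2 * ‖S l‖ ^ 2 := by
  simp only [sub_conv_scl D hSB hπS (Four.polyB_of_l2 hf)]
  exact (schur_bound (cM_rapid D.sm_pr) p hC h hb).2.2

end Vale.Agent.P204
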