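import Vale.Agent.P204.Four
import Vale.Agent.P204.Torus

/-!
The periodic regularised distance `√(r² + ρ²)`, its derivatives and the integral of its inverse
square.
-/

open MeasureTheory Filter Topology
open scoped ContDiff Matrix

namespace Vale.Agent.P204.Levi

/-- The cosine on the circle. -/
noncomputable def cs (t : UnitAddCircle) : ℝ := (fourier 1 t).re

/-- The sine on the circle. -/
noncomputable def sn (t : UnitAddCircle) : ℝ := (fourier 1 t).im

lemma fourier_one_coe (a : ℝ) :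
    fourier 1 (a : UnitAddCircle) = Complex.exp (((2 * Real.pi * a : ℝ) : ℂ) * Complex.I) := by
  rw [fourier_coe_apply]
  push_cast
  congr 1
  ring

lemma cs_coe (a : ℝ) : cs (a : UnitAddCircle) = Real.cos (2 * Real.pi * a) := by
  rw [cs, fourier_one_coe, Complex.exp_ofReal_mul_I_re]

lemma sn_coe (a : ℝ) : sn (a : UnitAddCircle) = Real.sin (2 * Real.pi * a) := by
  rw [sn, fourier_one_coe, Complex.exp_ofReal_mul_I_im]

lemma continuous_cs : Continuous cs :=
  Complex.continuous_re.comp (fourier 1).continuous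

lemma continuous_sn : Continuous sn :=
  Complex.continuous_im.comp (fourier 1).continuous

lemma exists_rep (t : UnitAddCircle) : ∃ a : ℝ, (a : UnitAddCircle) = t ∧ |a| = ‖t‖ := by
  obtain ⟨b, rfl⟩ := QuotientAddGroup.mk_surjective t
  exact ⟨b - round b, by simp, (UnitAddCircle.norm_eq (x := b)).symm⟩

lemma cs_sq_add (t : UnitAddCircle) : cs t ^ 2 + sn t ^ 2 = 1 := by
  obtain ⟨a, rfl, -⟩ := exists_rep t
  rw [cs_coe, sn_coe]
  exact Real.cos_sq_add_sin_sq _

lemma cs_abs (t : UnitAddCircle) : |cs t| ≤ 1 := by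
  rw [← sq_le_one_iff_abs_le_one]
  nlinarith [cs_sq_add t, sq_nonneg (sn t)]

lemma one_sub_cs_nonneg (t : UnitAddCircle) : 0 ≤ 1 - cs t := by
  linarith [(abs_le.1 (cs_abs t)).2]

lemma one_sub_cs_le (t : UnitAddCircle) : 1 - cs t ≤ 2 * Real.pi ^ 2 * ‖t‖ ^ 2 := by
  obtain ⟨a, rfl, ha⟩ := exists_rep t
  rw [cs_coe, ← ha, sq_abs]
  nlinarith [Real.one_sub_sq_div_two_le_cos (x := 2 * Real.pi * a)]

lemma le_one_sub_cs (t : UnitAddCircle) : 8 * ‖t‖ ^ 2 ≤ 1 - cs t := by
  obtain ⟨a, rfl, ha⟩ := exists_rep t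
  have h2 : |a| ≤ 1 / 2 := by
    rw [ha]
    simpa using AddCircle.norm_le_half_period (p := (1 : ℝ)) (x := (a : UnitAddCircle)) one_ne_zero
  have hπ := Real.pi_pos
  have h3 : |2 * Real.pi * a| ≤ Real.pi := by
    rw [abs_mul, abs_of_pos (by positivity : 0 < 2 * Real.pi)]
    nlinarith
  have h := Real.cos_le_one_sub_mul_cos_sq h3
  rw [cs_coe, ← ha, sq_abs]
  have e : 2 / Real.pi ^ 2 * (2 * Real.pi * a) ^ 2 = 8 * a ^ 2 := by field_simp; ring
  linarith

variable (y : T3) (r : ℝ)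

/-- The periodic squared distance in one coordinate. -/
noncomputable def sq1 (z : T3) (i : Fin 3) : ℝ := (1 - cs (z i - y i)) / (2 * Real.pi ^ 2)

/-- Half the derivative of the squared distance. -/
noncomputable def pp (z : T3) (i : Fin 3) : ℝ := sn (z i - y i) / (2 * Real.pi)

/-- The regularised distance. -/
noncomputable def phi (z : T3) : ℝ := Real.sqrt (r ^ 2 + ∑ i, sq1 y z i)

/-- Its gradient. -/
noncomputable def dphi (j : Fin 3) (z : T3) : ℝ := pp y z j / phi y r z

/-- Its Hessian. -/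
noncomputable def ddphi (i j : Fin 3) (z : T3) : ℝ :=
  (if i = j then cs (z i - y i) / phi y r z else 0) - pp y z i * pp y z j / phi y r z ^ 3

lemma sq1_nonneg (z : T3) (i : Fin 3) : 0 ≤ sq1 y z i :=
  div_nonneg (one_sub_cs_nonneg _) (by positivity)

lemma sq1_le_inv (z : T3) (i : Fin 3) : sq1 y z i ≤ 1 / 9 := by
  rw [sq1, div_le_iff₀ (by positivity)]
  nlinarith [(abs_le.1 (cs_abs (z i - y i))).1, Real.pi_gt_three]

lemma sq1_le_dist (z : T3) (i : Fin 3) : sq1 y z i ≤ dist z y ^ 2 := by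
  rw [sq1, div_le_iff₀ (by positivity), mul_comm]
  refine (one_sub_cs_le _).trans (mul_le_mul_of_nonneg_left ?_ (by positivity))
  rw [dist_eq_norm]
  exact pow_le_pow_left₀ (norm_nonneg _) (norm_le_pi_norm (z - y) i) 2

lemma pp_sq_le (z : T3) (i : Fin 3) : pp y z i ^ 2 ≤ sq1 y z i := by
  rw [pp, sq1, div_pow, div_le_div_iff₀ (by positivity) (by positivity)]
  have h := cs_sq_add (z i - y i)
  have h1 := (abs_le.1 (cs_abs (z i - y i))).2
  have h2 : sn (z i - y i) ^ 2 ≤ 2 * (1 - cs (z i - y i)) := by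
    nlinarith [(abs_le.1 (cs_abs (z i - y i))).1]
  nlinarith [sq_nonneg Real.pi]

lemma sum_nonneg' (z : T3) : 0 ≤ ∑ i, sq1 y z i :=
  Finset.sum_nonneg fun i _ => sq1_nonneg y z i

lemma phi_sq (z : T3) : phi y r z ^ 2 = r ^ 2 + ∑ i, sq1 y z i :=
  Real.sq_sqrt (add_nonneg (sq_nonneg r) (sum_nonneg' y z))

variable {r}

lemma phi_pos (hr : 0 < r) (z : T3) : 0 < phi y r z :=
  Real.sqrt_pos.2 (add_pos_of_pos_of_nonneg (by positivity) (sum_nonneg' y z))

lemma phi_le_two (hr : r ∈ Set.Ioc (0 : ℝ) 1) (z : T3) : phi y r z ≤ 2 := by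
  refine Real.sqrt_le_iff.2 ⟨by norm_num, ?_⟩
  have : ∑ i, sq1 y z i ≤ ∑ _i : Fin 3, (1 / 9 : ℝ) := Finset.sum_le_sum fun i _ => sq1_le_inv y z i
  norm_num at this
  nlinarith [hr.1, hr.2]

lemma phi_le_near (hr : 0 < r) {z : T3} (h : dist z y < r) : phi y r z ≤ 2 * r := by
  refine Real.sqrt_le_iff.2 ⟨by positivity, ?_⟩
  have : ∑ i, sq1 y z i ≤ ∑ _i : Fin 3, r ^ 2 := Finset.sum_le_sum fun i _ =>
    (sq1_le_dist y z i).trans (pow_le_pow_left₀ dist_nonneg h.le 2)
  simp at this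
  linarith

lemma pp_abs_le (hr : 0 < r) (z : T3) (i : Fin 3) : |pp y z i| ≤ phi y r z := by
  refine abs_le_of_sq_le_sq ?_ (phi_pos y hr z).le
  rw [phi_sq]
  have := Finset.single_le_sum (f := fun j => sq1 y z j) (fun j _ => sq1_nonneg y z j)
    (Finset.mem_univ i)
  nlinarith [pp_sq_le y z i, sq_nonneg r]

lemma dphi_abs_le (hr : 0 < r) (z : T3) (j : Fin 3) : |dphi y r j z| ≤ 1 := by
  rw [dphi, abs_div, abs_of_pos (phi_pos y hr z), div_le_one (phi_pos y hr z)]
  exact pp_abs_le y hr z j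

lemma ddphi_abs_le (hr : 0 < r) (z : T3) (i j : Fin 3) : |ddphi y r i j z| ≤ 2 / phi y r z := by
  have hp := phi_pos y hr z
  refine (abs_sub _ _).trans ?_
  rw [show (2 : ℝ) / phi y r z = 1 / phi y r z + 1 / phi y r z by ring]
  refine add_le_add ?_ ?_
  · split_ifs
    · rw [abs_div, abs_of_pos hp]
      exact div_le_div_of_nonneg_right (cs_abs _) hp.le
    · rw [abs_zero]; positivity
  · rw [abs_div, abs_mul, abs_of_pos (pow_pos hp 3), div_le_div_iff₀ (pow_pos hp 3) hp]
    have := mul_le_mul (pp_abs_le y hr z i) (pp_abs_le y hr z j) (abs_nonneg _) hp.le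
    nlinarith

lemma lift_phi {a : Fin 3 → ℝ} (ha : pt a = y) :
    phi y r ∘ pt = fun x => Real.sqrt
      (r ^ 2 + ∑ i, (1 - Real.cos (2 * Real.pi * (x i - a i))) / (2 * Real.pi ^ 2)) := by
  subst ha
  funext x
  simp only [Function.comp_apply, phi, sq1]
  congr 2
  refine Finset.sum_congr rfl fun i _ => ?_
  rw [show pt x i - pt a i = ((x i - a i : ℝ) : UnitAddCircle) from rfl, cs_coe]

lemma sm_phi (hr : 0 < r) : Sm (phi y r) := by
  obtain ⟨a, ha⟩ := pt_surjective y
  rw [Sm, lift_phi y ha]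
  refine ContDiff.sqrt (contDiff_const.add (ContDiff.sum fun i _ => ?_)) fun x => ?_
  · exact (contDiff_const.sub (Real.contDiff_cos.comp (contDiff_const.mul
      ((contDiff_apply ℝ ℝ i).sub contDiff_const)))).div_const _
  · refine (add_pos_of_pos_of_nonneg (by positivity) (Finset.sum_nonneg fun i _ => ?_)).ne'
    exact div_nonneg (by linarith [Real.cos_le_one (2 * Real.pi * (x i - a i))]) (by positivity)

lemma sm_cs (i : Fin 3) : Sm fun z => cs (z i - y i) := by
  obtain ⟨a, rfl⟩ := pt_surjective y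
  have e : (fun z => cs (z i - pt a i)) ∘ pt = fun x => Real.cos (2 * Real.pi * (x i - a i)) := by
    funext x
    simp only [Function.comp_apply]
    rw [show pt x i - pt a i = ((x i - a i : ℝ) : UnitAddCircle) from rfl, cs_coe]
  rw [Sm, e]
  exact Real.contDiff_cos.comp (contDiff_const.mul ((contDiff_apply ℝ ℝ i).sub contDiff_const))

lemma sm_pp (i : Fin 3) : Sm fun z => pp y z i := by
  obtain ⟨a, rfl⟩ := pt_surjective y
  have e : (fun z => pp (pt a) z i) ∘ pt =
      fun x => Real.sin (2 * Real.pi * (x i - a i)) / (2 * Real.pi) := by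
    funext x
    simp only [Function.comp_apply, pp]
    rw [show pt x i - pt a i = ((x i - a i : ℝ) : UnitAddCircle) from rfl, sn_coe]
  rw [Sm, e]
  exact (Real.contDiff_sin.comp (contDiff_const.mul
    ((contDiff_apply ℝ ℝ i).sub contDiff_const))).div_const _

lemma sm_dphi (hr : 0 < r) (j : Fin 3) : Sm (dphi y r j) :=
  ContDiff.div (sm_pp y j) (sm_phi y hr) fun _ => (phi_pos y hr _).ne'

lemma sm_ddphi (hr : 0 < r) (i j : Fin 3) : Sm (ddphi y r i j) := by
  refine ContDiff.sub (f := fun x => if i = j then cs (pt x i - y i) / phi y r (pt x) else 0) ?_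
    (((sm_pp y i).mul (sm_pp y j)).div (ContDiff.pow (sm_phi y hr) 3)
      fun _ => pow_ne_zero 3 (phi_pos y hr _).ne')
  split_ifs
  · exact ContDiff.div (sm_cs y i) (sm_phi y hr) fun _ => (phi_pos y hr _).ne'
  · exact contDiff_const

lemma hasDerivAt_coord (x : Fin 3 → ℝ) (i j : Fin 3) :
    HasDerivAt (fun t : ℝ => (x + t • Pi.single i 1 : Fin 3 → ℝ) j)
      (if i = j then 1 else 0) 0 := by
  simp only [Pi.add_apply, Pi.smul_apply, smul_eq_mul, Pi.single_apply]
  rcases eq_or_ne i j with rfl | h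
  · simpa using (hasDerivAt_id (0 : ℝ)).const_add (x i)
  · simpa [Ne.symm h, h] using hasDerivAt_const (0 : ℝ) (x j)

lemma fderiv_eq_of_line {f : (Fin 3 → ℝ) → ℝ} (hf : ContDiff ℝ ∞ f) {x v : Fin 3 → ℝ} {d : ℝ}
    (h : HasDerivAt (fun t : ℝ => f (x + t • v)) d 0) : fderiv ℝ f x v = d := by
  have hl : HasDerivAt (fun t : ℝ => x + t • v) v 0 := by
    simpa using ((hasDerivAt_id (0 : ℝ)).smul_const v).const_add x
  have h1 : HasFDerivAt f (fderiv ℝ f x) (x + (0 : ℝ) • v) := by
    simpa using (hf.differentiable (by simp) x).hasFDerivAt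
  exact (h1.comp_hasDerivAt 0 hl).unique h

lemma hasDerivAt_phi (hr : 0 < r) (x : Fin 3 → ℝ) (i : Fin 3) :
    HasDerivAt (fun t : ℝ => phi y r (pt (x + t • Pi.single i 1))) (dphi y r i (pt x)) 0 := by
  obtain ⟨a, ha⟩ := pt_surjective y
  have e := congrFun (lift_phi (r := r) y ha)
  simp only [Function.comp_apply] at e
  simp only [e, dphi, pp]
  have h0 : 0 < r ^ 2 + ∑ j, (1 - Real.cos (2 * Real.pi * (x j - a j))) / (2 * Real.pi ^ 2) :=
    add_pos_of_pos_of_nonneg (by positivity) (Finset.sum_nonneg fun j _ =>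
      div_nonneg (by linarith [Real.cos_le_one (2 * Real.pi * (x j - a j))]) (by positivity))
  have hs := ((HasDerivAt.fun_sum (u := Finset.univ) fun j _ => (((((hasDerivAt_coord x i j).sub_const
    (a j)).const_mul (2 * Real.pi)).cos).const_sub 1).div_const (2 * Real.pi ^ 2)).const_add
      (r ^ 2)).sqrt (by simpa using h0.ne')
  refine hs.congr_deriv ?_
  subst ha
  rw [Finset.sum_eq_single i (fun j _ hj => by simp [Ne.symm hj])
    (fun h => absurd (Finset.mem_univ i) h)]
  rw [show pt x i - pt a i = ((x i - a i : ℝ) : UnitAddCircle) from rfl, sn_coe]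
  simp only [if_pos, zero_smul, add_zero]
  field_simp

lemma fderiv_phi (hr : 0 < r) (x : Fin 3 → ℝ) (i : Fin 3) :
    fderiv ℝ (phi y r ∘ pt) x (Pi.single i 1) = dphi y r i (pt x) :=
  fderiv_eq_of_line (sm_phi y hr) (hasDerivAt_phi y hr x i)

lemma fderiv_dphi (hr : 0 < r) (x : Fin 3 → ℝ) (i j : Fin 3) :
    fderiv ℝ (dphi y r j ∘ pt) x (Pi.single i 1) = ddphi y r i j (pt x) := by
  refine fderiv_eq_of_line (sm_dphi y hr j) ?_
  obtain ⟨a, ha⟩ := pt_surjective y
  subst ha
  have hp : HasDerivAt (fun t : ℝ => pp (pt a) (pt (x + t • Pi.single i 1)) j)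
      (if i = j then cs (pt x j - pt a j) else 0) 0 := by
    simp only [pp, show ∀ t : ℝ, pt (x + t • Pi.single i 1) j - pt a j =
      (((x + t • Pi.single i 1 : Fin 3 → ℝ) j - a j : ℝ) : UnitAddCircle) from fun t => rfl,
      sn_coe, show pt x j - pt a j = ((x j - a j : ℝ) : UnitAddCircle) from rfl, cs_coe]
    refine (((((hasDerivAt_coord x i j).sub_const (a j)).const_mul (2 * Real.pi)).sin).div_const
      (2 * Real.pi)).congr_deriv ?_
    split_ifs <;> simp
  have hφ := hasDerivAt_phi (pt a) hr x i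
  refine ((hp.div hφ (phi_pos (pt a) hr _).ne')).congr_deriv ?_
  simp only [zero_smul, add_zero, ddphi, dphi]
  have := phi_pos (pt a) hr (pt x)
  rcases eq_or_ne i j with rfl | h
  · simp only [if_pos]; field_simp
  · simp only [if_neg h]; field_simp; ring

/-- The antiderivative used to integrate an inverse cube root. -/
noncomputable def prim (r t : ℝ) : ℝ := t * (t ^ 2 + r ^ 2) ^ (-(1 / 3 : ℝ))

lemma integral_rpow_le (hr : 0 < r) :
    ∫ t in (-(1 / 2 : ℝ))..1 / 2, (t ^ 2 + r ^ 2) ^ (-(1 / 3 : ℝ)) ≤ 6 := by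
  have hd : ∀ t : ℝ, HasDerivAt (prim r)
      ((t ^ 2 + r ^ 2) ^ (-(1 / 3 : ℝ)) +
        t * (2 * t * (-(1 / 3)) * (t ^ 2 + r ^ 2) ^ (-(1 / 3 : ℝ) - 1))) t := by
    intro t
    refine ((hasDerivAt_id t).mul (((hasDerivAt_pow 2 t).add_const (r ^ 2)).rpow_const
      (p := -(1 / 3 : ℝ)) (Or.inl (by positivity)))).congr_deriv ?_
    simp
  set d := fun t : ℝ => (t ^ 2 + r ^ 2) ^ (-(1 / 3 : ℝ)) +
    t * (2 * t * (-(1 / 3)) * (t ^ 2 + r ^ 2) ^ (-(1 / 3 : ℝ) - 1))
  have hcont : ∀ p : ℝ, Continuous fun t : ℝ => (t ^ 2 + r ^ 2) ^ p := fun p =>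
    Continuous.rpow_const (by fun_prop) fun t => Or.inl (by positivity)
  have hdc : Continuous d :=
    (hcont _).add (continuous_id.mul (((continuous_const.mul continuous_id).mul continuous_const).mul
      (hcont _)))
  have hle : ∀ t : ℝ, (t ^ 2 + r ^ 2) ^ (-(1 / 3 : ℝ)) ≤ 3 * d t := by
    intro t
    have hb : 0 < t ^ 2 + r ^ 2 := by positivity
    simp only [d]
    rw [Real.rpow_sub hb, Real.rpow_one]
    set P := (t ^ 2 + r ^ 2) ^ (-(1 / 3 : ℝ))
    have hP : 0 < P := Real.rpow_pos_of_pos hb _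
    have hQ : t ^ 2 * (P / (t ^ 2 + r ^ 2)) ≤ P := by
      rw [mul_div_assoc', div_le_iff₀ hb]
      nlinarith [mul_pos hP (pow_pos hr 2)]
    nlinarith
  refine (intervalIntegral.integral_mono_on (g := fun t => 3 * d t) (by norm_num) ((hcont _).intervalIntegrable _ _)
    ((continuous_const.mul hdc).intervalIntegrable _ _) fun t _ => hle t).trans ?_
  rw [intervalIntegral.integral_const_mul, intervalIntegral.integral_eq_sub_of_hasDerivAt
    (fun t _ => hd t) (hdc.intervalIntegrable _ _)]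
  have hb : (((1 : ℝ) / 2) ^ 2 + r ^ 2) ^ (-(1 / 3 : ℝ)) ≤ 2 := by
    refine (Real.rpow_le_rpow_of_nonpos (by norm_num : (0 : ℝ) < 1 / 4) (by nlinarith)
      (by norm_num)).trans ?_
    rw [← pow_le_pow_iff_left₀ (Real.rpow_nonneg (by norm_num) _) (by norm_num) three_ne_zero,
      ← Real.rpow_natCast, ← Real.rpow_mul (by norm_num)]
    norm_num [Real.rpow_neg_one]
  simp only [prim, neg_sq]
  linarith

/-- The one-dimensional weight. -/
noncomputable def g1 (b : UnitAddCircle) (r : ℝ) (t : UnitAddCircle) : ℝ :=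
  ((1 - cs (t - b)) / (2 * Real.pi ^ 2) + r ^ 2) ^ (-(1 / 3 : ℝ))

lemma continuous_g1 (hr : 0 < r) (b : UnitAddCircle) : Continuous (g1 b r) := by
  refine Continuous.rpow_const (((continuous_const.sub
    (continuous_cs.comp (continuous_id.sub continuous_const))).div_const _).add continuous_const)
    fun t => Or.inl ?_
  exact (add_pos_of_nonneg_of_pos (div_nonneg (one_sub_cs_nonneg _) (by positivity))
    (by positivity)).ne'

lemma haar_eq_volume : (AddCircle.haarAddCircle : Measure UnitAddCircle) = volume := by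
  rw [AddCircle.volume_eq_smul_haarAddCircle]
  simp

lemma integral_g1_le (hr : 0 < r) (b : UnitAddCircle) :
    ∫ t, g1 b r t ∂AddCircle.haarAddCircle ≤ 30 := by
  rw [haar_eq_volume]
  obtain ⟨a, rfl⟩ := QuotientAddGroup.mk_surjective b
  rw [← UnitAddCircle.intervalIntegral_preimage (a - 1 / 2) (g1 (a : UnitAddCircle) r)]
  have e : ∀ t : ℝ, g1 (a : UnitAddCircle) r (t : UnitAddCircle) =
      ((1 - Real.cos (2 * Real.pi * (t - a))) / (2 * Real.pi ^ 2) + r ^ 2) ^ (-(1 / 3 : ℝ)) := by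
    intro t
    rw [g1, show (t : UnitAddCircle) - (a : UnitAddCircle) = ((t - a : ℝ) : UnitAddCircle) from rfl,
      cs_coe]
  simp only [e]
  rw [intervalIntegral.integral_comp_sub_right
    (fun t => ((1 - Real.cos (2 * Real.pi * t)) / (2 * Real.pi ^ 2) + r ^ 2) ^ (-(1 / 3 : ℝ))) a,
    show a - 1 / 2 - a = -(1 / 2 : ℝ) by ring, show a - 1 / 2 + 1 - a = (1 / 2 : ℝ) by ring]
  have hcont : Continuous fun t : ℝ => (t ^ 2 + r ^ 2) ^ (-(1 / 3 : ℝ)) :=
    Continuous.rpow_const (by fun_prop) fun t => Or.inl (by positivity)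
  have hcont' : Continuous fun t : ℝ =>
      ((1 - Real.cos (2 * Real.pi * t)) / (2 * Real.pi ^ 2) + r ^ 2) ^ (-(1 / 3 : ℝ)) :=
    Continuous.rpow_const (by fun_prop) fun t => Or.inl (add_pos_of_nonneg_of_pos
      (div_nonneg (by linarith [Real.cos_le_one (2 * Real.pi * t)]) (by positivity))
      (by positivity)).ne'
  refine (intervalIntegral.integral_mono_on (g := fun t => 5 * (t ^ 2 + r ^ 2) ^ (-(1 / 3 : ℝ)))
    (by norm_num) (hcont'.intervalIntegrable _ _)
    ((continuous_const.mul hcont).intervalIntegrable _ _) fun t ht => ?_).trans ?_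
  · have hπ := Real.pi_pos
    have h3 : |2 * Real.pi * t| ≤ Real.pi := by
      rw [abs_le]; constructor <;> nlinarith [ht.1, ht.2]
    have h4 := Real.cos_le_one_sub_mul_cos_sq h3
    have e : 2 / Real.pi ^ 2 * (2 * Real.pi * t) ^ 2 = 8 * t ^ 2 := by field_simp; ring
    have h5 : (1 / 8 : ℝ) * (t ^ 2 + r ^ 2) ≤
        (1 - Real.cos (2 * Real.pi * t)) / (2 * Real.pi ^ 2) + r ^ 2 := by
      have h6 : t ^ 2 / 8 ≤ (1 - Real.cos (2 * Real.pi * t)) / (2 * Real.pi ^ 2) := by
        rw [div_le_div_iff₀ (by norm_num) (by positivity)]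
        nlinarith [Real.pi_lt_d2, mul_nonneg (sq_nonneg t) hπ.le]
      nlinarith
    refine (Real.rpow_le_rpow_of_nonpos (by positivity) h5 (by norm_num)).trans ?_
    rw [Real.mul_rpow (by norm_num) (by positivity)]
    refine mul_le_mul_of_nonneg_right ?_ (Real.rpow_nonneg (by positivity) _)
    rw [← pow_le_pow_iff_left₀ (Real.rpow_nonneg (by norm_num) _) (by norm_num) three_ne_zero,
      ← Real.rpow_natCast, ← Real.rpow_mul (by norm_num)]
    norm_num [Real.rpow_neg_one]
  · rw [intervalIntegral.integral_const_mul]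
    linarith [integral_rpow_le hr]

lemma inv_phi_sq_le (hr : 0 < r) (z : T3) :
    (phi y r z ^ 2)⁻¹ ≤ ∏ i, g1 (y i) r (z i) := by
  set S := phi y r z ^ 2
  have hS : 0 < S := pow_pos (phi_pos y hr z) 2
  have hle : ∀ i, sq1 y z i + r ^ 2 ≤ S := fun i => by
    simp only [S, phi_sq]
    linarith [Finset.single_le_sum (f := fun j => sq1 y z j) (fun j _ => sq1_nonneg y z j)
      (Finset.mem_univ i)]
  have hg : ∀ i, S ^ (-(1 / 3 : ℝ)) ≤ g1 (y i) r (z i) := fun i =>
    Real.rpow_le_rpow_of_nonpos (add_pos_of_nonneg_of_pos (sq1_nonneg y z i) (by positivity))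
      (hle i) (by norm_num)
  refine le_trans (le_of_eq ?_) (Finset.prod_le_prod (f := fun _ => S ^ (-(1 / 3 : ℝ)))
    (fun i _ => Real.rpow_nonneg hS.le _) fun i _ => hg i)
  rw [Finset.prod_const, Finset.card_univ, Fintype.card_fin, ← Real.rpow_natCast,
    ← Real.rpow_mul hS.le]
  norm_num [Real.rpow_neg_one]

/-- The inverse square of the regularised distance is uniformly integrable. -/
lemma integral_inv_phi_sq (hr : 0 < r) : ∫ z, (phi y r z ^ 2)⁻¹ ∂vol ≤ 27000 := by
  have hint : ∀ i, Integrable (g1 (y i) r) AddCircle.haarAddCircle := fun i =>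
    (continuous_g1 hr (y i)).integrable_of_hasCompactSupport (HasCompactSupport.of_compactSpace _)
  have hF : Integrable (fun z : T3 => ∏ i, g1 (y i) r (z i)) vol := Integrable.fintype_prod hint
  have hphi : Continuous fun z => (phi y r z ^ 2)⁻¹ :=
    (((Four.sm_continuous (sm_phi y hr)).pow 2)).inv₀ fun z => (pow_pos (phi_pos y hr z) 2).ne'
  have : IsFiniteMeasure vol := by unfold vol; infer_instance
  refine (integral_mono (hphi.integrable_of_hasCompactSupport (HasCompactSupport.of_compactSpace _))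
    hF (inv_phi_sq_le y hr)).trans ?_
  rw [vol, integral_fintype_prod_eq_prod]
  refine le_trans (Finset.prod_le_prod (fun i _ => integral_nonneg fun t => ?_)
    fun i _ => integral_g1_le hr (y i)) (by norm_num)
  exact Real.rpow_nonneg (add_nonneg (div_nonneg (one_sub_cs_nonneg _) (by positivity)) (sq_nonneg r)) _

end Vale.Agent.P204.Levi
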