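import Vale.Agent.P204.Four
import Vale.Agent.P204.Cone
import Vale.Agent.P204.LeviBase

/-!
The test form `d (Λ d √(ρ² + r²))`.
-/

open MeasureTheory Filter Topology
open scoped ContDiff Matrix ComplexConjugate

namespace Vale.Agent.P204

noncomputable local instance : MeasureSpace UnitAddCircle := ⟨AddCircle.haarAddCircle⟩

local instance : IsProbabilityMeasure (volume : Measure UnitAddCircle) :=
  inferInstanceAs (IsProbabilityMeasure AddCircle.haarAddCircle)

local instance : Measure.IsAddHaarMeasure (volume : Measure UnitAddCircle) :=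
  inferInstanceAs (Measure.IsAddHaarMeasure AddCircle.haarAddCircle)

namespace Levi

open Four UnitAddTorus

/-- Parseval for a continuous real function. -/
lemma parseval_real {f : T3 → ℝ} (hf : Continuous f) :
    HasSum (fun k => ‖coef vol f k‖ ^ 2) (∫ x, f x ^ 2 ∂vol) := by
  set H : C(T3, ℂ) := ⟨fun x => (f x : ℂ), Complex.continuous_ofReal.comp hf⟩
  have h := hasSum_sq_mFourierCoeff (H.toLp 2 volume ℂ)
  simp only [mFourierCoeff_toLp] at h
  have e : ∫ t, ‖(H.toLp 2 volume ℂ) t‖ ^ 2 = ∫ x, f x ^ 2 ∂vol := by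
    refine integral_congr_ae ?_
    filter_upwards [ContinuousMap.coeFn_toLp (E := ℂ) (p := 2) (𝕜 := ℂ) (volume : Measure T3) H]
      with x hx
    rw [hx]
    simp [H, sq_abs]
  rw [e] at h
  exact h

lemma integrable_cont {f : T3 → ℝ} (hf : Continuous f) : Integrable f vol :=
  hf.integrable_of_hasCompactSupport (HasCompactSupport.of_compactSpace _)

/-- A Sobolev norm from integrals. -/
lemma sobolev_le {f : T3 → ℝ} {g : Fin 3 → T3 → ℝ} (hf : Sm f) (hg : ∀ i, Continuous (g i))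
    (h : ∀ i x, fderiv ℝ (f ∘ pt) x (Pi.single i 1) = g i (pt x)) :
    Summable (fun k => wt k * ‖coef vol f k‖ ^ 2) ∧
      ∑' k, wt k * ‖coef vol f k‖ ^ 2 ≤ ∫ x, (f x ^ 2 + ∑ i, g i x ^ 2) ∂vol := by
  have hsum : HasSum (fun k => ‖coef vol f k‖ ^ 2 + ∑ i, ‖coef vol (g i) k‖ ^ 2)
      (∫ x, (f x ^ 2 + ∑ i, g i x ^ 2) ∂vol) := by
    rw [integral_add (f := fun x => f x ^ 2) (g := fun x => ∑ i, g i x ^ 2)
      (integrable_cont ((sm_continuous hf).pow 2))
      (integrable_cont (continuous_finsetSum _ fun i _ => (hg i).pow 2)),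
      integral_finsetSum _ (f := fun i x => g i x ^ 2) fun i _ => integrable_cont ((hg i).pow 2)]
    exact (parseval_real (sm_continuous hf)).add (hasSum_sum fun i _ => parseval_real (hg i))
  have hle : ∀ k, wt k * ‖coef vol f k‖ ^ 2 ≤
      ‖coef vol f k‖ ^ 2 + ∑ i, ‖coef vol (g i) k‖ ^ 2 := by
    intro k
    rw [wt, add_mul, one_mul, Finset.sum_mul]
    refine add_le_add le_rfl (Finset.sum_le_sum fun i _ => ?_)
    rw [coef_deriv hf i (h i) k, norm_mul, mul_pow]
    refine mul_le_mul_of_nonneg_right ?_ (sq_nonneg _)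
    simp only [norm_mul, Complex.norm_two, Complex.norm_real, Complex.norm_I, mul_one,
      Complex.norm_intCast, Real.norm_eq_abs, abs_of_pos Real.pi_pos, mul_pow, sq_abs]
    refine le_mul_of_one_le_left (sq_nonneg _) ?_
    nlinarith [Real.pi_gt_three]
  have hs : Summable fun k => wt k * ‖coef vol f k‖ ^ 2 :=
    Summable.of_nonneg_of_le (fun k => mul_nonneg (by linarith [one_le_wt k]) (sq_nonneg _)) hle
      hsum.summable
  exact ⟨hs, (hs.tsum_le_tsum hle hsum.summable).trans (le_of_eq hsum.tsum_eq)⟩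

/-- The exterior product with a coordinate covector, as a linear map. -/
def wedgeE (i : Fin 3) : (Fin 4 → ℝ) →ₗ[ℝ] F6 where
  toFun θ := wedge3 (Pi.single i 1) θ
  map_add' θ η := by ext j; fin_cases j <;> simp [wedge3] <;> ring
  map_smul' c θ := by ext j; fin_cases j <;> simp [wedge3] <;> ring

lemma sm_wedgeE {θ : T3 → Fin 4 → ℝ} (hθ : ∀ a, Sm fun z => θ z a) (i : Fin 3) (c : Fin 6) :
    Sm fun z => wedgeE i (θ z) c := by
  have e : ∀ z, wedgeE i (θ z) c = ∑ a, θ z a * wedgeE i (Pi.single a 1) c := by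
    intro z
    conv_lhs => rw [pi_eq_sum_univ' (θ z), map_sum, Finset.sum_apply]
    simp only [map_smul, Pi.smul_apply, smul_eq_mul]
  simp only [e]
  exact ContDiff.sum fun a _ => (hθ a).mul contDiff_const

variable (D : Data)

/-- The Levi form as a bilinear expression in coordinate covectors. -/
def lev (x : T3) (i j : Fin 3) : F6 := wedgeE i fun a => D.lam x a j

lemma lev_quad (x : T3) (ξ : Fin 3 → ℝ) :
    wedge3 ξ (D.lam x *ᵥ ξ) = ∑ i, ∑ j, (ξ i * ξ j) • lev D x i j := by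
  ext c
  fin_cases c <;>
    simp [wedge3, lev, wedgeE, Matrix.mulVec, dotProduct, Fin.sum_univ_succ, Pi.single_apply] <;>
    ring

lemma lev_diag (x : T3) (i : Fin 3) :
    wedge3 (Pi.single i 1) (D.lam x *ᵥ Pi.single i 1) = lev D x i i := by
  rw [Matrix.mulVec_single_one]; rfl

lemma pr_lev_symm (x : T3) (i j : Fin 3) : D.pr x *ᵥ (lev D x i j + lev D x j i) = 0 := by
  have h := D.pr_levi x (Pi.single i 1 + Pi.single j 1)
  have hi := D.pr_levi x (Pi.single i 1)
  have hj := D.pr_levi x (Pi.single j 1)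
  rw [lev_diag] at hi hj
  have e : wedge3 (Pi.single i 1 + Pi.single j 1) (D.lam x *ᵥ (Pi.single i 1 + Pi.single j 1)) =
      lev D x i i + lev D x j j + (lev D x i j + lev D x j i) := by
    rw [Matrix.mulVec_add, Matrix.mulVec_single_one, Matrix.mulVec_single_one]
    ext c
    fin_cases c <;> simp [wedge3, lev, wedgeE] <;> ring
  rw [e, Matrix.mulVec_add, Matrix.mulVec_add, hi, hj, zero_add, zero_add] at h
  exact h

lemma pr_symm_sum (x : T3) (H : Fin 3 → Fin 3 → ℝ) (hH : ∀ i j, H i j = H j i) :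
    D.pr x *ᵥ (∑ i, ∑ j, H i j • lev D x i j) = 0 := by
  set S := ∑ i, ∑ j, H i j • lev D x i j with hS
  have e : S + S = ∑ i, ∑ j, H i j • (lev D x i j + lev D x j i) := by
    simp only [smul_add, Finset.sum_add_distrib, hS]
    congr 1
    rw [Finset.sum_comm]
    exact Finset.sum_congr rfl fun i _ => Finset.sum_congr rfl fun j _ => by rw [hH j i]
  have h2 : D.pr x *ᵥ S + D.pr x *ᵥ S = 0 := by
    rw [← Matrix.mulVec_add, e, Matrix.mulVec_sum]
    refine Finset.sum_eq_zero fun i _ => ?_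
    rw [Matrix.mulVec_sum]
    exact Finset.sum_eq_zero fun j _ => by rw [Matrix.mulVec_smul, pr_lev_symm, smul_zero]
  ext c
  have := congrFun h2 c
  simp only [Pi.add_apply, Pi.zero_apply] at this
  simp only [Pi.zero_apply]
  linarith

/-- The positive part of the Hessian pairs nonnegatively with the cone. -/
lemma pair_psd {x : T3} {u : F6} (hu : u ∈ D.cone x) (p : Fin 3 → ℝ) {P2 : ℝ}
    (hP : ∑ i, p i ^ 2 ≤ P2) :
    0 ≤ ∑ i, ∑ j, ((if i = j then P2 else 0) - p i * p j) * qR D.s u (lev D x i j) := by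
  have hQ : ∀ ξ : Fin 3 → ℝ, 0 ≤ ∑ i, ∑ j, ξ i * ξ j * qR D.s u (lev D x i j) := by
    intro ξ
    have h := cone_pair_nonneg D hu (levi_mem_cone D x ξ)
    rw [lev_quad] at h
    simpa only [qR_sum_right, qR_smul_right] using h
  have h0 := hQ ![p 1, -p 0, 0]
  have h1 := hQ ![0, p 2, -p 1]
  have h2 := hQ ![-p 2, 0, p 0]
  have d0 : 0 ≤ qR D.s u (lev D x 0 0) := by
    simpa [Fin.sum_univ_succ, Pi.single_apply] using hQ (Pi.single 0 1)
  have d1 : 0 ≤ qR D.s u (lev D x 1 1) := by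
    simpa [Fin.sum_univ_succ, Pi.single_apply] using hQ (Pi.single 1 1)
  have d2 : 0 ≤ qR D.s u (lev D x 2 2) := by
    simpa [Fin.sum_univ_succ, Pi.single_apply] using hQ (Pi.single 2 1)
  simp only [Fin.sum_univ_three] at hP h0 h1 h2 ⊢
  simp only [Fin.reduceEq, if_true, if_false, Matrix.cons_val] at h0 h1 h2 ⊢
  have hd := sub_nonneg.2 hP
  nlinarith [mul_nonneg hd (add_nonneg (add_nonneg d0 d1) d2)]

lemma abs_qR_cone : ∃ C, 0 ≤ C ∧ ∀ x, ∀ u ∈ D.cone x, ∀ v : F6,
    |qR D.s u v| ≤ C * qR D.s u (D.e0 x) * ‖v‖ := by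
  obtain ⟨C, hC⟩ := cone_bdd D
  refine ⟨6 * max C 0, by positivity, fun x u hu v => ?_⟩
  refine (abs_qR_le D.hs u v).trans ?_
  have := (hC x u hu).trans (mul_le_mul_of_nonneg_right (le_max_left C 0) hu.2.2)
  calc 6 * (‖u‖ * ‖v‖) ≤ 6 * ((max C 0 * qR D.s u (D.e0 x)) * ‖v‖) := by
        gcongr
    _ = _ := by ring

lemma fderiv_sum_mul {ι : Type*} [Fintype ι] {a b : ι → T3 → ℝ} (ha : ∀ j, Sm (a j))
    (hb : ∀ j, Sm (b j)) (x v : Fin 3 → ℝ) :
    fderiv ℝ ((fun z => ∑ j, a j z * b j z) ∘ pt) x v =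
      ∑ j, (a j (pt x) * fderiv ℝ (b j ∘ pt) x v + b j (pt x) * fderiv ℝ (a j ∘ pt) x v) := by
  have hd : ∀ j, HasFDerivAt (fun x => a j (pt x) * b j (pt x))
      (a j (pt x) • fderiv ℝ (b j ∘ pt) x + b j (pt x) • fderiv ℝ (a j ∘ pt) x) x := fun j =>
    ((ha j).differentiable (by simp) x).hasFDerivAt.mul
      ((hb j).differentiable (by simp) x).hasFDerivAt
  rw [show (fun z => ∑ j, a j z * b j z) ∘ pt = fun x => ∑ j, a j (pt x) * b j (pt x) from rfl,
    (HasFDerivAt.fun_sum fun j _ => hd j).fderiv]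
  simp

lemma cf_exterior_exact {θ : Fin 4 → T3 → ℝ} {Dθ : Fin 3 → Fin 4 → T3 → ℝ}
    (hθ : ∀ a, Sm (θ a)) (hDθ : ∀ i a, Sm (Dθ i a))
    (hd : ∀ i a x, fderiv ℝ (θ a ∘ pt) x (Pi.single i 1) = Dθ i a (pt x)) (k : Idx) :
    ExactAt k (cf vol (fun z => ∑ i, wedgeE i fun a => Dθ i a z) k) := by
  set w : T3 → F6 := fun z => ∑ i, wedgeE i fun a => Dθ i a z with hw
  have hcoef : ∀ i a, coef vol (Dθ i a) k = 2 * Real.pi * Complex.I * (k i) * coef vol (θ a) k :=
    fun i a => coef_deriv (hθ a) i (hd i a) k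
  have hsub : ∀ {f g : T3 → ℝ}, Sm f → Sm g →
      coef vol (fun z => f z - g z) k = coef vol f k - coef vol g k := by
    intro f g hf hg
    obtain ⟨Cf, -, hCf⟩ := exists_bound (Complex.continuous_ofReal.comp (sm_continuous hf))
    obtain ⟨Cg, -, hCg⟩ := exists_bound (Complex.continuous_ofReal.comp (sm_continuous hg))
    simp only [coef, Complex.ofReal_sub, mul_sub]
    exact integral_sub (integrable_e_mul _ (Complex.continuous_ofReal.comp
        (sm_continuous hf)).aestronglyMeasurable hCf)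
      (integrable_e_mul _ (Complex.continuous_ofReal.comp
        (sm_continuous hg)).aestronglyMeasurable hCg)
  have e : ∀ z, w z = ![Dθ 1 2 z - Dθ 2 1 z, Dθ 2 0 z - Dθ 0 2 z, Dθ 0 1 z - Dθ 1 0 z,
      Dθ 0 3 z, Dθ 1 3 z, Dθ 2 3 z] := by
    intro z
    ext c
    fin_cases c <;> simp [hw, wedgeE, wedge3, Fin.sum_univ_three, Pi.single_apply] <;> ring
  set q : ℂ := 2 * Real.pi * Complex.I
  have c0 : cf vol w k 0 = q * (k 1) * coef vol (θ 2) k - q * (k 2) * coef vol (θ 1) k := by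
    simp only [cf, e, Matrix.cons_val]
    rw [hsub (hDθ 1 2) (hDθ 2 1), hcoef, hcoef]
  have c1 : cf vol w k 1 = q * (k 2) * coef vol (θ 0) k - q * (k 0) * coef vol (θ 2) k := by
    simp only [cf, e, Matrix.cons_val]
    rw [hsub (hDθ 2 0) (hDθ 0 2), hcoef, hcoef]
  have c2 : cf vol w k 2 = q * (k 0) * coef vol (θ 1) k - q * (k 1) * coef vol (θ 0) k := by
    simp only [cf, e, Matrix.cons_val]
    rw [hsub (hDθ 0 1) (hDθ 1 0), hcoef, hcoef]
  have c3 : cf vol w k 3 = q * (k 0) * coef vol (θ 3) k := by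
    simp only [cf, e, Matrix.cons_val]; exact hcoef 0 3
  have c4 : cf vol w k 4 = q * (k 1) * coef vol (θ 3) k := by
    simp only [cf, e, Matrix.cons_val]; exact hcoef 1 3
  have c5 : cf vol w k 5 = q * (k 2) * coef vol (θ 3) k := by
    simp only [cf, e, Matrix.cons_val]; exact hcoef 2 3
  refine ⟨⟨?_, ?_, ?_, ?_⟩, fun hk => ?_⟩
  · rw [c0, c1, c2]; ring
  · rw [c4, c5]; ring
  · rw [c3, c5]; ring
  · rw [c3, c4]; ring
  · subst hk
    ext c
    fin_cases c <;> simp [c0, c1, c2, c3, c4, c5]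

/-- The pointwise Sobolev density of `∑ j, dphi j * F j`. -/
lemma density_le (y : T3) {r : ℝ} (hr : r ∈ Set.Ioc (0 : ℝ) 1) {F : Fin 3 → T3 → ℝ}
    {G : Fin 3 → Fin 3 → T3 → ℝ} {A : ℝ} (hF : ∀ j z, |F j z| ≤ A)
    (hG : ∀ i j z, |G i j z| ≤ A) (z : T3) :
    (∑ j, dphi y r j z * F j z) ^ 2 +
      ∑ i, (∑ j, (ddphi y r i j z * F j z + dphi y r j z * G i j z)) ^ 2 ≤
      480 * A ^ 2 * (phi y r z ^ 2)⁻¹ := by
  have hr0 := hr.1
  have hp := phi_pos y hr0 z
  have h1 : (1 : ℝ) ≤ 2 / phi y r z := (one_le_div hp).2 (phi_le_two y hr z)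
  set q := 2 / phi y r z
  have hA0 : 0 ≤ A := (abs_nonneg _).trans (hF 0 z)
  have hf1 : |∑ j, dphi y r j z * F j z| ≤ 3 * (q * A) := by
    refine (Finset.abs_sum_le_sum_abs _ _).trans ((Finset.sum_le_card_nsmul _ _ (q * A)
      fun j _ => ?_).trans (by simp))
    rw [abs_mul]
    exact mul_le_mul ((dphi_abs_le y hr0 z j).trans h1) (hF j z) (abs_nonneg _) (by positivity)
  have hg1 : ∀ i, |∑ j, (ddphi y r i j z * F j z + dphi y r j z * G i j z)| ≤ 6 * (q * A) :=
    fun i => by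
    refine (Finset.abs_sum_le_sum_abs _ _).trans ((Finset.sum_le_card_nsmul _ _ (2 * (q * A))
      fun j _ => ?_).trans (le_of_eq (by simp; ring)))
    refine (abs_add_le _ _).trans ?_
    rw [abs_mul, abs_mul, two_mul]
    exact add_le_add (mul_le_mul (ddphi_abs_le y hr0 z i j) (hF j z) (abs_nonneg _) (by positivity))
      (mul_le_mul ((dphi_abs_le y hr0 z j).trans h1) (hG i j z) (abs_nonneg _) (by positivity))
  have sq_of : ∀ {a b : ℝ}, |a| ≤ b → a ^ 2 ≤ b ^ 2 := fun {a b} h =>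
    (sq_abs a).symm.le.trans (pow_le_pow_left₀ (abs_nonneg a) h 2)
  have e : 480 * A ^ 2 * (phi y r z ^ 2)⁻¹ = 120 * (q * A) ^ 2 := by
    simp only [q]; field_simp; ring
  rw [e]
  simp only [Fin.sum_univ_three]
  have := sq_of hf1
  have := sq_of (hg1 0)
  have := sq_of (hg1 1)
  have := sq_of (hg1 2)
  simp only [Fin.sum_univ_three] at *
  nlinarith [sq_nonneg (q * A)]

/-- The uniform Sobolev bound of `∑ j, dphi j * F j`. -/
lemma sobolev_test {F : Fin 3 → T3 → ℝ} (hF : ∀ j, Sm (F j)) : ∃ C, 0 ≤ C ∧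
    ∀ (y : T3) (r : ℝ), r ∈ Set.Ioc (0 : ℝ) 1 →
      Summable (fun k => wt k * ‖coef vol (fun z => ∑ j, dphi y r j z * F j z) k‖ ^ 2) ∧
        ∑' k, wt k * ‖coef vol (fun z => ∑ j, dphi y r j z * F j z) k‖ ^ 2 ≤ C := by
  choose G hG hGd using fun i j => exists_deriv (hF j) i
  choose BF hBF0 hBF using fun j => Sm.bdd (hF j)
  choose BG hBG0 hBG using fun i j => Sm.bdd (hG i j)
  set A := ∑ j, BF j + ∑ i, ∑ j, BG i j
  have hFA : ∀ j z, |F j z| ≤ A := fun j z => by
    refine (hBF j z).trans (le_add_of_le_of_nonneg ?_ ?_)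
    · exact Finset.single_le_sum (fun j _ => hBF0 j) (Finset.mem_univ j)
    · exact Finset.sum_nonneg fun i _ => Finset.sum_nonneg fun j _ => hBG0 i j
  have hGA : ∀ i j z, |G i j z| ≤ A := fun i j z => by
    refine (hBG i j z).trans (le_add_of_nonneg_of_le (Finset.sum_nonneg fun j _ => hBF0 j) ?_)
    exact (Finset.single_le_sum (fun j _ => hBG0 i j) (Finset.mem_univ j)).trans
      (Finset.single_le_sum (f := fun i => ∑ j, BG i j)
        (fun i _ => Finset.sum_nonneg fun j _ => hBG0 i j) (Finset.mem_univ i))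
  refine ⟨480 * A ^ 2 * 27000, by positivity, fun y r hr => ?_⟩
  have hr0 := hr.1
  set f := fun z => ∑ j, dphi y r j z * F j z
  set g : Fin 3 → T3 → ℝ := fun i z =>
    ∑ j, (ddphi y r i j z * F j z + dphi y r j z * G i j z)
  have hfsm : Sm f := ContDiff.sum fun j _ => (sm_dphi y hr0 j).mul (hF j)
  have hgc : ∀ i, Continuous (g i) := fun i => sm_continuous
    (ContDiff.sum fun j _ => ((sm_ddphi y hr0 i j).mul (hF j)).add
      ((sm_dphi y hr0 j).mul (hG i j)))
  have hgd : ∀ i x, fderiv ℝ (f ∘ pt) x (Pi.single i 1) = g i (pt x) := by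
    intro i x
    rw [fderiv_sum_mul (fun j => sm_dphi y hr0 j) hF]
    simp only [g, hGd, fderiv_dphi y hr0]
    exact Finset.sum_congr rfl fun j _ => by ring
  obtain ⟨h1, h2⟩ := sobolev_le hfsm hgc hgd
  refine ⟨h1, h2.trans ?_⟩
  refine (integral_mono (g := fun z => 480 * A ^ 2 * (phi y r z ^ 2)⁻¹) (integrable_cont ?_) ?_
    (density_le y hr hFA hGA)).trans ?_
  · exact ((sm_continuous hfsm).pow 2).add (continuous_finsetSum _ fun i _ => (hgc i).pow 2)
  · exact integrable_cont (continuous_const.mul ((((sm_continuous (sm_phi y hr0)).pow 2)).inv₀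
      fun z => (pow_pos (phi_pos y hr0 z) 2).ne'))
  · rw [integral_const_mul]
    exact mul_le_mul_of_nonneg_left (integral_inv_phi_sq y hr0) (by positivity)

/-- The Hessian term split into a positive part and a bounded part. -/
lemma hess_pair_lower : ∃ C c0 : ℝ, 0 ≤ C ∧ 0 < c0 ∧ ∀ (y : T3) (r : ℝ), 0 < r → ∀ x,
    ∀ u ∈ D.cone x,
      -(C * qR D.s u (D.e0 x)) + r ^ 2 / phi y r x ^ 3 * (c0 * qR D.s u (D.e0 x)) ≤
        ∑ i, ∑ j, ddphi y r i j x * qR D.s u (lev D x i j) := by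
  obtain ⟨Cq, hCq0, hCq⟩ := abs_qR_cone D
  obtain ⟨c0, hc0, hlev⟩ := cone_levi_lower D
  obtain ⟨Bd, hBd0, hBd⟩ : ∃ B, 0 ≤ B ∧ ∀ x i, ‖lev D x i i‖ ≤ B := by
    have hc : ∀ i, Continuous fun x => lev D x i i := fun i => by
      simpa only [lev_diag] using Sm.continuous_wedge3 D (Pi.single i 1)
    choose B hB0 hB using fun i => exists_bound (hc i)
    exact ⟨∑ i, B i, Finset.sum_nonneg fun i _ => hB0 i, fun x i =>
      (hB i x).trans (Finset.single_le_sum (fun i _ => hB0 i) (Finset.mem_univ i))⟩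
  refine ⟨3 * (7 * (Cq * Bd)), c0, by positivity, hc0, fun y r hr0 x u hu => ?_⟩
  set τ := qR D.s u (D.e0 x)
  have hτ : 0 ≤ τ := hu.2.2
  have hp := phi_pos y hr0 x
  set M := fun i j => qR D.s u (lev D x i j)
  set P := pp y x
  have key : ∀ i j, ddphi y r i j x * M i j = (phi y r x ^ 3)⁻¹ *
      (((if i = j then ∑ l, sq1 y x l else 0) - P i * P j) * M i j) +
      if i = j then r ^ 2 / phi y r x ^ 3 * M i i + (cs (x i - y i) - 1) / phi y r x * M i i
        else 0 := by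
    intro i j
    simp only [ddphi, P]
    rcases eq_or_ne i j with rfl | h
    · simp only [if_pos]
      have e := phi_sq y r x
      field_simp
      linear_combination (M i i) * e
    · simp only [if_neg h]; field_simp; ring
  have hpsd := pair_psd D hu P (P2 := ∑ l, sq1 y x l)
    (Finset.sum_le_sum fun i _ => pp_sq_le y x i)
  have hlsum : c0 * τ ≤ ∑ i, M i i := by
    have h := hlev x u hu
    simpa only [qR_sum_right, lev_diag] using h
  have hrem : ∀ i, -(7 * (Cq * Bd) * τ) ≤ (cs (x i - y i) - 1) / phi y r x * M i i := by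
    intro i
    refine neg_le_of_abs_le ?_
    rw [abs_mul]
    have h1 : |(cs (x i - y i) - 1) / phi y r x| ≤ 7 := by
      rw [abs_div, abs_of_pos hp, abs_sub_comm, abs_of_nonneg (one_sub_cs_nonneg _),
        div_le_iff₀ hp]
      have hS : sq1 y x i ≤ phi y r x * (1 / 3) := by
        have h1 : sq1 y x i ≤ phi y r x ^ 2 := by
          rw [phi_sq]
          linarith [sq_nonneg r, Finset.single_le_sum (f := fun j => sq1 y x j)
            (fun j _ => sq1_nonneg y x j) (Finset.mem_univ i)]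
        have h2 := sq1_le_inv y x i
        by_contra hcon
        push Not at hcon
        have : phi y r x ≤ 1 / 3 := by linarith
        nlinarith
      have e : 1 - cs (x i - y i) = sq1 y x i * (2 * Real.pi ^ 2) := by
        rw [sq1]; field_simp
      rw [e]
      have hπ : 2 * Real.pi ^ 2 ≤ 21 := by nlinarith [Real.pi_lt_d2, Real.pi_pos]
      nlinarith [mul_le_mul hS hπ (by positivity) (by positivity)]
    refine (mul_le_mul h1 ((hCq x u hu _).trans (mul_le_mul_of_nonneg_left (hBd x i)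
      (mul_nonneg hCq0 hτ))) (abs_nonneg _) (by norm_num)).trans (le_of_eq (by ring))
  have hps : 0 ≤ (phi y r x ^ 3)⁻¹ *
      ∑ i, ∑ j, ((if i = j then ∑ l, sq1 y x l else 0) - P i * P j) * M i j :=
    mul_nonneg (by positivity) hpsd
  have hmain : r ^ 2 / phi y r x ^ 3 * (c0 * τ) ≤ r ^ 2 / phi y r x ^ 3 * ∑ i, M i i :=
    mul_le_mul_of_nonneg_left hlsum (by positivity)
  simp only [M] at key hps hmain hrem
  simp only [key, Finset.sum_add_distrib, ← Finset.mul_sum, Finset.sum_ite_eq, Finset.mem_univ,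
    if_true]
  have hr3 : -(3 * (7 * (Cq * Bd)) * τ) ≤
      ∑ i, (cs (x i - y i) - 1) / phi y r x * qR D.s u (lev D x i i) := by
    simp only [Fin.sum_univ_three]; linarith [hrem 0, hrem 1, hrem 2]
  linarith

/-- The first-order term. -/
def firstTerm (L : Fin 3 → Fin 4 → Fin 3 → T3 → ℝ) (j : Fin 3) (z : T3) : F6 :=
  ∑ i, wedgeE i fun a => L i a j z

lemma test_decomp (L : Fin 3 → Fin 4 → Fin 3 → T3 → ℝ) (d : Fin 3 → ℝ) (dd : Fin 3 → Fin 3 → ℝ)
    (z : T3) :
    (∑ i, wedgeE i fun a => ∑ j, (L i a j z * d j + D.lam z a j * dd i j)) =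
      (∑ j, d j • firstTerm L j z) + ∑ i, ∑ j, dd i j • lev D z i j := by
  simp only [firstTerm, lev, Finset.smul_sum]
  rw [Finset.sum_comm (γ := Fin 3), ← Finset.sum_add_distrib]
  refine Finset.sum_congr rfl fun i _ => ?_
  simp only [← map_smul, ← map_sum, ← map_add]
  congr 1
  funext a
  simp only [Pi.add_apply, Finset.sum_apply, Pi.smul_apply, smul_eq_mul, Finset.sum_add_distrib]
  congr 1 <;> exact Finset.sum_congr rfl fun j _ => by ring

lemma ddphi_symm (y : T3) (r : ℝ) (i j : Fin 3) (z : T3) :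
    ddphi y r i j z = ddphi y r j i z := by
  simp only [ddphi]
  rcases eq_or_ne i j with rfl | h
  · rfl
  · rw [if_neg h, if_neg h.symm]; ring

lemma inv_mul_le {C c0 r φ : ℝ} (hc0 : 0 < c0) (hr : 0 < r) (hφ : 0 < φ) (hφr : φ ≤ 2 * r)
    (hC : 8 / c0 ≤ C) : (C * r)⁻¹ ≤ r ^ 2 / φ ^ 3 * c0 := by
  have hC0 : 0 < C := lt_of_lt_of_le (by positivity) hC
  rw [div_le_iff₀ hc0] at hC
  rw [div_mul_eq_mul_div, inv_eq_one_div, div_le_div_iff₀ (by positivity) (by positivity)]
  calc 1 * φ ^ 3 ≤ (2 * r) ^ 3 := by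
        rw [one_mul]; exact pow_le_pow_left₀ hφ.le hφr 3
    _ = 8 * r ^ 3 := by ring
    _ ≤ C * c0 * r ^ 3 := mul_le_mul_of_nonneg_right hC (by positivity)
    _ = _ := by ring

end Levi

open Levi Four in
theorem exists_growth_test (D : Data) : ∃ C > 0, ∀ (y : T3) (r : ℝ), r ∈ Set.Ioc (0 : ℝ) 1 →
    ∃ w : T3 → F6, Sm w ∧ (∀ k, ExactAt k (cf vol w k)) ∧
      (∑' k, wt k * ‖cf vol (fun x => D.pr x *ᵥ w x) k‖ ^ 2 ≤ C) ∧
      ∀ x, ∀ u ∈ D.cone x,
        -(C * qR D.s u (D.e0 x)) ≤ qR D.s u (w x) ∧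
        (dist x y < r → (C * r)⁻¹ * qR D.s u (D.e0 x) - C * qR D.s u (D.e0 x) ≤
          qR D.s u (w x)) := by
  choose L hL hLd using fun (i : Fin 3) (a : Fin 4) (j : Fin 3) => exists_deriv (D.sm_lam a j) i
  have hKsm : ∀ j, Sm (firstTerm L j) := fun j => contDiff_pi.2 fun c => by
    have e : (fun x => (firstTerm L j ∘ pt) x c) =
        (fun z => ∑ i, wedgeE i (fun a => L i a j z) c) ∘ pt := by
      funext x; simp [firstTerm, Finset.sum_apply]
    rw [e]
    exact ContDiff.sum fun i _ => sm_wedgeE (fun a => hL i a j) i c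
  set PK : Fin 6 → Fin 3 → T3 → ℝ := fun c j z => ∑ b, D.pr z c b * firstTerm L j z b with hPK
  have hPKsm : ∀ c j, Sm (PK c j) := fun c j =>
    ContDiff.sum fun b _ => (D.sm_pr c b).mul (sm_comp (hKsm j) b)
  choose CS hCS0 hCS using fun c => sobolev_test (hPKsm c)
  choose BK hBK0 hBK using fun j => Sm.bdd (hKsm j)
  obtain ⟨Cq, hCq0, hCq⟩ := abs_qR_cone D
  obtain ⟨CH, c0, hCH, hc0, hH⟩ := hess_pair_lower D
  have hsum1 : 0 ≤ Cq * ∑ j, BK j := mul_nonneg hCq0 (Finset.sum_nonneg fun j _ => hBK0 j)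
  have hsum2 : 0 ≤ ∑ c, CS c := Finset.sum_nonneg fun c _ => hCS0 c
  have h80 : 0 ≤ 8 / c0 := by positivity
  set C := 8 / c0 + CH + Cq * (∑ j, BK j) + (∑ c, CS c) + 1 with hC
  refine ⟨C, by positivity, fun y r hr => ?_⟩
  have hr0 := hr.1
  set θ : Fin 4 → T3 → ℝ := fun a z => ∑ j, D.lam z a j * dphi y r j z
  set Dθ : Fin 3 → Fin 4 → T3 → ℝ := fun i a z =>
    ∑ j, (L i a j z * dphi y r j z + D.lam z a j * ddphi y r i j z)
  have hθ : ∀ a, Sm (θ a) := fun a =>
    ContDiff.sum fun j _ => (D.sm_lam a j).mul (sm_dphi y hr0 j)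
  have hDθ : ∀ i a, Sm (Dθ i a) := fun i a =>
    ContDiff.sum fun j _ => ((hL i a j).mul (sm_dphi y hr0 j)).add
      ((D.sm_lam a j).mul (sm_ddphi y hr0 i j))
  have hd : ∀ i a x, fderiv ℝ (θ a ∘ pt) x (Pi.single i 1) = Dθ i a (pt x) := by
    intro i a x
    rw [fderiv_sum_mul (fun j => D.sm_lam a j) fun j => sm_dphi y hr0 j]
    simp only [Dθ, hLd, fderiv_dphi y hr0]
    exact Finset.sum_congr rfl fun j _ => by ring
  set w : T3 → F6 := fun z => ∑ i, wedgeE i fun a => Dθ i a z with hw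
  have hwsm : Sm w := contDiff_pi.2 fun c => by
    have e : (fun x => (w ∘ pt) x c) = (fun z => ∑ i, wedgeE i (fun a => Dθ i a z) c) ∘ pt := by
      funext x; simp [hw, Finset.sum_apply]
    rw [e]
    exact ContDiff.sum fun i _ => sm_wedgeE (fun a => hDθ i a) i c
  have hdec : ∀ z, w z = (∑ j, dphi y r j z • firstTerm L j z) +
      ∑ i, ∑ j, ddphi y r i j z • lev D z i j := fun z =>
    test_decomp D L (fun j => dphi y r j z) (fun i j => ddphi y r i j z) z
  refine ⟨w, hwsm, fun k => cf_exterior_exact hθ hDθ hd k, ?_, fun x u hu => ?_⟩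
  · have hpr : ∀ z, D.pr z *ᵥ w z = fun c => ∑ j, dphi y r j z * PK c j z := by
      intro z
      rw [hdec, Matrix.mulVec_add, pr_symm_sum D z _ fun i j => ddphi_symm y r i j z, add_zero,
        Matrix.mulVec_sum]
      funext c
      simp only [Finset.sum_apply, Matrix.mulVec_smul, Pi.smul_apply, smul_eq_mul, hPK,
        Matrix.mulVec, dotProduct]
    have e : ∀ k, wt k * ‖cf vol (fun x => D.pr x *ᵥ w x) k‖ ^ 2 =
        ∑ c, wt k * ‖coef vol (fun z => ∑ j, dphi y r j z * PK c j z) k‖ ^ 2 := by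
      intro k
      simp only [hpr, EuclideanSpace.norm_sq_eq, cf, Finset.mul_sum]
    simp only [e]
    rw [Summable.tsum_finsetSum fun c _ => (hCS c y r hr).1]
    refine (Finset.sum_le_sum fun c _ => (hCS c y r hr).2).trans ?_
    simp only [hC]; linarith
  · set τ := qR D.s u (D.e0 x)
    have hτ : 0 ≤ τ := hu.2.2
    have h2 := hH y r hr0 x u hu
    have h1 : -(Cq * (∑ j, BK j) * τ) ≤ ∑ j, dphi y r j x * qR D.s u (firstTerm L j x) := by
      refine neg_le_of_abs_le ((Finset.abs_sum_le_sum_abs _ _).trans ?_)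
      rw [Finset.mul_sum, Finset.sum_mul]
      refine Finset.sum_le_sum fun j _ => ?_
      rw [abs_mul]
      refine (mul_le_of_le_one_left (abs_nonneg _) (dphi_abs_le y hr0 x j)).trans ?_
      refine ((hCq x u hu _).trans (mul_le_mul_of_nonneg_left (hBK j x)
        (mul_nonneg hCq0 hτ))).trans (le_of_eq (by ring))
    have hval : qR D.s u (w x) = (∑ j, dphi y r j x * qR D.s u (firstTerm L j x)) +
        ∑ i, ∑ j, ddphi y r i j x * qR D.s u (lev D x i j) := by
      rw [hdec]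
      simp only [qR_add_right, qR_sum_right, qR_smul_right]
    have hCτ : (CH + Cq * ∑ j, BK j) * τ ≤ C * τ :=
      mul_le_mul_of_nonneg_right (by simp only [hC]; linarith) hτ
    refine ⟨?_, fun hdist => ?_⟩
    · have : 0 ≤ r ^ 2 / phi y r x ^ 3 * (c0 * τ) := by have := phi_pos y hr0 x; positivity
      rw [hval]
      linarith
    · have h8 := mul_le_mul_of_nonneg_right (inv_mul_le (C := C) hc0 hr0 (phi_pos y hr0 x)
        (phi_le_near y hr0 hdist) (by simp only [hC]; linarith)) hτ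
      rw [hval]
      linarith

end Vale.Agent.P204
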