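import Vale.Agent.P204.Steps
import Vale.Agent.P204.Density

/-!
Tamed implies compatible for data which do not depend on the fourth coordinate.
-/

open MeasureTheory Filter Topology
open scoped ContDiff ComplexConjugate Matrix

namespace Vale.Agent.P204

variable {D : Data} {μ : Measure T3} {t : T3 → F6} {S : Idx → C6}

/-- The last three components. -/
noncomputable def upper : F6 →L[ℝ] (Fin 3 → ℝ) :=
  ContinuousLinearMap.pi fun i => ContinuousLinearMap.proj ((![3, 4, 5] : Fin 3 → Fin 6) i)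

lemma qR_upper (s : ℝ) (u : F6) (W : Fin 3 → ℝ) :
    qR s u ![W 0, W 1, W 2, 0, 0, 0] = s * ∑ i, upper u i * W i := by
  simp [qR, upper, Fin.sum_univ_succ, Fin.succ, show (3 : Fin 6) + 3 = 0 from rfl,
    show (4 : Fin 6) + 3 = 1 from rfl, show (5 : Fin 6) + 3 = 2 from rfl, add_assoc]

lemma coef_sub {f g : T3 → ℝ} (hf : Continuous f) (hg : Continuous g) (k : Idx) :
    coef vol (fun x => f x - g x) k = coef vol f k - coef vol g k := by
  simp only [coef, Complex.ofReal_sub, mul_sub]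
  exact integral_sub (integrable_of_continuous (by fun_prop))
    (integrable_of_continuous (by fun_prop))

/-- A curl, as a closed form without upper components. -/
lemma curl_closed {Φ W : T3 → Fin 3 → ℝ} (hΦ : Sm Φ) (hW : ∀ x, W (pt x) = curl Φ x) :
    ClosedForm fun x => ![W x 0, W x 1, W x 2, 0, 0, 0] := by
  choose g hg hd using fun (i j : Fin 3) =>
    Four.exists_deriv (f := fun x => Φ x j) (contDiff_pi.1 hΦ j) i
  have hcomp : ∀ (x : Fin 3 → ℝ) (i j : Fin 3),
      fderiv ℝ (Φ ∘ pt) x (Pi.single i 1) j = g i j (pt x) := fun x i j => by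
    rw [← hd i j x]
    have h := hasFDerivAt_pi'.1 ((hΦ.differentiable (by simp)) x).hasFDerivAt j
    exact (DFunLike.congr_fun h.fderiv (Pi.single i (1 : ℝ))).symm
  have hWg : ∀ i, (fun z => W z i) = fun z => g (i + 1) (i + 2) z - g (i + 2) (i + 1) z := fun i => by
    funext z
    obtain ⟨x, rfl⟩ := pt_surjective z
    rw [hW, curl, hcomp, hcomp]
  have hWs : ∀ i, Sm fun z => W z i := fun i => by
    rw [hWg i]
    exact (hg _ _).sub (hg _ _)
  refine ⟨contDiff_pi.2 fun i => ?_, fun k => ?_⟩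
  · fin_cases i
    exacts [hWs 0, hWs 1, hWs 2, contDiff_const, contDiff_const, contDiff_const]
  · have hΦc : ∀ j, Sm fun x => Φ x j := fun j => contDiff_pi.1 hΦ j
    have hc : ∀ i, coef vol (fun z => W z i) k = 2 * Real.pi * Complex.I *
        ((k (i + 1) : ℂ) * coef vol (fun x => Φ x (i + 2)) k -
          (k (i + 2) : ℂ) * coef vol (fun x => Φ x (i + 1)) k) := fun i => by
      rw [hWg i, coef_sub (Four.sm_continuous (hg _ _)) (Four.sm_continuous (hg _ _)),
        coef_deriv (hΦc (i + 2)) _ (hd (i + 1) (i + 2)),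
        coef_deriv (hΦc (i + 1)) _ (hd (i + 2) (i + 1))]
      ring
    have h0 : coef vol (fun _ : T3 => (0 : ℝ)) k = 0 := by simp [coef]
    simp only [ClosedAt, Four.cf_apply, Matrix.cons_val, hc, h0, mul_zero, sub_self, and_true,
      show (0 : Fin 3) + 1 = 1 from rfl, show (0 : Fin 3) + 2 = 2 from rfl,
      show (1 : Fin 3) + 1 = 2 from rfl, show (1 : Fin 3) + 2 = 0 from rfl,
      show (2 : Fin 3) + 1 = 0 from rfl, show (2 : Fin 3) + 2 = 1 from rfl]
    ring

lemma comm_add (D : Data) {N : Idx → ℝ} (hN0 : ∀ k, 0 ≤ N k) (hN1 : ∀ k, N k ≤ 1)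
    {u v : Idx → C6} (hu : PolyB u) (hv : PolyB v) (k : Idx) :
    comm D N (u + v) k = comm D N u k + comm D N v k := by
  have hs : ∀ w : Idx → C6, PolyB w →
      Summable fun l => ((N k - N l : ℝ) : ℂ) • cM D.pr (k - l) (w l) := fun w hw =>
    Summable.of_norm_bounded (conv_term_summable (cM_rapid D.sm_pr) hw k).norm fun l => by
      rw [norm_smul, Complex.norm_real, Real.norm_eq_abs]
      refine mul_le_of_le_one_left (norm_nonneg _) (abs_le.2 ⟨?_, ?_⟩) <;>
        linarith [hN0 k, hN0 l, hN1 k, hN1 l]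
  rw [comm, comm, comm, ← (hs u hu).tsum_add (hs v hv)]
  exact tsum_congr fun l => by rw [Pi.add_apply, map_add, smul_add]

theorem extension_eq_zero (hO : Obstruction D μ t) (hS : Extension D μ t S) : S = 0 := by
  have := hO.fin
  obtain ⟨R, hR⟩ := hO.bdd
  obtain ⟨Cq, hq⟩ := hO.pair_lower
  obtain ⟨A, hA0, hA⟩ := hO.cf_bdd
  obtain ⟨G, hg⟩ := growth hO hS
  obtain ⟨C1, hC1⟩ := energy_N3_bdd D.s μ hO.meas hR hq hg
  obtain ⟨Cu, hCu⟩ := energy_N3_upper μ hO.meas hR hg
  obtain ⟨C, p, hC, hcom⟩ := sqrt_N3_sub_le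
  obtain ⟨c, hc, K, hK⟩ := energy_lower D
  set Mp := ∑' k, wt k ^ p * ‖cM D.pr k‖ with hMp
  have hMp0 : 0 ≤ Mp :=
    tsum_nonneg fun k => mul_nonneg (pow_nonneg (Four.wt_pos k).le p) (norm_nonneg _)
  set P := √Cu * (C * Mp)
  have hP : 0 ≤ P := by positivity
  have hcross : ∀ h ∈ Set.Ioc (0 : ℝ) 1, ∀ u : Idx → C6,
      Summable (fun k => N3 h k * ‖u k‖ ^ 2) →
      Summable (fun k => ‖cf μ t k‖ * ‖comm D (N3 h) u k‖) ∧
        ∑' k, ‖cf μ t k‖ * ‖comm D (N3 h) u k‖ ≤ P * √(∑' k, N3 h k * ‖u k‖ ^ 2) := fun h hh u hu => by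
    have hN := N3_nonneg hh.1
    have e : ∀ k, √(h * N3 h k) ^ 2 * ‖cf μ t k‖ ^ 2 = h * N3 h k * ‖cf μ t k‖ ^ 2 := fun k => by
      rw [Real.sq_sqrt (mul_nonneg hh.1.le (hN k))]
    obtain ⟨h1, h2⟩ := cross_bound (D := D) (T := cf μ t) (S := u) hN
      (g := fun k => √(h * N3 h k)) (fun k => Real.sqrt_pos.2 (mul_pos hh.1 (N3_pos hh.1 k))) hC p
      (fun k l => by
        rw [abs_sub_comm, ← Four.wt_neg, neg_sub]
        exact ((hcom h hh l k).2).trans_eq (by ring)) hu
      (Summable.of_nonneg_of_le (fun k => by positivity) (fun k => by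
        rw [e k]
        exact (mul_le_mul (mul_le_mul_of_nonneg_left (N3_le hh k) hh.1.le)
          (pow_le_pow_left₀ (norm_nonneg _) (hA k) 2) (sq_nonneg _)
          (mul_nonneg hh.1.le (mul_nonneg (inv_nonneg.2 (pow_nonneg hh.1.le 3))
            (inv_nonneg.2 (sq_nonneg _))))).trans_eq
          (show _ = h * (h ^ 3)⁻¹ * A ^ 2 * ((wt k) ^ 2)⁻¹ by ring))
        (summable_wt_inv.mul_left _))
    refine ⟨h1, h2.trans ?_⟩
    rw [tsum_congr e, ← hMp, ← mul_assoc]
    exact mul_le_mul_of_nonneg_right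
      (mul_le_mul_of_nonneg_right (Real.sqrt_le_sqrt (hCu h hh)) (mul_nonneg hC hMp0))
      (Real.sqrt_nonneg _)
  set Q := |K| * (C * Mp) ^ 2
  set h0 := min 1 (c / (2 * (Q + 1)))
  have hQ : 0 ≤ Q := by positivity
  have hh0 : 0 < h0 := lt_min one_pos (by positivity)
  have hmain : ∀ h ∈ Set.Ioc (0 : ℝ) h0, Summable (fun k => N3 h k * ‖S k‖ ^ 2) ∧
      c / 2 * ∑' k, N3 h k * ‖S k‖ ^ 2 ≤
        -(∑' k, N3 h k * (qC D.s (cf μ t k) (cf μ t k)).re) +
          12 * ∑' k, ‖cf μ t k‖ * ‖comm D (N3 h) S k‖ := fun h hh0' => by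
    have hh : h ∈ Set.Ioc (0 : ℝ) 1 := ⟨hh0'.1, hh0'.2.trans (min_le_left _ _)⟩
    have hN := N3_nonneg hh.1
    have hs := summable_weight hN (N3_le hh) hS.wtd
    refine ⟨hs, ?_⟩
    have hu : Summable fun k => ‖scl (fun k => √(N3 h k)) S k‖ ^ 2 := by
      simpa only [norm_scl_sqrt hN] using hs
    have eb : ∀ k, √(h * N3 h k) ^ 2 * ‖S k‖ ^ 2 = h * (N3 h k * ‖S k‖ ^ 2) := fun k => by
      rw [Real.sq_sqrt (mul_nonneg hh.1.le (hN k)), mul_assoc]
    have hrem := rem_bound (polyB_of_weighted hS.wtd) hS.proj hC p (D := D) (S := S)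
      (f := fun k => √(N3 h k)) (b := fun l => √(h * N3 h l))
      (fun k l => (hcom h hh k l).1.trans (mul_le_mul_of_nonneg_left (le_abs_self _)
        (mul_nonneg hC (pow_nonneg (Four.wt_pos _).le p))))
      ((hs.mul_left h).congr fun k => (eb k).symm) hu
    rw [tsum_congr eb, tsum_mul_left] at hrem
    have hbal := balance hA (pr_cf_eq_zero hO) hS.wtd hS.proj hS.exact hN (N3_le hh)
      (hcross h hh S hs).1
    have hlow := hK _ hu
    simp only [norm_scl_sqrt hN] at hlow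
    set X := ∑' k, N3 h k * ‖S k‖ ^ 2
    have hX : 0 ≤ X := tsum_nonneg fun k => mul_nonneg (hN k) (sq_nonneg _)
    have h3 : K * _ ≤ |K| * ((C * Mp) ^ 2 * (h * X)) :=
      (mul_le_mul_of_nonneg_right (le_abs_self K) (tsum_nonneg fun k => sq_nonneg _)).trans
        (mul_le_mul_of_nonneg_left hrem (abs_nonneg K))
    have h4 : h * (Q + 1) ≤ c / 2 := by
      refine (mul_le_mul_of_nonneg_right (hh0'.2.trans (min_le_right _ _)) (by positivity)).trans_eq ?_
      field_simp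
    have h5 := mul_le_mul_of_nonneg_right h4 hX
    simp only [Q] at h5
    nlinarith [mul_nonneg hh.1.le hX]
  have hhalf : ∀ F : Finset Idx, ∃ d > 0, ∀ h ∈ Set.Ioc (0 : ℝ) d, ∀ k ∈ F, 1 / 2 ≤ N3 h k :=
    fun F => by
    have hsum : 0 ≤ ∑ k ∈ F, wt k := Finset.sum_nonneg fun k _ => (Four.wt_pos k).le
    refine ⟨1 / (8 * (1 + ∑ k ∈ F, wt k)), by positivity, fun h hh k hk => ?_⟩
    have hk' : wt k ≤ ∑ k ∈ F, wt k := Finset.single_le_sum (fun k _ => (Four.wt_pos k).le) hk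
    have h1 : h * (8 * (1 + ∑ k ∈ F, wt k)) ≤ 1 := (le_div_iff₀ (by positivity)).1 hh.2
    have hw := one_le_wt k
    have h2 : h * (wt k - 1) ≤ 1 / 8 := by nlinarith [hh.1]
    have h3 : 0 ≤ h * (wt k - 1) := mul_nonneg hh.1.le (by linarith)
    rw [N3, one_div]
    refine inv_anti₀ (pow_pos (by linarith) 3) ?_
    calc (1 + h * (wt k - 1)) ^ 3 ≤ (9 / 8) ^ 3 := pow_le_pow_left₀ (by linarith) (by linarith) 3
      _ ≤ 2 := by norm_num
  have hsumF : ∀ (F : Finset Idx) (h : ℝ), (∀ k ∈ F, 1 / 2 ≤ N3 h k) → 0 < h →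
      Summable (fun k => N3 h k * ‖S k‖ ^ 2) →
      ∑ k ∈ F, ‖S k‖ ^ 2 ≤ 2 * ∑' k, N3 h k * ‖S k‖ ^ 2 := fun F h hF hh hs => by
    refine le_trans ?_ (mul_le_mul_of_nonneg_left
      (hs.sum_le_tsum F fun k _ => mul_nonneg (N3_nonneg hh k) (sq_nonneg _)) zero_le_two)
    rw [Finset.mul_sum]
    exact Finset.sum_le_sum fun k hk => by nlinarith [hF k hk, sq_nonneg ‖S k‖]
  -- the sequence is square summable
  have hl2 : Summable fun k => ‖S k‖ ^ 2 := by
    refine summable_of_sum_le (c := 2 * (2 * C1 / (c / 2) + (12 * P / (c / 2)) ^ 2))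
      (fun k => sq_nonneg _) fun F => ?_
    obtain ⟨d, hd, hF⟩ := hhalf F
    set h := min h0 d
    have hh : h ∈ Set.Ioc (0 : ℝ) h0 := ⟨lt_min hh0 hd, min_le_left _ _⟩
    have hh1 : h ∈ Set.Ioc (0 : ℝ) 1 := ⟨hh.1, hh.2.trans (min_le_left _ _)⟩
    obtain ⟨hs, hle⟩ := hmain h hh
    refine (hsumF F h (hF h ⟨hh.1, min_le_right _ _⟩) hh.1 hs).trans
      (mul_le_mul_of_nonneg_left (quad_bound (half_pos hc)
        (tsum_nonneg fun k => mul_nonneg (N3_nonneg hh.1 k) (sq_nonneg _)) ?_) zero_le_two)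
    nlinarith [hC1 h hh1, (hcross h hh1 S hs).2]
  -- the density of the upper components
  obtain ⟨σ, hσ, hσpair⟩ := exists_memLp hl2 hS.real
  have hdens := density_zero μ (a := fun x => upper (t x)) (upper.measurable.comp hO.meas) (R := R)
    (fun x => (pi_norm_le_iff_of_nonneg ((norm_nonneg _).trans (hR x))).2 fun i =>
      (norm_le_pi_norm (t x) _).trans (hR x)) hg (σ := fun x => upper (σ x)) (upper.comp_memLp' hσ)
    fun Φ W hΦ hW => by
      have hw := curl_closed hΦ hW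
      have h1 := hasSum_pairing D.s μ hO.meas hR hw.1
      have h2 := hσpair D.s _ hw.1
      have h3 := (h1.add h2).congr_fun (g := fun _ : Idx => (0 : ℂ)) fun k => by
        rw [← qC_add_left]
        exact (qC_exact_closed D.s (hS.exact k) (hw.2 k)).symm
      have h4 := h3.unique hasSum_zero
      rw [← Complex.ofReal_add, Complex.ofReal_eq_zero] at h4
      simp only [qR_upper, integral_const_mul, ← mul_add] at h4
      refine (mul_eq_zero.1 h4).resolve_left ?_
      rcases D.hs with h | h <;> simp [h]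
  have hE := energy_N3_lower D.s μ hO.meas hR hq hg (Z := {x | upper (t x) = 0})
    ((upper.measurable.comp hO.meas) (measurableSet_singleton 0))
    (fun x hx y hy => by
      refine le_of_eq (qR_eq_zero_of_upper D.s ?_ ?_).symm
      · exact ⟨congr_fun hx 0, congr_fun hx 1, congr_fun hx 2⟩
      · exact ⟨congr_fun hy 0, congr_fun hy 1, congr_fun hy 2⟩)
    hdens
  -- it vanishes
  funext k0
  classical
  have hzero : ∀ ε > 0, ‖S k0‖ ^ 2 ≤ ε := fun ε hε => by
    set L := 2 * ((1 + 12 * (1 + P)) / (c / 2))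
    have hL : 0 < L := by positivity
    set e := ε / L
    have he : 0 < e := div_pos hε hL
    obtain ⟨F, hF⟩ := (hl2.hasSum.eventually (lt_mem_nhds
      (show ∑' k, ‖S k‖ ^ 2 - e ^ 2 < ∑' k, ‖S k‖ ^ 2 by nlinarith))).exists
    set SF : Idx → C6 := fun k => if k ∈ F then S k else 0
    set ST : Idx → C6 := fun k => if k ∈ F then 0 else S k
    set N0 := C * Mp * A * ∑ l ∈ F, ‖S l‖
    have hN0' : 0 ≤ N0 := mul_nonneg (mul_nonneg (mul_nonneg hC hMp0) hA0)
      (Finset.sum_nonneg fun l _ => norm_nonneg _)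
    obtain ⟨d, hd, hk0⟩ := hhalf {k0}
    obtain ⟨h, hEh, hh⟩ := ((hE e he).and (Ioc_mem_nhdsGT
      (show (0 : ℝ) < min (min h0 d) ((e / (N0 + 1)) ^ 2) by positivity))).exists
    have hha : h ∈ Set.Ioc (0 : ℝ) h0 :=
      ⟨hh.1, hh.2.trans ((min_le_left _ _).trans (min_le_left _ _))⟩
    have hhb : h ∈ Set.Ioc (0 : ℝ) 1 := ⟨hh.1, hha.2.trans (min_le_left _ _)⟩
    have hN := N3_nonneg hh.1
    have hN1 := N3_le_one hh.1
    obtain ⟨hs, hle⟩ := hmain h hha
    have hSTe : ∀ k, ‖ST k‖ ^ 2 = ‖S k‖ ^ 2 - ‖SF k‖ ^ 2 := fun k => by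
      by_cases hk : k ∈ F <;> simp [SF, ST, hk]
    have hSFs : Summable fun k => ‖SF k‖ ^ 2 :=
      summable_of_ne_finset_zero (s := F) fun k hk => by simp [SF, hk]
    have hSTs : Summable fun k => ‖ST k‖ ^ 2 := (hl2.sub hSFs).congr fun k => (hSTe k).symm
    have hST2 : ∑' k, ‖ST k‖ ^ 2 ≤ e ^ 2 := by
      rw [tsum_congr hSTe, hl2.tsum_sub hSFs,
        tsum_eq_sum (s := F) (f := fun k => ‖SF k‖ ^ 2) fun k hk => by simp [SF, hk],
        Finset.sum_congr rfl fun k hk => show ‖SF k‖ ^ 2 = ‖S k‖ ^ 2 by simp [SF, hk]]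
      linarith
    have hNST : Summable fun k => N3 h k * ‖ST k‖ ^ 2 :=
      Summable.of_nonneg_of_le (fun k => mul_nonneg (hN k) (sq_nonneg _))
        (fun k => mul_le_of_le_one_left (sq_nonneg _) (hN1 k)) hSTs
    obtain ⟨ht1, ht2⟩ := hcross h hhb ST hNST
    replace ht2 : ∑' k, ‖cf μ t k‖ * ‖comm D (N3 h) ST k‖ ≤ P * e := by
      refine ht2.trans (mul_le_mul_of_nonneg_left ?_ hP)
      rw [← Real.sqrt_sq he.le]
      exact Real.sqrt_le_sqrt ((hNST.tsum_le_tsum
        (fun k => mul_le_of_le_one_left (sq_nonneg _) (hN1 k)) hSTs).trans hST2)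
    have hfs : ∀ l, Summable fun k => A * (C * √h) * ‖S l‖ * (wt (k - l) ^ p * ‖cM D.pr (k - l)‖) :=
      fun l => (((cM_rapid D.sm_pr) p).comp_injective (sub_left_injective (b := l))).mul_left _
    have hFk : ∀ k, ‖cf μ t k‖ * ‖comm D (N3 h) SF k‖ ≤
        ∑ l ∈ F, A * (C * √h) * ‖S l‖ * (wt (k - l) ^ p * ‖cM D.pr (k - l)‖) := fun k => by
      rw [comm, tsum_eq_sum (s := F) fun l hl => by simp [SF, hl]]
      refine (mul_le_mul (hA k) (norm_sum_le _ _) (norm_nonneg _) hA0).trans ?_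
      rw [Finset.mul_sum]
      refine Finset.sum_le_sum fun l hl => ?_
      rw [norm_smul, Complex.norm_real, Real.norm_eq_abs, show SF l = S l by simp [SF, hl]]
      have hb : |N3 h k - N3 h l| ≤ C * √h * wt (k - l) ^ p := by
        refine ((hcom h hhb k l).2).trans ?_
        have b1 : √(N3 h k) * √(h * N3 h l) ≤ √h := by
          rw [Real.sqrt_mul hh.1.le]
          calc √(N3 h k) * (√h * √(N3 h l)) ≤ 1 * (√h * 1) := by
                gcongr <;> exact Real.sqrt_le_one.2 (hN1 _)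
            _ = √h := by ring
        exact (mul_le_mul_of_nonneg_left b1 (mul_nonneg hC
          (pow_nonneg (Four.wt_pos _).le p))).trans_eq (by ring)
      calc A * (|N3 h k - N3 h l| * ‖cM D.pr (k - l) (S l)‖)
          ≤ A * (C * √h * wt (k - l) ^ p * (‖cM D.pr (k - l)‖ * ‖S l‖)) :=
            mul_le_mul_of_nonneg_left (mul_le_mul hb ((cM D.pr _).le_opNorm _) (norm_nonneg _)
              ((abs_nonneg _).trans hb)) hA0
        _ = _ := by ring
    have hg1 : Summable fun k => ‖cf μ t k‖ * ‖comm D (N3 h) SF k‖ :=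
      Summable.of_nonneg_of_le (fun k => by positivity) hFk (summable_sum fun l _ => hfs l)
    have hg2 : ∑' k, ‖cf μ t k‖ * ‖comm D (N3 h) SF k‖ ≤ e := by
      refine (hg1.tsum_le_tsum hFk (summable_sum fun l _ => hfs l)).trans ?_
      rw [Summable.tsum_finsetSum fun l _ => hfs l]
      have e1 : ∀ l, ∑' k, A * (C * √h) * ‖S l‖ * (wt (k - l) ^ p * ‖cM D.pr (k - l)‖) =
          A * (C * √h) * ‖S l‖ * Mp := fun l => by
        rw [tsum_mul_left]
        congr 1
        exact (Equiv.subRight l).tsum_eq fun k => wt k ^ p * ‖cM D.pr k‖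
      simp only [e1, ← Finset.sum_mul, ← Finset.mul_sum]
      have h6 : √h ≤ e / (N0 + 1) := by
        rw [← Real.sqrt_sq (show 0 ≤ e / (N0 + 1) by positivity)]
        exact Real.sqrt_le_sqrt (hh.2.trans (min_le_right _ _))
      calc A * (C * √h) * (∑ l ∈ F, ‖S l‖) * Mp = √h * N0 := by simp only [N0]; ring
        _ ≤ e / (N0 + 1) * (N0 + 1) :=
            mul_le_mul h6 (by linarith) hN0' (by positivity)
        _ = e := div_mul_cancel₀ _ (by positivity)
    have hsplit : S = SF + ST := by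
      funext k; by_cases hk : k ∈ F <;> simp [SF, ST, hk]
    have hc3 : ∑' k, ‖cf μ t k‖ * ‖comm D (N3 h) S k‖ ≤ e + P * e := by
      refine (Summable.tsum_le_tsum (fun k => ?_) (hcross h hhb S hs).1 (hg1.add ht1)).trans ?_
      · rw [← mul_add]
        refine mul_le_mul_of_nonneg_left ?_ (norm_nonneg _)
        conv_lhs => rw [hsplit, comm_add D hN hN1 (Four.polyB_of_l2 hSFs) (Four.polyB_of_l2 hSTs)]
        exact norm_add_le _ _
      · rw [hg1.tsum_add ht1]
        exact add_le_add hg2 ht2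
    have h7 : c / 2 * ∑' k, N3 h k * ‖S k‖ ^ 2 ≤ e * (1 + 12 * (1 + P)) := by nlinarith
    have h8 : ∑' k, N3 h k * ‖S k‖ ^ 2 ≤ e * ((1 + 12 * (1 + P)) / (c / 2)) := by
      rw [← mul_div_assoc, le_div_iff₀ (half_pos hc)]; linarith
    calc ‖S k0‖ ^ 2 = ∑ k ∈ ({k0} : Finset Idx), ‖S k‖ ^ 2 := by simp
      _ ≤ 2 * ∑' k, N3 h k * ‖S k‖ ^ 2 := hsumF _ h
          (hk0 h ⟨hh.1, hh.2.trans ((min_le_left _ _).trans (min_le_right _ _))⟩) hh.1 hs
      _ ≤ 2 * (e * ((1 + 12 * (1 + P)) / (c / 2))) := by linarith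
      _ = e * L := by ring
      _ = ε := div_mul_cancel₀ _ hL.ne'
  have : ‖S k0‖ ^ 2 ≤ 0 := le_of_forall_pos_le_add fun ε hε => by simpa using hzero ε hε
  exact norm_eq_zero.1 (pow_eq_zero_iff two_ne_zero |>.1 (this.antisymm (sq_nonneg _)))

theorem core (D : Data) (hT : D.Tamed) : D.Compatible := by
  by_contra hN
  obtain ⟨μ, t, hO⟩ := exists_obstruction D hN
  obtain ⟨S, h1, h2, h3, h4⟩ := exists_dual hO
  have hS : Extension D μ t S := ⟨h1, h2, h3, h4⟩
  have hz := extension_eq_zero hO hS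
  subst hz
  have := hO.fin
  obtain ⟨R, hR⟩ := hO.bdd
  obtain ⟨w, hw, hpos⟩ := hT
  have hsum := hasSum_pairing D.s μ hO.meas hR hw.1
  have hzero : ∫ x, qR D.s (t x) (w x) ∂μ = 0 := by
    have h := (hsum.congr_fun (g := fun _ : Idx => (0 : ℂ)) fun k => by
      have := qC_exact_closed D.s (h4 k) (hw.2 k)
      simpa using this.symm).unique hasSum_zero
    exact_mod_cast h
  have hstrict : ∀ x, 0 < qR D.s (t x) (w x) := fun x => by
    obtain ⟨hq, ha⟩ := hpos x
    set v := D.p11 x (w x)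
    have ha' : 0 < qR D.s v (D.e0 x) := by rwa [qR_p11_e0]
    set a := qR D.s v (D.e0 x)
    set q := qR D.s v v
    set ε := min a (q / (2 * a))
    have hε : 0 < ε := lt_min ha' (div_pos hq (by linarith))
    have h5 : ε * (2 * a) ≤ q := (le_div_iff₀ (by linarith)).1 (min_le_right _ _)
    have hm : v - ε • D.e0 x ∈ D.cone x := by
      refine mem_cone ?_ ?_ ?_
      · simp [v, Matrix.mulVec_sub, Matrix.mulVec_smul, pr_p11 D x, D.pr_e0]
      · simp only [qR_sub_left, qR_sub_right, qR_smul_left, qR_smul_right, D.unit,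
          qR_comm D.s (D.e0 x) v]
        nlinarith
      · simp only [qR_sub_left, qR_smul_left, D.unit, mul_one]
        linarith [min_le_left a (q / (2 * a))]
    have h6 := cone_pair_nonneg D (hO.cone x) hm
    rw [qR_sub_right, qR_smul_right, hO.norm, mul_one] at h6
    have h7 : qR D.s (t x) v = qR D.s (t x) (w x) := by
      simp only [v, Data.p11, qR_sub_right, ← D.selfAdj x (t x) (w x), (hO.cone x).1,
        qR_zero_left, sub_zero]
    linarith
  have hint := integrable_qR (μ := μ) D.s hO.meas hR hw.1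
  have h0 := (integral_eq_zero_iff_of_nonneg (fun x => (hstrict x).le) hint).1 hzero
  refine hO.ne (Measure.measure_univ_eq_zero.1 ?_)
  have h1' : ∀ᵐ x ∂μ, False := h0.mono fun x hx => (hstrict x).ne' hx
  simpa [ae_iff] using h1'

end Vale.Agent.P204
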