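import Vale.Agent.P204.Separation

/-!
The separating functional is a positive (1,1) current.
-/

open MeasureTheory Filter Topology
open scoped ContDiff Matrix ENNReal CompactlySupported

namespace Vale.Agent.P204

variable (D : Data)

lemma qR_single (s : ℝ) (u : F6) (i : Fin 6) :
    qR s u (Pi.single (i + 3) 1) = s * u i := by
  rw [qR, Finset.sum_eq_single i]
  · simp
  · intro j _ hj
    rw [Pi.single_eq_of_ne (by simpa using hj)]
    ring
  · simp

lemma qR_single_left (s : ℝ) (u : F6) (i : Fin 6) :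
    qR s (Pi.single (i + 3) 1) u = s * u i := by rw [qR_comm, qR_single]

/-- A scalar field times a form field. -/
def smulField (h : C(T3, ℝ)) (g : C(T3, F6)) : C(T3, F6) := ⟨fun x => h x • g x, by fun_prop⟩

variable {D} {F : StrongDual ℝ C(T3, F6)}

/-- A field whose (1,1) part vanishes is annihilated. -/
lemma F_eq_zero_of_p11 (hpos : ∀ g ∈ openCone D, 0 < F g) {g : C(T3, F6)}
    (hg : ∀ x, D.p11 x (g x) = 0) : F g = 0 := by
  have hmem : ∀ c : ℝ, e0C D + c • g ∈ openCone D := fun c x => by
    have hg0 : qR D.s (g x) (D.e0 x) = 0 := by rw [← qR_p11_e0 D x, hg, qR_zero_left]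
    have e : D.p11 x ((e0C D + c • g) x) = D.e0 x := by
      have h1 := p11_of_pr_zero D (D.pr_e0 x)
      simp only [Data.p11] at h1 ⊢
      have h2 : D.pr x *ᵥ g x = g x := by
        have := hg x
        simp only [Data.p11, sub_eq_zero] at this
        exact this.symm
      simp [e0C, Matrix.mulVec_add, Matrix.mulVec_smul, h2, D.pr_e0]
    refine ⟨by rw [e, D.unit]; exact one_pos, ?_⟩
    simp [e0C, qR_add_left, qR_smul_left, hg0, D.unit]
  by_contra hne
  have := hpos _ (hmem (-F (e0C D) / F g))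
  simp [hne] at this

lemma mul_e0_mem {h : C(T3, ℝ)} (hh : ∀ x, 0 < h x) : smulField h (e0C D) ∈ openCone D := fun x => by
  have e : D.p11 x (h x • D.e0 x) = h x • D.e0 x :=
    p11_of_pr_zero D (by simp [Matrix.mulVec_smul, D.pr_e0])
  simp only [smulField, e0C, ContinuousMap.coe_mk]
  rw [e, qR_smul_left, qR_smul_right, D.unit]
  have := hh x
  refine ⟨by positivity, ?_⟩
  rw [qR_smul_left, D.unit]
  positivity

/-- The scalar functional of the time component. -/
noncomputable def mFun (D : Data) (F : StrongDual ℝ C(T3, F6)) : C(T3, ℝ) →ₗ[ℝ] ℝ where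
  toFun h := F (smulField h (e0C D))
  map_add' h k := by
    rw [← map_add]; congr 1; ext x; simp [smulField, add_mul]
  map_smul' c h := by
    rw [RingHom.id_apply, ← map_smul]; congr 1; ext x; simp [smulField, mul_assoc]

lemma mFun_nonneg (hpos : ∀ g ∈ openCone D, 0 < F g) {h : C(T3, ℝ)} (hh : ∀ x, 0 ≤ h x) :
    0 ≤ mFun D F h := by
  have h1 : ∀ η : ℝ, 0 < η → 0 < mFun D F h + η * mFun D F 1 := fun η hη => by
    have := hpos _ (mul_e0_mem (D := D) (h := h + η • 1) fun x => by
      have := hh x; simp; linarith)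
    rwa [show F (smulField (h + η • 1) (e0C D)) = mFun D F (h + η • 1) from rfl, map_add,
      map_smul, smul_eq_mul] at this
  by_contra hneg
  push Not at hneg
  have hm : 0 < mFun D F 1 := hpos _ (mul_e0_mem (D := D) (h := 1) fun x => one_pos)
  have := h1 (-mFun D F h / mFun D F 1) (div_pos (neg_pos.2 hneg) hm)
  rw [div_mul_cancel₀ _ hm.ne'] at this
  linarith

/-- The functional is dominated by its time component. -/
lemma F_bound (hpos : ∀ g ∈ openCone D, 0 < F g) : ∃ C : ℝ, 0 ≤ C ∧ ∀ (g : C(T3, F6)) (N : C(T3, ℝ)),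
    (∀ x, ‖g x‖ ≤ N x) → |F g| ≤ C * mFun D F N := by
  obtain ⟨Be, hBe, hbe⟩ := Sm.bdd D.sm_e0
  choose Bp hBp hbp using fun i j => Sm.bdd (D.sm_pr i j)
  set cP := 1 + ∑ i, ∑ j, Bp i j
  have hcP : 1 ≤ cP := le_add_of_nonneg_right
    (Finset.sum_nonneg fun i _ => Finset.sum_nonneg fun j _ => hBp i j)
  have hp : ∀ x (u : F6), ‖D.p11 x u‖ ≤ cP * ‖u‖ := fun x u => by
    refine (norm_sub_le _ _).trans ?_
    rw [add_mul, one_mul]
    refine add_le_add le_rfl ((pi_norm_le_iff_of_nonneg (by
      have : 0 ≤ ∑ i, ∑ j, Bp i j :=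
        Finset.sum_nonneg fun i _ => Finset.sum_nonneg fun j _ => hBp i j
      positivity)).2 fun i => ?_)
    rw [Matrix.mulVec, dotProduct, Finset.sum_mul, Real.norm_eq_abs]
    refine (Finset.abs_sum_le_sum_abs _ _).trans ((Finset.sum_le_sum fun j _ => ?_).trans
      (Finset.single_le_sum (f := fun i => (∑ j, Bp i j) * ‖u‖)
        (fun i _ => by
          have : 0 ≤ ∑ j, Bp i j := Finset.sum_nonneg fun j _ => hBp i j
          positivity) (Finset.mem_univ i) |>.trans' (by rw [Finset.sum_mul])))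
    rw [abs_mul]
    exact mul_le_mul (hbp i j x) (norm_le_pi_norm u j) (abs_nonneg _) (hBp i j)
  set C := 12 * cP * (Be + cP) + 1
  have hC0 : 0 ≤ C := by positivity
  have hC12 : 12 * Be + 12 * (cP * cP) + 1 ≤ C := by
    simp only [C]; nlinarith [mul_le_mul_of_nonneg_right hcP hBe]
  have hC1 : 1 ≤ C := by nlinarith
  refine ⟨C, hC0, fun g N hN => ?_⟩
  have hη : ∀ η : ℝ, 0 < η → |F g| ≤ C * (mFun D F N + η * mFun D F 1) := fun η hη => by
    have hmem : ∀ σ : ℝ, |σ| = 1 → smulField (C • (N + η • 1)) (e0C D) + σ • g ∈ openCone D :=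
      fun σ hσ x => by
      simp only [smulField, e0C, ContinuousMap.add_apply, ContinuousMap.smul_apply,
        ContinuousMap.coe_mk, ContinuousMap.one_apply, smul_eq_mul, mul_one]
      set n := N x + η
      have hn : ‖g x‖ ≤ n ∧ 0 < n := ⟨by
        have := hN x; simp only [n]; linarith, by
        have := (norm_nonneg (g x)).trans (hN x); simp only [n]; linarith⟩
      have e : D.p11 x ((C * n) • D.e0 x + σ • g x) =
          (C * n) • D.e0 x + σ • D.p11 x (g x) := by
        simp [Data.p11, Matrix.mulVec_add, Matrix.mulVec_smul, D.pr_e0, smul_sub]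
        abel
      have hb0 : |qR D.s (g x) (D.e0 x)| ≤ 6 * (n * Be) := (abs_qR_le D.hs _ _).trans
        (mul_le_mul_of_nonneg_left (mul_le_mul hn.1 (hbe x) (norm_nonneg _) hn.2.le) (by norm_num))
      have hb2 : |qR D.s (D.p11 x (g x)) (D.p11 x (g x))| ≤ 6 * ((cP * n) * (cP * n)) := by
        have h1 : ‖D.p11 x (g x)‖ ≤ cP * n :=
          (hp x (g x)).trans (mul_le_mul_of_nonneg_left hn.1 (by linarith))
        exact (abs_qR_le D.hs _ _).trans
          (mul_le_mul_of_nonneg_left (mul_le_mul h1 h1 (norm_nonneg _) (mul_nonneg (by linarith) hn.2.le)) (by norm_num))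
      have hσ2 : σ * σ = 1 := by rw [← abs_mul_abs_self, hσ, one_mul]
      have hb1 : |σ * qR D.s (g x) (D.e0 x)| ≤ 6 * (n * Be) := by rwa [abs_mul, hσ, one_mul]
      refine ⟨?_, ?_⟩
      · rw [e]
        simp only [qR_add_left, qR_add_right, qR_smul_left, qR_smul_right, D.unit, mul_one,
          qR_comm D.s (D.e0 x) (D.p11 x (g x)), qR_p11_e0]
        have h1 := (abs_le.1 hb1).1
        have h2 := (abs_le.1 hb2).1
        have h3 : 0 < n * n := mul_pos hn.2 hn.2
        have h4 : 12 * C * Be + 6 * (cP * cP) < C * C := by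
          have h7 := mul_le_mul_of_nonneg_left hC12 hC0
          have h8 := mul_le_mul_of_nonneg_right hC1 (mul_self_nonneg cP)
          nlinarith
        have h5 : C * n * (-(6 * (n * Be))) ≤ C * n * (σ * qR D.s (g x) (D.e0 x)) :=
          mul_le_mul_of_nonneg_left h1 (mul_nonneg hC0 hn.2.le)
        have h6 := mul_lt_mul_of_pos_right h4 h3
        nlinarith
      · simp only [qR_add_left, qR_smul_left, D.unit]
        have h1 := (abs_le.1 hb1).1
        have h4 : 6 * Be < C := by nlinarith
        nlinarith [mul_lt_mul_of_pos_right h4 hn.2]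
    have h1 := hpos _ (hmem 1 abs_one)
    have h2 := hpos _ (hmem (-1) (by simp))
    rw [map_add, show F (smulField (C • (N + η • 1)) (e0C D)) = mFun D F (C • (N + η • 1)) from rfl,
      map_smul, map_add, map_smul, smul_eq_mul, smul_eq_mul, map_smul, smul_eq_mul] at h1 h2
    rw [abs_le]; constructor <;> linarith
  refine ge_of_tendsto (b := |F g|) (f := fun η => C * (mFun D F N + η * mFun D F 1))
    (x := 𝓝[>] (0 : ℝ)) ?_ (eventually_nhdsWithin_of_forall fun η hη' => hη η hη')
  have : Tendsto (fun η => C * (mFun D F N + η * mFun D F 1)) (𝓝 0)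
      (𝓝 (C * (mFun D F N + 0 * mFun D F 1))) := by
    exact (Continuous.tendsto (by fun_prop) 0)
  simpa using this.mono_left nhdsWithin_le_nhds

/-- The positive linear map of the time component. -/
noncomputable def mPos (hpos : ∀ g ∈ openCone D, 0 < F g) : C_c(T3, ℝ) →ₚ[ℝ] ℝ where
  toFun h := mFun D F h.toContinuousMap
  map_add' h k := by rw [← map_add]; rfl
  map_smul' c h := by rw [RingHom.id_apply, ← map_smul]; rfl
  monotone' h k hhk := by
    have := mFun_nonneg hpos (h := k.toContinuousMap - h.toContinuousMap) fun x => by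
      simpa using hhk x
    rw [map_sub, sub_nonneg] at this
    exact this

theorem exists_repr (hpos : ∀ g ∈ openCone D, 0 < F g) :
    ∃ (μ : Measure T3) (t : T3 → F6), IsFiniteMeasure μ ∧ μ ≠ 0 ∧ Measurable t ∧
      (∀ x, t x ∈ D.cone x ∧ qR D.s (t x) (D.e0 x) = 1) ∧
      ∀ g : C(T3, F6), F g = ∫ x, qR D.s (t x) (g x) ∂μ := by
  set μ := RealRMK.rieszMeasure (mPos hpos)
  have hfin : IsFiniteMeasure μ := inferInstance
  have hint : ∀ h : C(T3, ℝ), ∫ x, h x ∂μ = mFun D F h := fun h =>
    RealRMK.integral_rieszMeasure (mPos hpos) (CompactlySupportedContinuousMap.continuousMapEquiv h)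
  have hμ : μ ≠ 0 := fun h0 => by
    have h1 := hint 1
    rw [h0, integral_zero_measure] at h1
    exact (hpos _ (mul_e0_mem (D := D) (h := 1) fun x => one_pos)).ne h1
  obtain ⟨C, hC, hbd⟩ := F_bound hpos
  -- the components
  let φ : Fin 6 → (C(T3, ℝ) →ₗ[ℝ] ℝ) := fun i =>
    { toFun := fun h => F (smulField h (ContinuousMap.const T3 (Pi.single i 1)))
      map_add' := fun h k => by rw [← map_add]; congr 1; ext x; simp [smulField, add_mul]
      map_smul' := fun c h => by
        rw [RingHom.id_apply, ← map_smul]; congr 1; ext x; simp [smulField, mul_assoc] }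
  set e : C(T3, ℝ) →ₗ[ℝ] Lp ℝ 2 μ := (ContinuousMap.toLp (E := ℝ) 2 μ ℝ).toLinearMap
  have hdense : DenseRange e :=
    ContinuousMap.toLp_denseRange (α := T3) (E := ℝ) (μ := μ) (p := 2) (𝕜 := ℝ) (by simp)
  have hnorm : ∀ i, ∃ K, ∀ h, ‖φ i h‖ ≤ K * ‖e h‖ := fun i => by
    refine ⟨C * Real.sqrt (μ.real Set.univ), fun h => ?_⟩
    have h1 := hbd (smulField h (ContinuousMap.const T3 (Pi.single i 1))) ⟨fun x => |h x|, by fun_prop⟩
      fun x => by simp [smulField, norm_smul, Pi.norm_single]
    rw [← hint] at h1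
    refine h1.trans ?_
    rw [mul_assoc]
    refine mul_le_mul_of_nonneg_left ?_ hC
    have hm : MemLp (fun _ : T3 => (1 : ℝ)) 2 μ := memLp_const 1
    set G := ContinuousMap.toLp (E := ℝ) 2 μ ℝ ⟨fun x => |h x|, by fun_prop⟩
    have e1 : ∫ x, |h x| ∂μ = inner ℝ (hm.toLp _) G := by
      rw [L2.inner_def]
      refine integral_congr_ae ?_
      filter_upwards [hm.coeFn_toLp, ContinuousMap.coeFn_toLp (p := 2) (𝕜 := ℝ) μ
        (⟨fun x => |h x|, by fun_prop⟩ : C(T3, ℝ))] with x a1 a2
      simp only [G, a1, RCLike.inner_apply, conj_trivial, mul_one]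
      rw [a2]; rfl
    simp only [ContinuousMap.coe_mk]
    rw [e1]
    refine (real_inner_le_norm _ _).trans (mul_le_mul (le_of_eq ?_) (le_of_eq ?_) (norm_nonneg _)
      (Real.sqrt_nonneg _))
    · rw [← Real.sqrt_sq (norm_nonneg (hm.toLp _)), ← real_inner_self_eq_norm_sq, L2.inner_def]
      congr 1
      calc _ = ∫ _x : T3, (1 : ℝ) ∂μ := by
            refine integral_congr_ae ?_
            filter_upwards [hm.coeFn_toLp] with x a1
            simp only [a1, RCLike.inner_apply, conj_trivial, mul_one]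
        _ = _ := by simp
    · refine le_antisymm (Lp.norm_le_norm_of_ae_le ?_) (Lp.norm_le_norm_of_ae_le ?_) <;>
      · filter_upwards [ContinuousMap.coeFn_toLp (p := 2) (𝕜 := ℝ) μ
          (⟨fun x => |h x|, by fun_prop⟩ : C(T3, ℝ)), h.coeFn_toLp (p := 2) (𝕜 := ℝ) μ] with x a1 a2
        simp only [G, e, ContinuousLinearMap.coe_coe]
        rw [a1, a2]
        simp
  choose τ hτ using fun i => (⟨(InnerProductSpace.toDual ℝ (Lp ℝ 2 μ)).symm
      ((φ i).extendOfNorm e), fun h => by
        rw [InnerProductSpace.toDual_symm_apply, LinearMap.extendOfNorm_eq hdense (hnorm i)]⟩ :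
    ∃ τ : Lp ℝ 2 μ, ∀ h, inner ℝ τ (e h) = φ i h)
  set t0 : T3 → F6 := fun x i => D.s * (τ (i + 3) : T3 → ℝ) x
  have hs2 : D.s * D.s = 1 := by rcases D.hs with h | h <;> simp [h]
  have hqt : ∀ x u, qR D.s (t0 x) u = ∑ i, (τ i : T3 → ℝ) x * u i := fun x u => by
    rw [qR, Finset.mul_sum, ← Equiv.sum_comp (Equiv.addRight (3 : Fin 6))
      (fun i => (τ i : T3 → ℝ) x * u i)]
    refine Finset.sum_congr rfl fun i _ => ?_
    simp only [t0, Equiv.coe_addRight]
    linear_combination ((τ (i + 3) : T3 → ℝ) x * u (i + 3)) * hs2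
  have hrep : ∀ g : C(T3, F6), Integrable (fun x => qR D.s (t0 x) (g x)) μ ∧
      MemLp (fun x => qR D.s (t0 x) (g x)) 2 μ ∧ F g = ∫ x, qR D.s (t0 x) (g x) ∂μ := fun g => by
    have hm : ∀ i, MemLp (fun x => (τ i : T3 → ℝ) x * g x i) 2 μ := fun i =>
        (((Lp.memLp (τ i)).norm.const_mul ‖g‖).mono'
          ((Lp.aestronglyMeasurable (τ i)).mul
            (((continuous_apply i).comp g.continuous).aestronglyMeasurable))
          (Eventually.of_forall fun x => by
            rw [norm_mul, mul_comm]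
            exact mul_le_mul_of_nonneg_right
              ((norm_le_pi_norm (g x) i).trans (g.norm_coe_le_norm x)) (norm_nonneg _)))
    have hm2 : MemLp (fun x => qR D.s (t0 x) (g x)) 2 μ := by
      simp only [hqt]; exact memLp_finsetSum _ fun i _ => hm i
    refine ⟨hm2.integrable one_le_two, hm2, ?_⟩
    have hi : ∀ i ∈ Finset.univ, Integrable (fun x => (τ i : T3 → ℝ) x * g x i) μ :=
      fun i _ => (hm i).integrable one_le_two
    simp only [hqt]
    rw [integral_finsetSum _ hi]
    have e1 : g = ∑ i, smulField ⟨fun x => g x i, by fun_prop⟩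
        (ContinuousMap.const T3 (Pi.single i 1)) := by
      ext x j
      simp [smulField, Finset.sum_apply, Pi.single_apply]
    conv_lhs => rw [e1, map_sum]
    refine Finset.sum_congr rfl fun i _ => ?_
    change φ i ⟨fun x => g x i, _⟩ = _
    rw [← hτ, L2.inner_def]
    refine integral_congr_ae ?_
    filter_upwards [ContinuousMap.coeFn_toLp (p := 2) (𝕜 := ℝ) μ
      (⟨fun x => g x i, by fun_prop⟩ : C(T3, ℝ))] with x a1
    simp only [e, ContinuousLinearMap.coe_coe, RCLike.inner_apply, conj_trivial]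
    rw [a1]; simp [mul_comm]
  -- testing against fields
  have htest : ∀ g : C(T3, F6), (∀ h : C(T3, ℝ), (∀ x, 0 ≤ h x) → 0 ≤ F (smulField h g)) →
      ∀ᵐ x ∂μ, 0 ≤ qR D.s (t0 x) (g x) := fun g hg =>
    ae_nonneg_of_test (hrep g).2.1 fun h hh => by
      refine (hg h hh).trans (le_of_eq ?_)
      rw [(hrep _).2.2]
      refine integral_congr_ae (Eventually.of_forall fun x => ?_)
      simp [smulField, qR_smul_right, mul_comm]
  have hunit : ∀ᵐ x ∂μ, qR D.s (t0 x) (D.e0 x) = 1 := by
    have h0 := ae_eq_zero_of_test (μ := μ) (f := fun x => qR D.s (t0 x) (D.e0 x) - 1)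
      ((hrep (e0C D)).2.1.sub (memLp_const 1)) fun h => by
      have h1 := (hrep (smulField h (e0C D))).2.2
      rw [show F (smulField h (e0C D)) = mFun D F h from rfl, ← hint] at h1
      simp only [sub_mul, one_mul]
      rw [integral_sub]
      · rw [sub_eq_zero, h1]
        refine integral_congr_ae (Eventually.of_forall fun x => ?_)
        simp [smulField, e0C, qR_smul_right, mul_comm]
      · refine ((hrep (smulField h (e0C D))).1).congr (Eventually.of_forall fun x => ?_)
        simp [smulField, e0C, qR_smul_right, mul_comm]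
      · exact integrable_of_continuous h.continuous
    filter_upwards [h0] with x hx
    linarith
  have hpr : ∀ i, ∀ᵐ x ∂μ, (D.pr x *ᵥ t0 x) i = 0 := fun i => by
    set v : C(T3, F6) := ⟨fun x => D.pr x *ᵥ Pi.single (i + 3) 1,
      (continuous_pr D).matrix_mulVec continuous_const⟩
    have h0 := ae_eq_zero_of_test (μ := μ) (f := fun x => qR D.s (t0 x) (v x))
      (hrep v).2.1 fun h => by
      have h1 := (hrep (smulField h v)).2.2
      rw [F_eq_zero_of_p11 hpos fun x => by
        simp only [smulField, v, Data.p11, ContinuousMap.coe_mk, Matrix.mulVec_smul,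
          Matrix.mulVec_mulVec, D.idem, sub_self]] at h1
      rw [h1]
      refine integral_congr_ae (Eventually.of_forall fun x => ?_)
      simp [smulField, qR_smul_right, mul_comm]
    filter_upwards [h0] with x hx
    simp only [v, ContinuousMap.coe_mk, ← D.selfAdj, qR_single] at hx
    rcases mul_eq_zero.1 hx with h | h
    · rcases D.hs with h' | h' <;> simp [h'] at h
    · exact h
  -- the quadratic condition
  obtain ⟨dn, hdn⟩ := TopologicalSpace.exists_dense_seq F6
  have hprc : ∀ v : F6, Continuous fun x => spat D x (D.p11 x v) := fun v => by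
    have h1 : Continuous fun x => D.p11 x v :=
      (continuous_p11 D).comp (continuous_id.prodMk continuous_const)
    unfold spat
    exact h1.sub (((continuous_qR D.s).comp (h1.prodMk (Sm.continuous D.sm_e0))).smul
      (Sm.continuous D.sm_e0))
  set z : F6 → T3 → F6 := fun v x => spat D x (D.p11 x v)
  have hz : ∀ n m : ℕ, ∀ᵐ x ∂μ, 0 ≤ qR D.s (t0 x)
      (Real.sqrt (|qR D.s (z (dn n) x) (z (dn n) x)| + (1 / (m + 1 : ℝ))) • D.e0 x + z (dn n) x) :=
    fun n m => by
    refine htest ⟨fun x => Real.sqrt (|qR D.s (z (dn n) x) (z (dn n) x)| + (1 / (m + 1 : ℝ))) •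
        D.e0 x + z (dn n) x, (((((continuous_qR D.s).comp
          ((hprc (dn n)).prodMk (hprc (dn n)))).abs).add continuous_const).sqrt.smul
          (Sm.continuous D.sm_e0)).add (hprc (dn n))⟩ fun h hh => ?_
    refine le_of_forall_pos_le_add fun ε hε => ?_
    set g : C(T3, F6) := ⟨fun x => Real.sqrt (|qR D.s (z (dn n) x) (z (dn n) x)| +
        (1 / (m + 1 : ℝ))) • D.e0 x + z (dn n) x, _⟩
    have hg : g ∈ openCone D := fun x => by
      have hp : D.pr x *ᵥ z (dn n) x = 0 := pr_spat D x (pr_p11 D x _)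
      have hz0 : qR D.s (z (dn n) x) (D.e0 x) = 0 := qR_spat_e0 D x _
      set r := Real.sqrt (|qR D.s (z (dn n) x) (z (dn n) x)| + (1 / (m + 1 : ℝ)))
      have hr : r ^ 2 = |qR D.s (z (dn n) x) (z (dn n) x)| + (1 / (m + 1 : ℝ)) :=
        Real.sq_sqrt (by positivity)
      have hr0 : 0 < r := Real.sqrt_pos.2 (by positivity)
      have hg' : g x = r • D.e0 x + z (dn n) x := rfl
      have e : D.p11 x (g x) = r • D.e0 x + z (dn n) x :=
        p11_of_pr_zero D (by simp [hg', Matrix.mulVec_add, Matrix.mulVec_smul, D.pr_e0, hp])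
      refine ⟨?_, ?_⟩
      · rw [e]
        simp only [qR_add_left, qR_add_right, qR_smul_left, qR_smul_right, D.unit, mul_one,
          qR_comm D.s (D.e0 x) (z (dn n) x), hz0, mul_zero, add_zero, zero_add]
        have h1 : (0 : ℝ) < 1 / (m + 1 : ℝ) := by positivity
        nlinarith [neg_abs_le (qR D.s (z (dn n) x) (z (dn n) x))]
      · rw [hg', qR_add_left, qR_smul_left, D.unit, hz0]; linarith
    set δ := ε / (F g + 1)
    have hFg := hpos g hg
    have hδ : 0 < δ := div_pos hε (by linarith)
    have hmem : smulField (h + δ • 1) g ∈ openCone D := fun x => by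
      obtain ⟨a1, a2⟩ := hg x
      have hpos' : 0 < h x + δ := by linarith [hh x]
      have e : D.p11 x ((smulField (h + δ • 1) g) x) = (h x + δ) • D.p11 x (g x) := by
        simp [smulField, Data.p11, Matrix.mulVec_smul, smul_sub]
      refine ⟨?_, ?_⟩
      · rw [e, qR_smul_left, qR_smul_right]; positivity
      · simp only [smulField, ContinuousMap.coe_mk, ContinuousMap.add_apply,
          ContinuousMap.smul_apply, ContinuousMap.one_apply, smul_eq_mul, mul_one, qR_smul_left]
        positivity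
    have h1 := hpos _ hmem
    have e : smulField (h + δ • 1) g = smulField h g + δ • g := by
      ext x; simp [smulField, add_mul]
    rw [e, map_add, map_smul, smul_eq_mul] at h1
    have : δ * F g ≤ ε := by
      simp only [δ]; rw [div_mul_eq_mul_div, div_le_iff₀ (by linarith)]; nlinarith
    linarith
  have hgood : ∀ᵐ x ∂μ, t0 x ∈ D.cone x ∧ qR D.s (t0 x) (D.e0 x) = 1 := by
    filter_upwards [hunit, ae_all_iff.2 hpr, ae_all_iff.2 fun n => ae_all_iff.2 (hz n)] with x h1 h2 h3
    have h2' : D.pr x *ᵥ t0 x = 0 := funext h2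
    refine ⟨mem_cone h2' ?_ (by rw [h1]; exact zero_le_one), h1⟩
    have h4 : ∀ v : F6, 0 ≤ Real.sqrt |qR D.s (z v x) (z v x)| + qR D.s (t0 x) (z v x) := by
      refine isClosed_property hdn (isClosed_le continuous_const ?_) fun n => ?_
      · have hzc : Continuous fun v => z v x := by
          simp only [z, spat]
          have h5 : Continuous fun v => D.p11 x v :=
            (continuous_p11 D).comp (continuous_const.prodMk continuous_id)
          exact h5.sub (((continuous_qR D.s).comp (h5.prodMk continuous_const)).smul continuous_const)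
        exact (((continuous_qR D.s).comp (hzc.prodMk hzc)).abs.sqrt).add
          ((continuous_qR D.s).comp (continuous_const.prodMk hzc))
      refine ge_of_tendsto' (x := atTop) (f := fun m : ℕ =>
        Real.sqrt (|qR D.s (z (dn n) x) (z (dn n) x)| + 1 / (m + 1 : ℝ)) +
          qR D.s (t0 x) (z (dn n) x)) ?_ fun m => ?_
      · refine Tendsto.add_const _ ((Real.continuous_sqrt.tendsto _).comp ?_)
        simpa using tendsto_one_div_add_atTop_nhds_zero_nat.const_add
          |qR D.s (z (dn n) x) (z (dn n) x)|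
      · have := h3 n m
        rwa [qR_add_right, qR_smul_right, h1, mul_one] at this
    have h5 := h4 (t0 x)
    simp only [z, p11_of_pr_zero D h2'] at h5
    have h6 : qR D.s (t0 x) (spat D x (t0 x)) = qR D.s (spat D x (t0 x)) (spat D x (t0 x)) := by
      have h6a := qR_split D x (t0 x) (spat D x (t0 x))
      rw [qR_spat_e0, mul_zero, zero_add] at h6a
      rw [h6a]
      congr 1
      simp [spat, qR_sub_left, qR_smul_left, D.unit]
    rw [h6] at h5
    have h7 := spat_self_nonpos D x h2'
    rw [qR_split D x (t0 x) (t0 x), h1, one_mul]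
    set w := qR D.s (spat D x (t0 x)) (spat D x (t0 x))
    rw [abs_of_nonpos h7] at h5
    have h8 := Real.sq_sqrt (neg_nonneg.2 h7)
    have h9 := Real.sqrt_nonneg (-w)
    nlinarith
  have ht0m : AEMeasurable t0 μ := aemeasurable_pi_lambda _ fun i =>
    ((Lp.aestronglyMeasurable (τ (i + 3))).aemeasurable).const_mul D.s
  set t1 := ht0m.mk t0
  obtain ⟨S, hsub, hSm, hS0⟩ :=
    exists_measurable_superset_of_null (show μ {x | ¬ (t1 x ∈ D.cone x ∧ qR D.s (t1 x) (D.e0 x) = 1)} = 0
      from ae_iff.1 (by filter_upwards [hgood, ht0m.ae_eq_mk] with x a1 a2; simp only [t1]; rwa [← a2]))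
  classical
  refine ⟨μ, S.piecewise D.e0 t1, hfin, hμ,
    Measurable.piecewise hSm (Sm.continuous D.sm_e0).measurable ht0m.measurable_mk, fun x => ?_,
    fun g => ?_⟩
  · by_cases hx : x ∈ S
    · simp only [Set.piecewise_eq_of_mem _ _ _ hx]
      exact ⟨e0_mem_cone D x, D.unit x⟩
    · simp only [Set.piecewise_eq_of_notMem _ _ _ hx]
      exact Classical.byContradiction fun hn => hx (hsub hn)
  · rw [(hrep g).2.2]
    refine integral_congr_ae ?_
    filter_upwards [measure_eq_zero_iff_ae_notMem.1 hS0, ht0m.ae_eq_mk] with x a1 a2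
    rw [Set.piecewise_eq_of_notMem _ _ _ a1, a2]

theorem exists_obstruction (D : Data) (hN : ¬ D.Compatible) : ∃ μ t, Obstruction D μ t := by
  obtain ⟨F, hpos, hK⟩ := exists_separation D hN
  obtain ⟨μ, t, hfin, hne, hm, ht, hrep⟩ := exists_repr hpos
  obtain ⟨C, hC⟩ := cone_bdd D
  refine ⟨μ, t, hfin, hne, hm, ⟨C, fun x => ?_⟩, fun x => (ht x).1, fun x => (ht x).2,
    fun w hw hw0 => ?_⟩
  · have := hC x _ (ht x).1
    rwa [(ht x).2, mul_one] at this
  · exact (hrep ⟨w, Sm.continuous hw.1⟩).symm.trans (hK _ ⟨hw, hw0⟩)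

end Vale.Agent.P204
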