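import Vale.Agent.P204.Cone

/-!
If no closed form is compatible, the Hahn-Banach theorem yields a positive (1,1) current which
annihilates the closed (1,1) forms.
-/

open MeasureTheory Filter Topology
open scoped ContDiff Matrix ENNReal CompactlySupported

namespace Vale.Agent.P204

instance : IsProbabilityMeasure vol := by unfold vol; infer_instance

lemma integrable_of_continuous {μ : Measure T3} [IsFiniteMeasure μ] {E : Type*}
    [NormedAddCommGroup E] [SecondCountableTopology E] {f : T3 → E} (hf : Continuous f) :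
    Integrable f μ := by
  obtain ⟨x0, -, h0⟩ := isCompact_univ.exists_isMaxOn Set.univ_nonempty hf.norm.continuousOn
  exact Integrable.of_bound hf.aestronglyMeasurable _
    (Eventually.of_forall fun x => h0 (Set.mem_univ x))

lemma coef_add {f g : T3 → ℝ} (hf : Continuous f) (hg : Continuous g) (k : Idx) :
    coef vol (fun x => f x + g x) k = coef vol f k + coef vol g k := by
  simp only [coef, Complex.ofReal_add, mul_add]
  exact integral_add (integrable_of_continuous (by fun_prop))
    (integrable_of_continuous (by fun_prop))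

lemma coef_smul (μ : Measure T3) (f : T3 → ℝ) (c : ℝ) (k : Idx) :
    coef μ (fun x => c * f x) k = (c : ℂ) * coef μ f k := by
  simp only [coef, Complex.ofReal_mul, ← integral_const_mul]
  exact integral_congr_ae (Eventually.of_forall fun x => by ring)

lemma ClosedForm.zero : ClosedForm 0 := by
  refine ⟨contDiff_const, fun k => ?_⟩
  have : cf vol (0 : T3 → F6) k = 0 := by
    ext i; simp [cf, coef]
  simp [ClosedAt, this]

lemma ClosedForm.add {v w : T3 → F6} (hv : ClosedForm v) (hw : ClosedForm w) :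
    ClosedForm (v + w) := by
  refine ⟨hv.1.add hw.1, fun k => ?_⟩
  have e : cf vol (v + w) k = cf vol v k + cf vol w k := by
    ext i
    simp only [cf, Pi.add_apply, PiLp.add_apply]
    exact coef_add ((continuous_apply i).comp (Sm.continuous hv.1))
      ((continuous_apply i).comp (Sm.continuous hw.1)) k
  obtain ⟨a1, a2, a3, a4⟩ := hv.2 k
  obtain ⟨b1, b2, b3, b4⟩ := hw.2 k
  simp only [ClosedAt, e, PiLp.add_apply]
  refine ⟨?_, ?_, ?_, ?_⟩
  · linear_combination a1 + b1
  · linear_combination a2 + b2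
  · linear_combination a3 + b3
  · linear_combination a4 + b4

lemma ClosedForm.smul {v : T3 → F6} (hv : ClosedForm v) (c : ℝ) : ClosedForm (c • v) := by
  refine ⟨hv.1.const_smul c, fun k => ?_⟩
  have e : cf vol (c • v) k = (c : ℂ) • cf vol v k := by
    ext i
    simp only [cf, Pi.smul_apply, smul_eq_mul, PiLp.smul_apply]
    exact coef_smul vol (fun x => v x i) c k
  obtain ⟨a1, a2, a3, a4⟩ := hv.2 k
  simp only [ClosedAt, e, PiLp.smul_apply, smul_eq_mul]
  refine ⟨?_, ?_, ?_, ?_⟩
  · linear_combination (c : ℂ) * a1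
  · linear_combination (c : ℂ) * a2
  · linear_combination (c : ℂ) * a3
  · linear_combination (c : ℂ) * a4

variable (D : Data)

lemma qR_p11_e0 (x : T3) (u : F6) : qR D.s (D.p11 x u) (D.e0 x) = qR D.s u (D.e0 x) := by
  rw [Data.p11, qR_sub_left, D.selfAdj, D.pr_e0, qR_zero_right, sub_zero]

lemma pr_p11 (x : T3) (u : F6) : D.pr x *ᵥ D.p11 x u = 0 := by
  simp [Data.p11, Matrix.mulVec_sub, Matrix.mulVec_mulVec, D.idem]

lemma p11_of_pr_zero {x : T3} {u : F6} (h : D.pr x *ᵥ u = 0) : D.p11 x u = u := by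
  simp [Data.p11, h]

/-- The open cone of fields whose (1,1) part is positive. -/
def openCone : Set C(T3, F6) :=
  {g | ∀ x, 0 < qR D.s (D.p11 x (g x)) (D.p11 x (g x)) ∧ 0 < qR D.s (g x) (D.e0 x)}

lemma continuous_pr : Continuous D.pr :=
  continuous_matrix fun i j => Sm.continuous (D.sm_pr i j)

lemma continuous_p11 : Continuous fun p : T3 × F6 => D.p11 p.1 p.2 := by
  unfold Data.p11
  exact continuous_snd.sub (((continuous_pr D).comp continuous_fst).matrix_mulVec continuous_snd)

lemma isOpen_openCone : IsOpen (openCone D) := by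
  have hO : IsOpen {p : T3 × F6 |
      0 < qR D.s (D.p11 p.1 p.2) (D.p11 p.1 p.2) ∧ 0 < qR D.s p.2 (D.e0 p.1)} :=
    (isOpen_lt continuous_const ((continuous_qR D.s).comp
        ((continuous_p11 D).prodMk (continuous_p11 D)))).inter
      (isOpen_lt continuous_const ((continuous_qR D.s).comp
        (continuous_snd.prodMk ((Sm.continuous D.sm_e0).comp continuous_fst))))
  have hc : Continuous fun g : C(T3, F6) => (ContinuousMap.id T3).prodMk g :=
    ContinuousMap.continuous_of_continuous_uncurry _ (by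
      change Continuous fun p : C(T3, F6) × T3 => (p.2, p.1 p.2)
      exact continuous_snd.prodMk continuous_eval)
  have e : openCone D = (fun g : C(T3, F6) => (ContinuousMap.id T3).prodMk g) ⁻¹'
      {G | Set.MapsTo G Set.univ {p : T3 × F6 |
        0 < qR D.s (D.p11 p.1 p.2) (D.p11 p.1 p.2) ∧ 0 < qR D.s p.2 (D.e0 p.1)}} := by
    ext g; simp [openCone, Set.MapsTo]
  rw [e]
  exact (ContinuousMap.isOpen_setOfPred_mapsTo isCompact_univ hO).preimage hc

lemma convex_openCone : Convex ℝ (openCone D) := by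
  intro u hu v hv a b ha hb hab x
  obtain ⟨u1, u2⟩ := hu x
  obtain ⟨v1, v2⟩ := hv x
  have hp := cone_pair_nonneg D (x := x) (u := D.p11 x (u x)) (v := D.p11 x (v x))
    (mem_cone (pr_p11 D x _) u1.le (by rw [qR_p11_e0]; exact u2.le))
    (mem_cone (pr_p11 D x _) v1.le (by rw [qR_p11_e0]; exact v2.le))
  have e : D.p11 x ((a • u + b • v) x) = a • D.p11 x (u x) + b • D.p11 x (v x) := by
    simp [Data.p11, Matrix.mulVec_add, Matrix.mulVec_smul, smul_sub]
    abel
  refine ⟨?_, ?_⟩
  · rw [e]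
    simp only [qR_add_left, qR_add_right, qR_smul_left, qR_smul_right,
      qR_comm D.s (D.p11 x (v x)) (D.p11 x (u x))]
    rcases eq_or_lt_of_le ha with rfl | ha'
    · obtain rfl : b = 1 := by linarith
      simpa using v1
    · have e1 := mul_pos (mul_pos ha' ha') u1
      have e2 := mul_nonneg (mul_nonneg ha hb) hp
      have e3 := mul_nonneg (mul_nonneg hb hb) v1.le
      nlinarith
  · simp only [ContinuousMap.add_apply, ContinuousMap.smul_apply, qR_add_left, qR_smul_left]
    rcases eq_or_lt_of_le ha with rfl | ha'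
    · obtain rfl : b = 1 := by linarith
      simpa using v2
    · have e1 := mul_pos ha' u2
      have e2 := mul_nonneg hb v2.le
      linarith

/-- The closed forms of type (1,1). -/
def closed11 : Submodule ℝ C(T3, F6) where
  carrier := {g | ClosedForm ⇑g ∧ ∀ x, D.pr x *ᵥ g x = 0}
  zero_mem' := ⟨ClosedForm.zero, fun x => by simp⟩
  add_mem' := fun {u v} hu hv => ⟨ClosedForm.add hu.1 hv.1, fun x => by
    simp [Matrix.mulVec_add, hu.2 x, hv.2 x]⟩
  smul_mem' := fun c u hu => ⟨ClosedForm.smul hu.1 c, fun x => by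
    simp [Matrix.mulVec_smul, hu.2 x]⟩

/-- The time field. -/
noncomputable def e0C : C(T3, F6) := ⟨D.e0, Sm.continuous D.sm_e0⟩

theorem exists_separation (hN : ¬ D.Compatible) : ∃ F : StrongDual ℝ C(T3, F6),
    (∀ g ∈ openCone D, 0 < F g) ∧ ∀ g ∈ closed11 D, F g = 0 := by
  have hdisj : Disjoint (openCone D) (closed11 D : Set C(T3, F6)) := by
    rw [Set.disjoint_left]
    intro g hg hK
    refine hN ⟨g, hK.1, fun x => ⟨hK.2 x, ?_, (hg x).2⟩⟩
    have := (hg x).1
    rwa [p11_of_pr_zero D (hK.2 x)] at this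
  obtain ⟨f, u, h1, h2⟩ := geometric_hahn_banach_open (convex_openCone D) (isOpen_openCone D)
    (closed11 D).convex hdisj
  have hu : u ≤ 0 := by simpa using h2 0 (closed11 D).zero_mem
  refine ⟨-f, fun g hg => by simpa using (h1 g hg).trans_le hu, fun g hg => ?_⟩
  by_contra hne
  have hne' : f g ≠ 0 := by simpa using hne
  have := h2 (((u - 1) / f g) • g) ((closed11 D).smul_mem _ hg)
  norm_num [hne'] at this

variable {μ : Measure T3} [IsFiniteMeasure μ]

/-- Nonnegativity is detected by continuous test functions. -/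
lemma ae_nonneg_of_test [μ.WeaklyRegular] {f : T3 → ℝ} (hf : MemLp f 2 μ)
    (h : ∀ g : C(T3, ℝ), (∀ x, 0 ≤ g x) → 0 ≤ ∫ x, f x * g x ∂μ) : ∀ᵐ x ∂μ, 0 ≤ f x := by
  set φ := hf.toLp f with hφ
  have hψ : MemLp (fun x => max (-f x) 0) 2 μ := hf.neg.pos_part
  set ψ := hψ.toLp (fun x => max (-f x) 0) with hψd
  have key : 0 ≤ inner ℝ φ ψ := by
    refine ge_of_tendsto' (f := fun n : ℕ => inner ℝ φ ψ + ‖φ‖ * (1 / (n + 1 : ℝ)))
      (x := atTop) ?_ fun n => ?_
    · simpa using (tendsto_one_div_add_atTop_nhds_zero_nat.const_mul ‖φ‖).const_add (inner ℝ φ ψ)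
    obtain ⟨g, hg⟩ := (ContinuousMap.toLp_denseRange (α := T3) (E := ℝ) (μ := μ) (p := 2)
      (𝕜 := ℝ) (by simp)).exists_dist_lt ψ (Nat.one_div_pos_of_nat (α := ℝ) (n := n))
    set gp : C(T3, ℝ) := ⟨fun x => max (g x) 0, by fun_prop⟩
    set G := ContinuousMap.toLp (E := ℝ) 2 μ ℝ gp
    have h1 : ‖G - ψ‖ ≤ ‖ψ - ContinuousMap.toLp (E := ℝ) 2 μ ℝ g‖ := by
      refine Lp.norm_le_norm_of_ae_le ?_
      filter_upwards [Lp.coeFn_sub G ψ, Lp.coeFn_sub ψ (ContinuousMap.toLp (E := ℝ) 2 μ ℝ g),
        gp.coeFn_toLp (p := 2) (𝕜 := ℝ) μ, g.coeFn_toLp (p := 2) (𝕜 := ℝ) μ, hψ.coeFn_toLp] with x e1 e2 e3 e4 e5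
      rw [e1, e2, Pi.sub_apply, Pi.sub_apply, e3, e4]
      simp only [hψd, e5, gp, ContinuousMap.coe_mk, Real.norm_eq_abs]
      rw [abs_sub_comm (max (-f x) 0) (g x)]
      calc |max (g x) 0 - max (-f x) 0| = |max (g x) 0 - max (max (-f x) 0) 0| := by simp
        _ ≤ |g x - max (-f x) 0| := abs_max_sub_max_le_abs (g x) (max (-f x) 0) 0
    have h2 : 0 ≤ inner ℝ φ G := by
      rw [L2.inner_def]
      refine (h gp fun x => le_max_right _ _).trans (le_of_eq (integral_congr_ae ?_))
      filter_upwards [hf.coeFn_toLp, gp.coeFn_toLp (p := 2) (𝕜 := ℝ) μ] with x e1 e2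
      simp only [G, hφ, e1, e2, RCLike.inner_apply, conj_trivial]
      ring
    have h3 : inner ℝ φ (G - ψ) ≤ ‖φ‖ * (1 / (n + 1 : ℝ)) :=
      (real_inner_le_norm _ _).trans (mul_le_mul_of_nonneg_left
        (h1.trans (by rw [dist_eq_norm] at hg; exact hg.le)) (norm_nonneg _))
    rw [inner_sub_right] at h3
    linarith
  have e : inner ℝ φ ψ = -∫ x, max (-f x) 0 ^ 2 ∂μ := by
    rw [L2.inner_def, ← integral_neg]
    refine integral_congr_ae ?_
    filter_upwards [hf.coeFn_toLp, hψ.coeFn_toLp] with x e1 e2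
    simp only [hφ, hψd, e1, e2, RCLike.inner_apply, conj_trivial]
    rcases le_total 0 (-f x) with h0 | h0
    · rw [max_eq_left h0]; ring
    · simp [max_eq_right h0]
  rw [e, neg_nonneg] at key
  have h0 := (integral_eq_zero_iff_of_nonneg (fun x => sq_nonneg (max (-f x) 0))
    hψ.integrable_sq).1 (le_antisymm key (integral_nonneg fun x => sq_nonneg _))
  filter_upwards [h0] with x hx
  have := pow_eq_zero_iff (two_ne_zero) |>.1 hx
  linarith [le_max_left (-f x) 0]

lemma ae_eq_zero_of_test [μ.WeaklyRegular] {f : T3 → ℝ} (hf : MemLp f 2 μ)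
    (h : ∀ g : C(T3, ℝ), ∫ x, f x * g x ∂μ = 0) : ∀ᵐ x ∂μ, f x = 0 := by
  filter_upwards [ae_nonneg_of_test hf fun g _ => (h g).ge,
    ae_nonneg_of_test hf.neg fun g _ => by
      simp only [Pi.neg_apply, neg_mul, integral_neg, h g, neg_zero, le_refl]] with x h1 h2
  simp only [Pi.neg_apply] at h2
  linarith

end Vale.Agent.P204
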