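import Vale.Agent.P204.Est
import Vale.Agent.P204.Energy
import Vale.Agent.P204.Levi

/-!
The two smoothing steps and the linear growth of the mass.
-/

open MeasureTheory Filter Topology
open scoped ContDiff ComplexConjugate Matrix

namespace Vale.Agent.P204

variable {D : Data} {μ : Measure T3} {t : T3 → F6} {S : Idx → C6}

/-- What is known about the extended current. -/
structure Extension (D : Data) (μ : Measure T3) (t : T3 → F6) (S : Idx → C6) : Prop where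
  real : RealSeq S
  wtd : Summable fun k => ((wt k) ^ 2)⁻¹ * ‖S k‖ ^ 2
  proj : conv (cM D.pr) S = S
  exact : ∀ k, ExactAt k (cf μ t k + S k)

lemma quad_bound {c X a b : ℝ} (hc : 0 < c) (hX : 0 ≤ X) (h : c * X ≤ a + b * √X) :
    X ≤ 2 * a / c + (b / c) ^ 2 := by
  have h1 : b * √X ≤ c / 2 * X + b ^ 2 / (2 * c) := by
    have : c / 2 * X + b ^ 2 / (2 * c) - b * √X = (c * √X - b) ^ 2 / (2 * c) := by
      field_simp
      linear_combination -(c ^ 2) * Real.sq_sqrt hX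
    have : 0 ≤ (c * √X - b) ^ 2 / (2 * c) := by positivity
    linarith
  have h2 : c / 2 * (2 * a / c + (b / c) ^ 2) = a + b ^ 2 / (2 * c) := by field_simp
  exact le_of_mul_le_mul_left (by linarith) (half_pos hc)

lemma Obstruction.pair_lower (hO : Obstruction D μ t) :
    ∃ C : ℝ, ∀ x y, -(C * dist x y ^ 2) ≤ qR D.s (t x) (t y) := by
  obtain ⟨C, hC⟩ := cone_pair_lower D
  refine ⟨C, fun x y => ?_⟩
  simpa [hO.norm] using hC x y _ (hO.cone x) _ (hO.cone y)

lemma Obstruction.cf_bdd (hO : Obstruction D μ t) : ∃ A, 0 ≤ A ∧ ∀ k, ‖cf μ t k‖ ≤ A := by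
  have := hO.fin
  obtain ⟨R, hR⟩ := hO.bdd
  obtain ⟨A, hA⟩ := norm_cf_le μ t hO.meas hR
  exact ⟨A, (norm_nonneg _).trans (hA 0), hA⟩

lemma N1_nonneg {δ : ℝ} (hδ : 0 < δ) (k : Idx) : 0 ≤ N1 δ k :=
  inv_nonneg.2 (mul_nonneg (Four.wt_pos k).le
    (by nlinarith [mul_nonneg hδ.le (sub_nonneg.2 (one_le_wt k))]))

lemma N1_le {δ : ℝ} (hδ : δ ∈ Set.Ioc (0 : ℝ) 1) (k : Idx) :
    N1 δ k ≤ δ⁻¹ * ((wt k) ^ 2)⁻¹ := by
  rw [N1, ← mul_inv]
  have hw := one_le_wt k
  refine inv_anti₀ (mul_pos hδ.1 (by positivity)) ?_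
  nlinarith [mul_le_mul_of_nonneg_left hδ.2 (by linarith : (0 : ℝ) ≤ wt k)]

lemma N3_nonneg {h : ℝ} (hh : 0 < h) (k : Idx) : 0 ≤ N3 h k :=
  inv_nonneg.2 (pow_nonneg (by nlinarith [mul_nonneg hh.le (sub_nonneg.2 (one_le_wt k))]) 3)

lemma N3_pos {h : ℝ} (hh : 0 < h) (k : Idx) : 0 < N3 h k :=
  inv_pos.2 (pow_pos (by nlinarith [mul_nonneg hh.le (sub_nonneg.2 (one_le_wt k))]) 3)

lemma N3_le_one {h : ℝ} (hh : 0 < h) (k : Idx) : N3 h k ≤ 1 :=
  inv_le_one_of_one_le₀ (one_le_pow₀ (by nlinarith [mul_nonneg hh.le (sub_nonneg.2 (one_le_wt k))]))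

lemma N3_le {h : ℝ} (hh : h ∈ Set.Ioc (0 : ℝ) 1) (k : Idx) :
    N3 h k ≤ (h ^ 3)⁻¹ * ((wt k) ^ 2)⁻¹ := by
  rw [N3, ← mul_inv]
  have hw := one_le_wt k
  refine inv_anti₀ (mul_pos (pow_pos hh.1 3) (by positivity)) ?_
  calc h ^ 3 * wt k ^ 2 ≤ h ^ 3 * wt k ^ 3 :=
        mul_le_mul_of_nonneg_left (pow_le_pow_right₀ hw (by norm_num)) (pow_nonneg hh.1.le 3)
    _ = (h * wt k) ^ 3 := by ring
    _ ≤ _ := pow_le_pow_left₀ (mul_nonneg hh.1.le (by linarith)) (by nlinarith [hh.2]) 3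

lemma summable_weight {N : Idx → ℝ} {K : ℝ} (hN0 : ∀ k, 0 ≤ N k)
    (hNb : ∀ k, N k ≤ K * ((wt k) ^ 2)⁻¹)
    (hS : Summable fun k => ((wt k) ^ 2)⁻¹ * ‖S k‖ ^ 2) :
    Summable fun k => N k * ‖S k‖ ^ 2 :=
  Summable.of_nonneg_of_le (fun k => mul_nonneg (hN0 k) (sq_nonneg _))
    (fun k => (mul_le_mul_of_nonneg_right (hNb k) (sq_nonneg _)).trans_eq (mul_assoc _ _ _))
    (hS.mul_left K)

theorem first_step (hO : Obstruction D μ t) (hS : Extension D μ t S) :
    Summable fun k => (wt k)⁻¹ * ‖S k‖ ^ 2 := by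
  have := hO.fin
  obtain ⟨R, hR⟩ := hO.bdd
  obtain ⟨Cq, hq⟩ := hO.pair_lower
  obtain ⟨A, hA0, hA⟩ := hO.cf_bdd
  obtain ⟨C1, hC1⟩ := energy_N1_lower D.s μ hO.meas hR hq
  obtain ⟨C, p, hC, hcom⟩ := sqrt_N1_sub_le
  obtain ⟨c, hc, K, hK⟩ := energy_lower D
  set Mp := ∑' k, wt k ^ p * ‖cM D.pr k‖
  set W := ∑' k : Idx, ((wt k) ^ 2)⁻¹
  set Y := ∑' k, ((wt k) ^ 2)⁻¹ * ‖S k‖ ^ 2
  set a := C1 + |K| * ((C * Mp) ^ 2 * Y)
  set b := 12 * (√(A ^ 2 * W) * (C * Mp))
  have key : ∀ δ ∈ Set.Ioc (0 : ℝ) 1, Summable (fun k => N1 δ k * ‖S k‖ ^ 2) ∧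
      ∑' k, N1 δ k * ‖S k‖ ^ 2 ≤ 2 * a / c + (b / c) ^ 2 := fun δ hδ => by
    have hN0 := N1_nonneg hδ.1
    have hs := summable_weight hN0 (N1_le hδ) hS.wtd
    refine ⟨hs, quad_bound hc (tsum_nonneg fun k => mul_nonneg (hN0 k) (sq_nonneg _)) ?_⟩
    have hu : Summable fun k => ‖scl (fun k => √(N1 δ k)) S k‖ ^ 2 := by
      simpa only [norm_scl_sqrt hN0] using hs
    have hrem := rem_bound (polyB_of_weighted hS.wtd) hS.proj hC p
      (f := fun k => √(N1 δ k)) (b := fun l => (wt l)⁻¹) (D := D) (S := S)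
      (fun k l => (hcom δ hδ k l).1.trans (mul_le_mul_of_nonneg_left (le_abs_self _)
        (mul_nonneg hC (pow_nonneg (Four.wt_pos _).le p))))
      (by simpa only [inv_pow] using hS.wtd) hu
    simp only [inv_pow] at hrem
    have hT2 : ∀ k, ((wt k)⁻¹) ^ 2 * ‖cf μ t k‖ ^ 2 ≤ A ^ 2 * ((wt k) ^ 2)⁻¹ := fun k => by
      rw [inv_pow, mul_comm (A ^ 2)]
      exact mul_le_mul_of_nonneg_left (pow_le_pow_left₀ (norm_nonneg _) (hA k) 2)
        (inv_nonneg.2 (sq_nonneg _))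
    have hTs : Summable fun k => ((wt k)⁻¹) ^ 2 * ‖cf μ t k‖ ^ 2 :=
      Summable.of_nonneg_of_le (fun k => by positivity) hT2 (summable_wt_inv.mul_left _)
    obtain ⟨hcs, hcb⟩ := cross_bound (D := D) (T := cf μ t) (S := S) (g := fun k => (wt k)⁻¹) hN0
      (fun k => inv_pos.2 (Four.wt_pos k)) hC p (fun k l => by
        rw [abs_sub_comm, ← Four.wt_neg, neg_sub]
        exact ((hcom δ hδ l k).2).trans_eq (by ring)) hs hTs
    have hbal := balance hA (pr_cf_eq_zero hO) hS.wtd hS.proj hS.exact hN0 (N1_le hδ) hcs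
    have hlow := hK _ hu
    have h1 := hC1 δ hδ
    have hT3 : √(∑' k, ((wt k)⁻¹) ^ 2 * ‖cf μ t k‖ ^ 2) ≤ √(A ^ 2 * W) := by
      refine Real.sqrt_le_sqrt ?_
      rw [← tsum_mul_left]
      exact hTs.tsum_le_tsum hT2 (summable_wt_inv.mul_left _)
    have hM : 0 ≤ C * Mp := mul_nonneg hC
      (tsum_nonneg fun k => mul_nonneg (pow_nonneg (Four.wt_pos k).le p) (norm_nonneg _))
    have h2 := hcb.trans (mul_le_mul_of_nonneg_right hT3 (mul_nonneg hM (Real.sqrt_nonneg _)))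
    have h3 : K * _ ≤ |K| * ((C * Mp) ^ 2 * Y) :=
      (mul_le_mul_of_nonneg_right (le_abs_self K) (tsum_nonneg fun k => sq_nonneg _)).trans
        (mul_le_mul_of_nonneg_left hrem (abs_nonneg K))
    simp only [norm_scl_sqrt hN0] at hlow
    simp only [a, b]
    nlinarith
  refine summable_of_sum_le (c := 2 * (2 * a / c + (b / c) ^ 2))
    (fun k => mul_nonneg (inv_nonneg.2 (Four.wt_pos k).le) (sq_nonneg _)) fun F => ?_
  set d := (1 + ∑ k ∈ F, wt k)⁻¹
  have hsum : 0 ≤ ∑ k ∈ F, wt k := Finset.sum_nonneg fun k _ => (Four.wt_pos k).le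
  have hd : d ∈ Set.Ioc (0 : ℝ) 1 := ⟨by positivity, inv_le_one_of_one_le₀ (by linarith)⟩
  obtain ⟨h1, h2⟩ := key d hd
  calc ∑ k ∈ F, (wt k)⁻¹ * ‖S k‖ ^ 2 ≤ ∑ k ∈ F, 2 * (N1 d k * ‖S k‖ ^ 2) := by
        refine Finset.sum_le_sum fun k hk => ?_
        rw [← mul_assoc]
        refine mul_le_mul_of_nonneg_right ?_ (sq_nonneg _)
        have hw := one_le_wt k
        have hk' : wt k ≤ ∑ k ∈ F, wt k :=
          Finset.single_le_sum (fun k _ => (Four.wt_pos k).le) hk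
        have hdk : d * (wt k - 1) ≤ 1 := by
          simp only [d]
          rw [inv_mul_le_iff₀ (by positivity)]
          linarith
        have hpos : 0 < 1 + d * (wt k - 1) := by nlinarith [hd.1]
        rw [N1, mul_inv, ← mul_assoc, mul_comm (2 : ℝ), mul_assoc]
        refine le_mul_of_one_le_right (inv_nonneg.2 (by linarith)) ?_
        rw [← div_eq_mul_inv, le_div_iff₀ hpos]
        linarith
    _ ≤ _ := by
        rw [← Finset.mul_sum]
        exact mul_le_mul_of_nonneg_left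
          ((h1.sum_le_tsum F fun k _ => mul_nonneg (N1_nonneg hd.1 k) (sq_nonneg _)).trans h2)
          (by norm_num)

lemma sm_pr_mul (D : Data) {w : T3 → F6} (hw : Sm w) : Sm fun x => D.pr x *ᵥ w x := by
  refine contDiff_pi.2 fun i => ?_
  simp only [Matrix.mulVec, dotProduct, Function.comp_def]
  exact ContDiff.sum fun j _ => (D.sm_pr i j).mul (contDiff_pi.1 hw j)

lemma integrable_qR (s : ℝ) [IsFiniteMeasure μ] (ht : Measurable t) {R : ℝ} (hR : ∀ x, ‖t x‖ ≤ R)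
    {w : T3 → F6} (hw : Sm w) : Integrable (fun x => qR s (t x) (w x)) μ := by
  simp only [qR]
  exact (integrable_finsetSum _ fun i _ => Four.integrable_mul_sm
    ((measurable_pi_apply i).comp ht) (fun x => (norm_le_pi_norm (t x) i).trans (hR x))
    (Four.sm_continuous (sm_comp hw (i + 3)))).const_mul s

theorem growth (hO : Obstruction D μ t) (hS : Extension D μ t S) :
    ∃ G : ℝ, ∀ y r, 0 < r → μ.real (Metric.ball y r) ≤ G * r := by
  have := hO.fin
  obtain ⟨R, hR⟩ := hO.bdd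
  obtain ⟨C, hC, htest⟩ := exists_growth_test D
  have h1 := first_step hO hS
  set X := ∑' k, (wt k)⁻¹ * ‖S k‖ ^ 2
  set m := μ.real Set.univ
  set G := C * (6 * (√X * √C) + C * m)
  refine ⟨max G m, fun y r hr => ?_⟩
  have hm : 0 ≤ m := measureReal_nonneg
  rcases le_or_gt r 1 with hr1 | hr1
  swap
  · calc μ.real (Metric.ball y r) ≤ m * 1 := by
          rw [mul_one]; exact measureReal_mono (Set.subset_univ _)
      _ ≤ max G m * r := mul_le_mul (le_max_right _ _) hr1.le zero_le_one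
          (hm.trans (le_max_right _ _))
  obtain ⟨w, hw, hex, hpr, hlow⟩ := htest y r ⟨hr, hr1⟩
  set W := cf vol w
  set V := cf vol (fun x => D.pr x *ᵥ w x)
  have hVW : conv (cM D.pr) W = V := (cf_mul D.sm_pr hw).symm
  have hVr := cf_rapid (sm_pr_mul D hw)
  obtain ⟨hf, hle⟩ := l2_mul (f := fun k => √((wt k)⁻¹) * ‖S k‖)
    (g := fun k => √(wt k) * ‖V k‖) (fun k => by positivity) (fun k => by positivity)
    (by simpa [mul_pow, Real.sq_sqrt, (Four.wt_pos _).le] using h1)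
    (by
      simp only [mul_pow, Real.sq_sqrt (Four.wt_pos _).le]
      refine Summable.of_nonneg_of_le (fun k => mul_nonneg (Four.wt_pos k).le (sq_nonneg _))
        (fun k => ?_) ((hVr 1).mul_left (∑' k, ‖V k‖))
      rw [pow_one, sq]
      calc wt k * (‖V k‖ * ‖V k‖) = ‖V k‖ * (wt k * ‖V k‖) := by ring
        _ ≤ _ := mul_le_mul_of_nonneg_right ((Four.rapid_summable hVr).le_tsum k
            fun _ _ => norm_nonneg _) (mul_nonneg (Four.wt_pos k).le (norm_nonneg _)))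
  have e0 : ∀ k, √((wt k)⁻¹) * ‖S k‖ * (√(wt k) * ‖V k‖) = ‖S k‖ * ‖V k‖ := fun k => by
    have : √((wt k)⁻¹) * √(wt k) = 1 := by
      rw [← Real.sqrt_mul (inv_nonneg.2 (Four.wt_pos k).le),
        inv_mul_cancel₀ (Four.wt_pos k).ne', Real.sqrt_one]
    calc _ = (√((wt k)⁻¹) * √(wt k)) * (‖S k‖ * ‖V k‖) := by ring
      _ = _ := by rw [this, one_mul]
  replace hf : Summable fun k => ‖S k‖ * ‖V k‖ := hf.congr e0
  rw [tsum_congr e0] at hle
  simp only [mul_pow, Real.sq_sqrt (Four.wt_pos _).le,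
    Real.sq_sqrt (inv_nonneg.2 (Four.wt_pos _).le)] at hle
  replace hle : ∑' k, ‖S k‖ * ‖V k‖ ≤ √X * √C :=
    hle.trans (mul_le_mul_of_nonneg_left (Real.sqrt_le_sqrt hpr) (Real.sqrt_nonneg _))
  have hpair := hasSum_pairing D.s μ hO.meas hR hw
  have hB : ∀ k, qC D.s (cf μ t k) (W k) = -qC D.s (S k) (W k) := fun k => by
    have := qC_exact_closed D.s (hS.exact k) (hex k).1
    rw [qC_add_left] at this
    exact eq_neg_of_add_eq_zero_left this
  have hI : ((∫ x, qR D.s (t x) (w x) ∂μ : ℝ) : ℂ) = -∑' k, qC D.s (S k) (V k) := by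
    rw [← hpair.tsum_eq, tsum_congr hB, tsum_neg, ← hVW,
      ← conv_selfAdj D (polyB_of_weighted hS.wtd) (cf_rapid hw), hS.proj]
  have hbound : |∫ x, qR D.s (t x) (w x) ∂μ| ≤ 6 * (√X * √C) := by
    rw [← Real.norm_eq_abs, ← Complex.norm_real, hI, norm_neg]
    have hs : Summable fun k => ‖qC D.s (S k) (V k)‖ :=
      Summable.of_nonneg_of_le (fun k => norm_nonneg _) (fun k => norm_qC_le' D _ _) (hf.mul_left 6)
    refine (norm_tsum_le_tsum_norm hs).trans ((hs.tsum_le_tsum (fun k => norm_qC_le' D _ _)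
      (hf.mul_left 6)).trans ?_)
    rw [tsum_mul_left]
    exact mul_le_mul_of_nonneg_left hle (by norm_num)
  have hmball := Metric.isOpen_ball (x := y) (ε := r) |>.measurableSet
  have hmono : ∫ x, ((Metric.ball y r).indicator (fun _ => (C * r)⁻¹) x - C) ∂μ ≤
      ∫ x, qR D.s (t x) (w x) ∂μ := by
    refine integral_mono (((integrable_const _).indicator hmball).sub (integrable_const _))
      (integrable_qR D.s hO.meas hR hw) fun x => ?_
    obtain ⟨a1, a2⟩ := hlow x _ (hO.cone x)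
    rw [hO.norm, mul_one] at a1 a2
    by_cases hx : x ∈ Metric.ball y r
    · simp only [Set.indicator_of_mem hx]
      simpa using a2 (by simpa [dist_comm] using hx)
    · simp only [Set.indicator_of_notMem hx, zero_sub]
      exact a1
  rw [integral_sub ((integrable_const _).indicator hmball) (integrable_const _),
    integral_indicator_const _ hmball, integral_const, smul_eq_mul, smul_eq_mul] at hmono
  have h2 : μ.real (Metric.ball y r) * (C * r)⁻¹ ≤ 6 * (√X * √C) + C * m := by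
    linarith [(abs_le.1 hbound).2]
  rw [← div_eq_mul_inv, div_le_iff₀ (mul_pos hC hr)] at h2
  calc μ.real (Metric.ball y r) ≤ G * r := h2.trans_eq (by ring)
    _ ≤ _ := mul_le_mul_of_nonneg_right (le_max_left _ _) hr.le

end Vale.Agent.P204
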