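import Vale.Agent.P204.Defs

/-!
The heat kernel of the three-torus: Fourier series, positivity and Gaussian bound.
-/

open MeasureTheory Filter Topology HurwitzZeta
open scoped Real

namespace Vale.Agent.P204

/-- The heat kernel of the circle. -/
noncomputable def th1 (τ : ℝ) (z : UnitAddCircle) : ℝ := cosKernel z (τ / π)

/-- The heat kernel of the three-torus. -/
noncomputable def th3 (τ : ℝ) (z : T3) : ℝ := ∏ i, th1 τ (z i)

lemma th1_hasSum {τ : ℝ} (hτ : 0 < τ) (z : UnitAddCircle) :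
    HasSum (fun n : ℤ => fourier n z * (Real.exp (-(τ * (n : ℝ) ^ 2)) : ℂ)) (th1 τ z : ℂ) := by
  induction z using QuotientAddGroup.induction_on with
  | H a =>
    refine (hasSum_int_cosKernel a (div_pos hτ Real.pi_pos)).congr_fun fun n => ?_
    rw [fourier_coe_apply]
    have e : -π * (n : ℝ) ^ 2 * (τ / π) = -(τ * (n : ℝ) ^ 2) := by
      field_simp
    rw [e]
    congr 2
    push_cast
    ring

lemma hasSum_pi_prod : ∀ {n : ℕ} {f : Fin n → ℤ → ℂ} {a : Fin n → ℂ},
    (∀ i, HasSum (f i) (a i)) → (∀ i, Summable fun m => ‖f i m‖) →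
    HasSum (fun k : Fin n → ℤ => ∏ i, f i (k i)) (∏ i, a i) ∧
      Summable fun k : Fin n → ℤ => ‖∏ i, f i (k i)‖ := by
  intro n
  induction n with
  | zero =>
    intro f a _ _
    refine ⟨?_, Summable.of_finite⟩
    have h := hasSum_unique (f := fun k : Fin 0 → ℤ => ∏ i, f i (k i))
    simpa using h
  | succ n ih =>
    intro f a hf hn
    obtain ⟨h1, h2⟩ := ih (fun i => hf i.succ) (fun i => hn i.succ)
    obtain ⟨g, hg⟩ : ∃ g : (Fin n → ℤ) → ℂ, g = fun k => ∏ i, f i.succ (k i) := ⟨_, rfl⟩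
    have hg1 : HasSum g (∏ i : Fin n, a i.succ) := hg ▸ h1
    have hg2 : Summable fun k => ‖g k‖ := by rw [hg]; exact h2
    have hp : Summable fun p : ℤ × (Fin n → ℤ) => ‖f 0 p.1 * g p.2‖ :=
      Summable.mul_norm (f := f 0) (g := g) (hn 0) hg2
    have hs := (hf 0).mul hg1 hp.of_norm
    subst hg
    constructor
    · rw [← (Fin.consEquiv fun _ : Fin (n + 1) => ℤ).hasSum_iff, Fin.prod_univ_succ]
      refine hs.congr_fun fun p => ?_
      simp [Function.comp_def, Fin.prod_univ_succ, Fin.consEquiv]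
    · rw [← (Fin.consEquiv fun _ : Fin (n + 1) => ℤ).summable_iff]
      refine hp.congr fun p => ?_
      simp [Function.comp_def, Fin.prod_univ_succ, Fin.consEquiv]

lemma abs_le_sq_int (n : ℤ) : |(n : ℝ)| ≤ (n : ℝ) ^ 2 := by
  have : |n| ≤ n ^ 2 := by nlinarith [sq_abs n, abs_nonneg n]
  exact_mod_cast this

lemma summable_exp_neg_abs_int : Summable fun n : ℤ => Real.exp (-|(n : ℝ)|) := by
  refine Summable.of_nat_of_neg ?_ ?_ <;> simpa using Real.summable_exp_neg_nat

lemma summable_gauss {τ : ℝ} (hτ : 0 < τ) :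
    Summable fun n : ℤ => Real.exp (-(τ * (n : ℝ) ^ 2)) := by
  have h := (th1_hasSum hτ 0).summable
  simp only [fourier_eval_zero, one_mul] at h
  exact Complex.summable_ofReal.1 h

lemma th3_hasSum {τ : ℝ} (hτ : 0 < τ) (z : T3) :
    HasSum (fun k : Idx => UnitAddTorus.mFourier k z * (Real.exp (-(τ * (wt k - 1))) : ℂ))
      (th3 τ z : ℂ) := by
  have h := (hasSum_pi_prod (fun i => th1_hasSum hτ (z i)) fun i => by
    refine (summable_gauss hτ).congr fun n => ?_
    rw [norm_mul, fourier_apply, Circle.norm_coe, one_mul, Complex.norm_real,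
      Real.norm_of_nonneg (Real.exp_pos _).le]).1
  rw [th3, Complex.ofReal_prod]
  refine h.congr_fun fun k => ?_
  rw [Finset.prod_mul_distrib, ← Complex.ofReal_prod, ← Real.exp_sum]
  congr 3
  rw [wt, add_sub_cancel_left, Finset.mul_sum, ← Finset.sum_neg_distrib]

lemma th3_summable {τ : ℝ} (hτ : 0 < τ) :
    Summable fun k : Idx => Real.exp (-(τ * (wt k - 1))) := by
  have h := (th3_hasSum hτ 0).summable
  refine Complex.summable_ofReal.1 (h.congr fun k => ?_)
  simp [UnitAddTorus.mFourier, fourier_eval_zero]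

lemma th1_nonneg {τ : ℝ} (hτ : 0 < τ) (z : UnitAddCircle) : 0 ≤ th1 τ z := by
  have hy : 0 < τ / π := div_pos hτ Real.pi_pos
  induction z using QuotientAddGroup.induction_on with
  | H a =>
    have h := evenKernel_functional_equation (a : UnitAddCircle) (1 / (τ / π))
    rw [one_div_one_div] at h
    have h0 : 0 ≤ evenKernel (a : UnitAddCircle) (1 / (τ / π)) :=
      (hasSum_int_evenKernel a (one_div_pos.2 hy)).nonneg fun n => (Real.exp_pos _).le
    rw [h] at h0
    exact nonneg_of_mul_nonneg_right h0 (by positivity)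

lemma th3_nonneg {τ : ℝ} (hτ : 0 < τ) (z : T3) : 0 ≤ th3 τ z :=
  Finset.prod_nonneg fun _ _ => th1_nonneg hτ _

lemma th3_neg (τ : ℝ) (z : T3) : th3 τ (-z) = th3 τ z := by
  simp [th3, th1]

lemma th3_continuous {τ : ℝ} (hτ : 0 < τ) : Continuous (th3 τ) := by
  have h : Continuous fun z : T3 =>
      ∑' k : Idx, UnitAddTorus.mFourier k z * (Real.exp (-(τ * (wt k - 1))) : ℂ) := by
    refine continuous_tsum (fun k => by fun_prop) (th3_summable hτ) fun k z => ?_
    rw [norm_mul, Complex.norm_real, Real.norm_of_nonneg (Real.exp_pos _).le]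
    exact mul_le_of_le_one_left (Real.exp_pos _).le
      (((UnitAddTorus.mFourier k).norm_coe_le_norm z).trans_eq UnitAddTorus.mFourier_norm)
  have e : th3 τ = fun z => (∑' k : Idx,
      UnitAddTorus.mFourier k z * (Real.exp (-(τ * (wt k - 1))) : ℂ)).re := by
    funext z; rw [(th3_hasSum hτ z).tsum_eq, Complex.ofReal_re]
  rw [e]
  exact Complex.continuous_re.comp h

/-- The size of the heat kernel at time `τ` in each direction. -/
noncomputable def sz (τ : ℝ) : ℝ := max (1 / √τ) 1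

lemma th1_le : ∃ A : ℝ, 0 ≤ A ∧ ∀ τ : ℝ, 0 < τ → ∀ z : UnitAddCircle,
    th1 τ z ≤ A * sz τ * Real.exp (-(π ^ 2 * ‖z‖ ^ 2 / τ)) := by
  set S := ∑' n : ℤ, Real.exp (-|(n : ℝ)|) with hS
  have S0 : 0 ≤ S := tsum_nonneg fun _ => (Real.exp_pos _).le
  set A := max (√π * (Real.exp 1 * S)) (S * Real.exp (π ^ 2 / 4)) with hA
  have A0 : 0 ≤ A := le_max_of_le_left (by positivity)
  refine ⟨A, A0, fun τ hτ z => ?_⟩
  induction z using QuotientAddGroup.induction_on with
  | H x =>
  set a := x - round x with ha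
  have ez : (x : UnitAddCircle) = (a : UnitAddCircle) := by
    have h0 : ((round x : ℝ) : UnitAddCircle) = 0 :=
      (AddCircle.coe_eq_zero_iff 1).2 ⟨round x, by simp⟩
    rw [ha, AddCircle.coe_sub, h0, sub_zero]
  have en : ‖(x : UnitAddCircle)‖ = |a| := UnitAddCircle.norm_eq
  have ha2 : |a| ≤ 1 / 2 := abs_sub_round x
  rw [en, sq_abs]
  rcases le_total τ 1 with c | c
  · have hy : 0 < τ / π := div_pos hτ Real.pi_pos
    have h := evenKernel_functional_equation (a : UnitAddCircle) (1 / (τ / π))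
    rw [one_div_one_div] at h
    have hb : evenKernel (a : UnitAddCircle) (1 / (τ / π)) ≤
        Real.exp 1 * S * Real.exp (-(π ^ 2 * a ^ 2 / τ)) := by
      have h1 := hasSum_int_evenKernel a (one_div_pos.2 hy)
      refine hasSum_le (fun n => ?_) h1
        (((summable_exp_neg_abs_int.hasSum).mul_left (Real.exp 1)).mul_right _)
      rw [← Real.exp_add, ← Real.exp_add]
      refine Real.exp_le_exp.2 ?_
      have k1 : (n : ℝ) ^ 2 - |(n : ℝ)| ≤ ((n : ℝ) + a) ^ 2 - a ^ 2 := by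
        nlinarith [mul_le_mul_of_nonneg_left ha2 (abs_nonneg (n : ℝ)), abs_mul (n : ℝ) a,
          neg_abs_le ((n : ℝ) * a)]
      have k2 : 1 ≤ π ^ 2 / τ := by
        rw [le_div_iff₀ hτ]
        nlinarith [Real.pi_gt_three]
      have k0 : 0 ≤ (n : ℝ) ^ 2 - |(n : ℝ)| := sub_nonneg.2 (abs_le_sq_int n)
      have k3 : (n : ℝ) ^ 2 - |(n : ℝ)| ≤ π ^ 2 / τ * (((n : ℝ) + a) ^ 2 - a ^ 2) :=
        (le_mul_of_one_le_left k0 k2).trans
          (mul_le_mul_of_nonneg_left k1 (le_trans zero_le_one k2))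
      have e : -π * ((n : ℝ) + a) ^ 2 * (1 / (τ / π)) = -(π ^ 2 / τ * ((n : ℝ) + a) ^ 2) := by
        field_simp
      rw [e]
      have : π ^ 2 * a ^ 2 / τ = π ^ 2 / τ * a ^ 2 := by ring
      nlinarith [sq_nonneg (|(n : ℝ)| - 1), sq_abs (n : ℝ)]
    have hq : 0 < (1 / (τ / π)) ^ (1 / 2 : ℝ) := by positivity
    have eq1 : th1 τ (a : UnitAddCircle) =
        (1 / (τ / π)) ^ (1 / 2 : ℝ) * evenKernel (a : UnitAddCircle) (1 / (τ / π)) := by
      rw [h, th1]; field_simp
    rw [ez, eq1]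
    have e2 : (1 / (τ / π)) ^ (1 / 2 : ℝ) = √π * (1 / √τ) := by
      rw [← Real.sqrt_eq_rpow, one_div_div, Real.sqrt_div Real.pi_pos.le]
      ring
    rw [e2]
    calc √π * (1 / √τ) * evenKernel (a : UnitAddCircle) (1 / (τ / π))
        ≤ √π * (1 / √τ) * (Real.exp 1 * S * Real.exp (-(π ^ 2 * a ^ 2 / τ))) :=
          mul_le_mul_of_nonneg_left hb (by positivity)
      _ = √π * (Real.exp 1 * S) * (1 / √τ) * Real.exp (-(π ^ 2 * a ^ 2 / τ)) := by ring
      _ ≤ A * sz τ * Real.exp (-(π ^ 2 * a ^ 2 / τ)) :=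
          mul_le_mul_of_nonneg_right
            (mul_le_mul (le_max_left _ _) (le_max_left _ _) (by positivity) A0)
            (Real.exp_pos _).le
  · have hb : th1 τ (x : UnitAddCircle) ≤ S := by
      have h1 := th1_hasSum hτ (x : UnitAddCircle)
      have hn : Summable fun n : ℤ =>
          ‖fourier n (x : UnitAddCircle) * (Real.exp (-(τ * (n : ℝ) ^ 2)) : ℂ)‖ := by
        refine (summable_gauss hτ).congr fun n => ?_
        rw [norm_mul, fourier_apply, Circle.norm_coe, one_mul, Complex.norm_real,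
          Real.norm_of_nonneg (Real.exp_pos _).le]
      have h2 := norm_tsum_le_tsum_norm hn
      rw [h1.tsum_eq, Complex.norm_real] at h2
      refine (le_abs_self _).trans (h2.trans ?_)
      refine hn.tsum_le_tsum (fun n => ?_) summable_exp_neg_abs_int
      rw [norm_mul, fourier_apply, Circle.norm_coe, one_mul, Complex.norm_real,
        Real.norm_of_nonneg (Real.exp_pos _).le]
      exact Real.exp_le_exp.2 (neg_le_neg ((abs_le_sq_int n).trans
        (le_mul_of_one_le_left (sq_nonneg _) c)))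
    refine hb.trans ?_
    have e : 1 ≤ Real.exp (π ^ 2 / 4) * Real.exp (-(π ^ 2 * a ^ 2 / τ)) := by
      rw [← Real.exp_add]
      refine Real.one_le_exp ?_
      have : π ^ 2 * a ^ 2 / τ ≤ π ^ 2 / 4 := by
        rw [div_le_iff₀ hτ]
        have ha4 : a ^ 2 ≤ 1 / 4 := by
          nlinarith [abs_nonneg a, sq_abs a, mul_le_mul ha2 ha2 (abs_nonneg a) (by norm_num)]
        nlinarith [mul_le_mul_of_nonneg_left ha4 (sq_nonneg π), sq_nonneg π]
      linarith
    calc S = S * 1 := (mul_one _).symm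
      _ ≤ S * (Real.exp (π ^ 2 / 4) * Real.exp (-(π ^ 2 * a ^ 2 / τ))) :=
          mul_le_mul_of_nonneg_left e S0
      _ = S * Real.exp (π ^ 2 / 4) * 1 * Real.exp (-(π ^ 2 * a ^ 2 / τ)) := by ring
      _ ≤ A * sz τ * Real.exp (-(π ^ 2 * a ^ 2 / τ)) :=
          mul_le_mul_of_nonneg_right
            (mul_le_mul (le_max_right _ _) (le_max_right _ _) zero_le_one A0)
            (Real.exp_pos _).le

lemma th3_le : ∃ A : ℝ, 0 ≤ A ∧ ∀ τ : ℝ, 0 < τ → ∀ z : T3,
    th3 τ z ≤ A * sz τ ^ 3 * Real.exp (-(π ^ 2 * ‖z‖ ^ 2 / τ)) := by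
  obtain ⟨A, A0, h⟩ := th1_le
  refine ⟨A ^ 3, by positivity, fun τ hτ z => ?_⟩
  have s0 : 0 ≤ sz τ := zero_le_one.trans (le_max_right _ _)
  refine (Finset.prod_le_prod (fun i _ => th1_nonneg hτ (z i)) fun i _ => h τ hτ (z i)).trans ?_
  rw [Finset.prod_mul_distrib, Finset.prod_const, Finset.card_univ, Fintype.card_fin, ← Real.exp_sum,
    mul_pow]
  refine mul_le_mul_of_nonneg_left (Real.exp_le_exp.2 ?_) (by positivity)
  rw [Finset.sum_neg_distrib, neg_le_neg_iff, ← Finset.sum_div, ← Finset.mul_sum]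
  refine div_le_div_of_nonneg_right (mul_le_mul_of_nonneg_left ?_ (sq_nonneg π)) hτ.le
  have hsum : ‖z‖ ≤ √(∑ i, ‖z i‖ ^ 2) := by
    refine (pi_norm_le_iff_of_nonneg (Real.sqrt_nonneg _)).2 fun i => ?_
    refine Real.le_sqrt_of_sq_le ?_
    exact Finset.single_le_sum (f := fun i => ‖z i‖ ^ 2) (fun _ _ => sq_nonneg _)
      (Finset.mem_univ i)
  calc ‖z‖ ^ 2 ≤ √(∑ i, ‖z i‖ ^ 2) ^ 2 := pow_le_pow_left₀ (norm_nonneg _) hsum 2
    _ = ∑ i, ‖z i‖ ^ 2 := Real.sq_sqrt (Finset.sum_nonneg fun _ _ => sq_nonneg _)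

end Vale.Agent.P204
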